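import Vale.Agent.P202.Mixed.Window.Src
import Vale.Agent.P202.Mixed.Levels.LenK

/-!
# P202 mixed characteristic, the window: the complex of sections at the bottom

The zeroth homology of the complex of sections modulo a level is, up to negligible error, the sum
of the sections of lower degree, `D₁` times.
-/

noncomputable section

namespace Vale.Agent.P202.Mixed.Window

open IsLocalRing MvPolynomial Finset

universe u

section Free

variable {B : Type u} [CommRing B] [IsLocalRing B] {d K nn : ℕ} {F : FreeCx (Rz B d)}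
  {deg : F.ι → ℤ}

/-- The residue complex, with its index type visible. -/
@[reducible] def resF (F : FreeCx (Rz B d)) : FreeCx (MvPolynomial (Fin d) (ResidueField B)) where
  ι := F.ι
  fin := F.fin
  dec := F.dec
  pos := F.pos
  mat := Matrix.of fun p q => polyResidue B d (F.mat p q)
  mat_pos := (F.map (polyResidue B d)).mat_pos
  sq := (F.map (polyResidue B d)).sq

/-- The residue differential module. -/
abbrev resFDiff (F : FreeCx (Rz B d)) :
    Diff (ResidueField B) (F.ι → MvPolynomial (Fin d) (ResidueField B)) :=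
  (resF F).diff (MvPolynomial (Fin d) (ResidueField B)) (ResidueField B)

variable (F) in
/-- The leading parts of one coordinate. -/
def fLead (deg : F.ι → ℤ) (t : ℤ) (i : Fin nn) :
    (F.ι → Fin nn → Rz B d) →ₗ[B] (F.ι → MvPolynomial (Fin d) (ResidueField B)) :=
  LinearMap.pi fun f => lead B d (t - deg f) ∘ₗ LinearMap.proj i ∘ₗ LinearMap.proj f

theorem fLead_apply (t : ℤ) (i : Fin nn) (a : F.ι → Fin nn → Rz B d) (f : F.ι) :
    fLead F deg t i a f = lead B d (t - deg f) (a f i) := rfl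

theorem fLead_mem (t : ℤ) (i : Fin nn) (a : F.ι → Fin nn → Rz B d) :
    fLead F deg t i a ∈ degPiece (ResidueField B) deg t := by
  rw [degPiece, Submodule.mem_pi]
  intro f _
  rw [fLead_apply, mem_homInt]
  intro α hα
  rw [coeff_lead] at hα
  by_contra h
  exact hα (if_neg h)

variable (hhom : ∀ h g, F.mat h g ∈ homInt B d (deg g - deg h))

include hhom in
theorem fMat_srcX (t : ℤ) (l g : F.ι) :
    F.mat l g ∈ srcX B d K ((t - deg l) - (t - deg g)) := by
  rw [sub_sub_sub_cancel_left]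
  exact mem_srcX_of_homInt (hhom l g)

include hhom in
theorem fLead_d (t : ℤ) (i : Fin nn) {a : F.ι → Fin nn → Rz B d}
    (ha : a ∈ srcLvl F K nn fun f => t - deg f) :
    fLead F deg t i (F.dA (Fin nn → Rz B d) a) =
      (resF F).dA (MvPolynomial (Fin d) (ResidueField B)) (fLead F deg t i a) := by
  funext l
  rw [fLead_apply, dA_src_apply, map_sum, FreeCx.dA_apply]
  refine sum_congr rfl fun g _ => ?_
  have h := lead_mul (fMat_srcX (K := K) hhom t l g) (mem_srcLvl.1 ha g i)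
  rw [sub_add_cancel, sub_sub_sub_cancel_left, lead_apply (deg g - deg l),
    comp_eq_self (hhom l g)] at h
  exact h

include hhom in
theorem fd_mem_srcLvl (t : ℤ) {a : F.ι → Fin nn → Rz B d}
    (ha : a ∈ srcLvl F K nn fun f => t - deg f) :
    F.dA (Fin nn → Rz B d) a ∈ srcLvl F K nn fun f => t - deg f :=
  dA_mem_srcLvl (fun l g _ => fMat_srcX hhom t l g) ha

theorem f_mem_srcLvl₀_iff (t : ℤ) {a : F.ι → Fin nn → Rz B d}
    (ha : a ∈ srcLvl F K nn fun f => t - deg f) :
    a ∈ srcLvl₀ F K nn (fun f => t - deg f) ↔ ∀ i, fLead F deg t i a = 0 := by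
  rw [mem_srcLvl₀]
  exact ⟨fun h i => funext fun f => (h f i).2,
    fun h f i => ⟨mem_srcLvl.1 ha f i, congrFun (h i) f⟩⟩

theorem f_exists_lift (t j : ℤ) (y : Fin nn → F.ι → MvPolynomial (Fin d) (ResidueField B))
    (hy : ∀ i, y i ∈ degPiece (ResidueField B) deg t) (hdeg : ∀ i, y i ∈ (resFDiff F).deg j) :
    ∃ a ∈ srcLvl F K nn (fun f => t - deg f),
      a ∈ (F.diff (Fin nn → Rz B d) B).deg j ∧ ∀ i, fLead F deg t i a = y i := by
  classical
  have h : ∀ (f : F.ι) (i : Fin nn), ∃ P : Rz B d, P ∈ srcX B d K (t - deg f) ∧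
      lead B d (t - deg f) P = y i f ∧ ((F.pos f : ℤ) ≠ j → P = 0) := by
    intro f i
    by_cases hj : (F.pos f : ℤ) = j
    · obtain ⟨P, hP1, hP2⟩ := exists_lift (K := K) ((Submodule.mem_pi.1 (hy i)) f (Set.mem_univ _))
      exact ⟨P, hP1, hP2, fun h => absurd hj h⟩
    · exact ⟨0, Submodule.zero_mem _, by rw [map_zero, hdeg i f hj], fun _ => rfl⟩
  choose P hP1 hP2 hP3 using h
  exact ⟨fun f i => P f i, mem_srcLvl.2 hP1, fun f hf => funext fun i => hP3 f i hf,
    fun i => funext fun f => hP2 f i⟩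

theorem finite_degPiece_bottom (t : ℤ) :
    Module.Finite (ResidueField B) (degPiece (ResidueField B) (d := d) deg t) := by
  have h : ∀ u : ℤ, Module.Finite (ResidueField B) (homInt (ResidueField B) d u) := fun u => by
    by_cases h : 0 ≤ u
    · rw [homInt, if_pos h]
      exact Module.Finite.iff_fg.2 (homogeneousSubmodule_fg (σ := Fin d) (ResidueField B) u.toNat)
    · rw [homInt, if_neg h]
      infer_instance
  refine Module.Finite.of_injective (LinearMap.pi fun f : F.ι =>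
    LinearMap.codRestrict (homInt (ResidueField B) d (t - deg f))
      (LinearMap.proj f ∘ₗ (degPiece (ResidueField B) deg t).subtype) fun x => x.2 f trivial) ?_
  intro x y hxy
  exact Subtype.ext (funext fun f => congrArg Subtype.val (congrFun hxy f))

theorem len_residue_betti (t j : ℤ) :
    len (((resFDiff F).bdries (degPiece (ResidueField B) deg t) ⊥ j).restrictScalars B)
        (((resFDiff F).cycles (degPiece (ResidueField B) deg t) ⊥ j).restrictScalars B) =
      ((resFDiff F).betti (degPiece (ResidueField B) deg t) ⊥ j : ℕ∞) := by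
  have : Module.Finite (ResidueField B)
      ((resFDiff F).cycles (degPiece (ResidueField B) deg t) ⊥ j) := by
    have := finite_degPiece_bottom (B := B) (d := d) (F := F) (deg := deg) t
    exact Module.Finite.of_injective (Submodule.inclusion
      (fun x hx => ((Diff.mem_cycles _).1 hx).1 :
        (resFDiff F).cycles (degPiece (ResidueField B) deg t) ⊥ j ≤
          degPiece (ResidueField B) deg t)) (Submodule.inclusion_injective _)
  rw [len_restrictScalars, Diff.betti, ← Module.length_eq_finrank, ← Module.length_eq_finrank]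
  exact len_eq_quot _ _

include hhom in
/-- A graded piece on a free module. -/
theorem len_fsrc (t j : ℤ) :
    len ((F.diff (Fin nn → Rz B d) B).bdries (srcLvl F K nn fun f => t - deg f)
        (srcLvl₀ F K nn fun f => t - deg f) j)
      ((F.diff (Fin nn → Rz B d) B).cycles (srcLvl F K nn fun f => t - deg f)
        (srcLvl₀ F K nn fun f => t - deg f) j) =
      ((nn * (resFDiff F).betti (degPiece (ResidueField B) deg t) ⊥ j : ℕ) : ℕ∞) := by
  rw [len_eq_sum (fun i => fLead F deg t i)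
    (fun _ => ((resFDiff F).bdries (degPiece (ResidueField B) deg t) ⊥ j).restrictScalars B)
    (fun _ => ((resFDiff F).cycles (degPiece (ResidueField B) deg t) ⊥ j).restrictScalars B)]
  · simp [len_residue_betti]
  · intro a ha i
    obtain ⟨h1, h2, h3⟩ := (Diff.mem_cycles _).1 ha
    refine (Diff.mem_cycles _).2 ⟨fLead_mem t i a, fun f hf => ?_, ?_⟩
    · rw [fLead_apply, h2 f hf, Pi.zero_apply, map_zero]
    · rw [Submodule.mem_bot]
      show (resF F).dA _ (fLead F deg t i a) = 0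
      rw [← fLead_d hhom t i h1]
      exact (f_mem_srcLvl₀_iff t (fd_mem_srcLvl hhom t h1)).1 h3 i
  · intro a ha
    obtain ⟨h1, h2, -⟩ := (Diff.mem_cycles _).1 ha
    constructor
    · intro h i
      obtain ⟨w, ⟨hw, hw'⟩, y, ⟨hy, -⟩, rfl⟩ := (Diff.mem_bdries _).1 h
      refine (Diff.mem_bdries _).2 ⟨fLead F deg t i w, ⟨fLead_mem t i w, fun f hf => ?_⟩, 0,
        ⟨Submodule.zero_mem _, Submodule.zero_mem _⟩, ?_⟩
      · rw [fLead_apply, hw' f hf, Pi.zero_apply, map_zero]
      · rw [add_zero, map_add, (f_mem_srcLvl₀_iff t (srcLvl₀_le _ hy)).1 hy i, add_zero]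
        exact (fLead_d hhom t i hw).symm
    · intro h
      choose w hw e he hwe using fun i => (Diff.mem_bdries _).1 (h i)
      obtain ⟨W, hW, hWd, hWl⟩ := f_exists_lift (K := K) t (j + 1) w (fun i => (hw i).1)
        fun i => (hw i).2
      refine (Diff.mem_bdries _).2 ⟨W, ⟨hW, hWd⟩, a - F.dA (Fin nn → Rz B d) W,
        ⟨?_, Submodule.sub_mem _ h2 (d_mem_deg _ hWd)⟩, add_sub_cancel _ _⟩
      refine (f_mem_srcLvl₀_iff t (Submodule.sub_mem _ h1 (fd_mem_srcLvl hhom t hW))).2 fun i => ?_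
      rw [map_sub, fLead_d hhom t i hW, hWl, sub_eq_zero, ← hwe i,
        (Submodule.mem_bot _).1 (he i).1, add_zero]
      rfl
  · intro y hy
    obtain ⟨a, ha, had, hal⟩ := f_exists_lift (K := K) t j y
      (fun i => ((Diff.mem_cycles _).1 (hy i)).1) (fun i => ((Diff.mem_cycles _).1 (hy i)).2.1)
    refine ⟨a, (Diff.mem_cycles _).2 ⟨ha, had, ?_⟩, hal⟩
    refine (f_mem_srcLvl₀_iff t (fd_mem_srcLvl hhom t ha)).2 fun i => ?_
    rw [fLead_d hhom t i ha, hal]
    exact (Submodule.mem_bot _).1 ((Diff.mem_cycles _).1 (hy i)).2.2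

end Free

section Bottom

variable {B : Type u} [CommRing B] [IsLocalRing B] {d K : ℕ} {M : Type u} [AddCommGroup M]
  [Module (Rz B d) M] [Module B M] [IsScalarTower B (Rz B d) M]

/-- The length of the relative homology between two levels. -/
abbrev lvlH (F : FreeCx (Rz B d)) (M : Type u) [AddCommGroup M] [Module (Rz B d) M] [Module B M]
    [IsScalarTower B (Rz B d) M] (K : ℕ) (T T' : F.ι → ℤ) (j : ℤ) : ℕ∞ :=
  len ((F.diff M B).bdries (lvlF B (d := d) M K T) (lvlF B (d := d) M K T') j)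
    ((F.diff M B).cycles (lvlF B (d := d) M K T) (lvlF B (d := d) M K T') j)

theorem lvlH_zero_add (F : FreeCx (Rz B d)) {T T' T'' : F.ι → ℤ} (h : ∀ f, T f ≤ T' f)
    (h' : ∀ f, T' f ≤ T'' f) (htop : lvlF B (d := d) M K T = ⊤) :
    lvlH F M K T' T'' 0 + lvlH F M K T T' 0 ≤ lvlH F M K T T'' 0 + lvlH F M K T T' 1 := by
  let D := F.diff M B
  let W := lvlF B (d := d) M K T
  let X := lvlF B (d := d) M K T'
  let Y := lvlF B (d := d) M K T''
  have hXW : X ≤ W := lvlF_antitone h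
  have hYX : Y ≤ X := lvlF_antitone h'
  have h1 : lvlH F M K T' T'' 0 ≤
      lvlH F M K T T' 1 + len (D.bdries W Y 0) (D.cycles X Y 0) := by
    refine (len_le_add_map LinearMap.id (D.bdries X Y 0) (D.cycles X Y 0) (D.bdries W Y 0)).trans
      (add_le_add ?_ (by rw [Submodule.map_id]))
    rw [Submodule.comap_id]
    refine (len_mono (N' := (D.cycles W X 1).map D.d ⊔ D.bdries X Y 0) ?_).trans ?_
    · rintro z ⟨hz, hzb⟩
      obtain ⟨w, ⟨hw, hw'⟩, y, hy, rfl⟩ := D.mem_bdries.1 hzb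
      refine Submodule.add_mem_sup ⟨w, D.mem_cycles.2 ⟨hw, hw', ?_⟩, rfl⟩
        (D.mem_bdries.2 ⟨0, ⟨X.zero_mem, Submodule.zero_mem _⟩, y, hy,
          by rw [map_zero, zero_add]⟩)
      simpa using X.sub_mem (D.mem_cycles.1 hz).1 (hYX hy.1)
    · rw [len_sup_left _ _ le_rfl]
      refine len_map_le D.d fun z _ hz => ?_
      obtain ⟨w, -, r, hr, rfl⟩ := D.mem_bdries.1 hz
      rw [map_add, D.d_d, zero_add]
      exact D.mem_bdries.2 ⟨r, hr, 0, ⟨Y.zero_mem, Submodule.zero_mem _⟩, add_zero _⟩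
  have hcyc : D.cycles W X 0 ≤ D.cycles W Y 0 := fun z hz => by
    obtain ⟨hz1, hz2, -⟩ := D.mem_cycles.1 hz
    refine D.mem_cycles.2 ⟨hz1, hz2, ?_⟩
    have h0 : D.d z = 0 := funext fun f => D.d_deg 0 z hz2 f (by omega)
    rw [h0]
    exact Y.zero_mem
  have h2 : len (D.bdries W Y 0) (D.cycles X Y 0) + lvlH F M K T T' 0 ≤ lvlH F M K T T'' 0 := by
    show _ ≤ len (D.bdries W Y 0) (D.cycles W Y 0)
    rw [len_eq_add_map LinearMap.id (D.bdries W Y 0) (D.cycles W Y 0) (D.bdries W X 0)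
      (fun z _ hz => bdries_mono D le_rfl hYX 0 hz), Submodule.map_id, Submodule.comap_id]
    refine add_le_add (len_mono fun z hz => ⟨cycles_mono D hXW le_rfl 0 hz, ?_⟩) (len_mono hcyc)
    obtain ⟨hz1, hz2, -⟩ := D.mem_cycles.1 hz
    exact D.mem_bdries.2 ⟨0, ⟨W.zero_mem, Submodule.zero_mem _⟩, z, ⟨hz1, hz2⟩,
      by rw [map_zero, zero_add]⟩
  calc lvlH F M K T' T'' 0 + lvlH F M K T T' 0
      ≤ (lvlH F M K T T' 1 + len (D.bdries W Y 0) (D.cycles X Y 0)) + lvlH F M K T T' 0 :=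
        add_le_add h1 le_rfl
    _ ≤ lvlH F M K T T' 1 + lvlH F M K T T'' 0 := by
        rw [add_assoc]
        exact add_le_add le_rfl h2
    _ = _ := add_comm _ _

theorem lvlH_self (F : FreeCx (Rz B d)) (T : F.ι → ℤ) (j : ℤ) : lvlH F M K T T j = 0 :=
  len_eq_zero fun z hz => by
    obtain ⟨h1, h2, -⟩ := (Diff.mem_cycles _).1 hz
    exact (Diff.mem_bdries _).2 ⟨0, ⟨Submodule.zero_mem _, Submodule.zero_mem _⟩, z, ⟨h1, h2⟩,
      by rw [map_zero, zero_add]⟩

/-- Summing the pieces when the first homology of each is negligible. -/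
theorem lvlH_sum (F : FreeCx (Rz B d)) (T : ℕ → F.ι → ℤ)
    (hmono : ∀ k l, k ≤ l → ∀ f, T k f ≤ T l f) (htop : lvlF B (d := d) M K (T 0) = ⊤)
    {N c : ℕ} {β : ℕ → ℕ}
    (h₁ : ∀ m, m < N → lvlH F M K (T m) (T (m + 1)) 1 ≤ (c : ℕ∞))
    (hu : ∀ m, m < N → lvlH F M K (T m) (T (m + 1)) 0 ≤ ((β m + c : ℕ) : ℕ∞))
    (hl : ∀ m, m < N → ((β m : ℕ) : ℕ∞) ≤ lvlH F M K (T m) (T (m + 1)) 0 + (c : ℕ∞)) :
    ∀ m, m ≤ N →
      lvlH F M K (T 0) (T m) 1 ≤ ((m * c : ℕ) : ℕ∞) ∧
      lvlH F M K (T 0) (T m) 0 ≤ ((∑ k ∈ range m, β k + m * c : ℕ) : ℕ∞) ∧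
      ((∑ k ∈ range m, β k : ℕ) : ℕ∞) ≤
        lvlH F M K (T 0) (T m) 0 + ((m * (N + 1) * c : ℕ) : ℕ∞) := by
  intro m
  induction m with
  | zero =>
    intro _
    simp [lvlH_self]
  | succ m ih =>
    intro hm
    obtain ⟨i1, i2, i3⟩ := ih (by omega)
    have hdev : ∀ j, lvlH F M K (T 0) (T (m + 1)) j ≤
        lvlH F M K (T m) (T (m + 1)) j + lvlH F M K (T 0) (T m) j := fun j =>
      len_devissage _ (lvlF_antitone (hmono m (m + 1) (by omega)))
        (lvlF_antitone (hmono 0 m (by omega))) j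
    refine ⟨(hdev 1).trans ?_, (hdev 0).trans ?_, ?_⟩
    · refine (add_le_add (h₁ m (by omega)) i1).trans (le_of_eq ?_)
      rw [← Nat.cast_add]
      congr 1
      ring
    · refine (add_le_add (hu m (by omega)) i2).trans (le_of_eq ?_)
      rw [sum_range_succ, ← Nat.cast_add]
      congr 1
      ring
    · have h := lvlH_zero_add (M := M) (K := K) F (hmono 0 m (by omega))
        (hmono m (m + 1) (by omega)) htop
      rw [sum_range_succ, Nat.cast_add]
      calc _ ≤ (lvlH F M K (T 0) (T m) 0 + ((m * (N + 1) * c : ℕ) : ℕ∞)) +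
            (lvlH F M K (T m) (T (m + 1)) 0 + (c : ℕ∞)) := add_le_add i3 (hl m (by omega))
        _ = (lvlH F M K (T m) (T (m + 1)) 0 + lvlH F M K (T 0) (T m) 0) +
            (((m * (N + 1) * c : ℕ) : ℕ∞) + (c : ℕ∞)) := by ring
        _ ≤ (lvlH F M K (T 0) (T (m + 1)) 0 + ((m * c : ℕ) : ℕ∞)) +
            (((m * (N + 1) * c : ℕ) : ℕ∞) + (c : ℕ∞)) :=
            add_le_add (h.trans (add_le_add le_rfl i1)) le_rfl
        _ ≤ _ := by
            rw [add_assoc, ← Nat.cast_add, ← Nat.cast_add]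
            refine add_le_add le_rfl (Nat.cast_le.2 ?_)
            nlinarith [Nat.mul_le_mul_right c (show m + 1 ≤ N + 1 by omega)]

/-- One graded piece against the free one. -/
theorem lvlH_piece {F : FreeCx (Rz B d)} {deg : F.ι → ℤ}
    (hhom : ∀ h g, F.mat h g ∈ homInt B d (deg g - deg h)) (hK : 1 ≤ K) {nn c : ℕ}
    (θ : (Fin nn → Rz B d) →ₗ[Rz B d] M) (t : ℤ)
    (hθ : ∀ f, len ((srcXn B d K nn (t - deg f)).map (θ.restrictScalars B) ⊔
          filB B (d := d) M K (t - deg f + 1)) (filB B (d := d) M K (t - deg f)) ≤ (c : ℕ∞) ∧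
        len (srcYn B d K nn (t - deg f)) (srcXn B d K nn (t - deg f) ⊓
          (filB B (d := d) M K (t - deg f + 1)).comap (θ.restrictScalars B)) ≤ (c : ℕ∞)) (j : ℤ) :
    lvlH F M K (fun f => t - deg f) (fun f => t - deg f + 1) j ≤
        ((nn * (resFDiff F).betti (degPiece (ResidueField B) deg t) ⊥ j +
          2 * (Fintype.card F.ι * c) : ℕ) : ℕ∞) ∧
      ((nn * (resFDiff F).betti (degPiece (ResidueField B) deg t) ⊥ j : ℕ) : ℕ∞) ≤
        lvlH F M K (fun f => t - deg f) (fun f => t - deg f + 1) j +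
          ((2 * (Fintype.card F.ι * c) : ℕ) : ℕ∞) := by
  have hpair := chainPair_src (F := F) (T := fun f => t - deg f) hK
    (fun l g _ => fMat_srcX hhom t l g) θ
  have hs := len_fsrc (K := K) (nn := nn) hhom t j
  have hck : ∀ p : ℤ,
      ChainPair.coker (F.diff (Fin nn → Rz B d) B) (F.diff M B) (F.coef B θ)
        (srcLvl F K nn fun f => t - deg f) (lvlF B (d := d) M K fun f => t - deg f)
        (lvlF B (d := d) M K fun g => t - deg g + 1) p ≤ ((Fintype.card F.ι * c : ℕ) : ℕ∞) ∧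
      ChainPair.kern (F.diff (Fin nn → Rz B d) B) (F.coef B θ)
        (srcLvl F K nn fun f => t - deg f) (srcLvl₀ F K nn fun f => t - deg f)
        (lvlF B (d := d) M K fun g => t - deg g + 1) p ≤ ((Fintype.card F.ι * c : ℕ) : ℕ∞) :=
    fun p => by
      rw [Nat.cast_mul]
      exact ⟨coker_src_le θ (fun f => t - deg f) p _ fun f _ => (hθ f).1,
        kern_src_le θ (fun f => t - deg f) p _ fun f _ => (hθ f).2⟩
  have hc : ((Fintype.card F.ι * c : ℕ) : ℕ∞) + ((Fintype.card F.ι * c : ℕ) : ℕ∞) =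
      ((2 * (Fintype.card F.ι * c) : ℕ) : ℕ∞) := by
    rw [← Nat.cast_add, two_mul]
  constructor
  · refine (hpair.len_target_le (j - 1) j (by ring)).trans ?_
    rw [hs, Nat.cast_add, ← hc]
    exact add_le_add le_rfl (add_le_add (hck j).1 (hck (j - 1)).2)
  · refine (le_of_eq hs.symm).trans ((hpair.len_source_le j (j + 1) rfl).trans ?_)
    rw [← hc]
    exact add_le_add le_rfl (add_le_add (hck j).2 (hck (j + 1)).1)

end Bottom

/-- The bottom. -/
theorem exists_bottom {B : Type u} [CommRing B] [IsLocalRing B] [IsNoetherianRing B] {n : ℕ}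
    {c : Fin n → ℤ} (S : SliceCx B c) (x : Fin (n + 1) → B) (Q K : ℕ) (hK : 1 ≤ K) (lo a : ℤ)
    (hlo : ∀ f, lo ≤ S.deg f) :
    ∃ v₀ : ℕ, ∀ v, v₀ ≤ v → ∃ C : ℕ, ∀ (M : Type u) [AddCommGroup M] [Module (Rz B (n + 1)) M]
      [Module B M] [IsScalarTower B (Rz B (n + 1)) M] (D₁ E : ℕ),
      AlmostFree B M x Q K v D₁ E →
      len ((S.F.diff M B).bdries ⊤ (lvlF B (d := n + 1) M K fun f => a - S.deg f) 0)
          ((S.F.diff M B).deg 0) ≤
        ((D₁ * ∑ t ∈ Ico lo a, sectionDim c t 0 + C * E : ℕ) : ℕ∞) ∧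
      ((D₁ * ∑ t ∈ Ico lo a, sectionDim c t 0 : ℕ) : ℕ∞) ≤
        len ((S.F.diff M B).bdries ⊤ (lvlF B (d := n + 1) M K fun f => a - S.deg f) 0)
          ((S.F.diff M B).deg 0) + ((C * E : ℕ) : ℕ∞) := by
  classical
  refine ⟨(a - lo).toNat + 1, fun v hv => ?_⟩
  obtain ⟨C, hC⟩ := exists_cmp (B := B) (n + 1) Q K v hK (by omega) x
  set c₀ := 2 * (Fintype.card S.F.ι * C) with hc₀
  set TT := ∑ t ∈ Ico lo a, sectionDim c t 0 with hTT
  set m₀ := (a - lo).toNat with hm₀
  refine ⟨(m₀ + 1) * (m₀ + 1) * c₀ + TT + C * TT, fun M _ _ _ _ D₁ E hAF => ?_⟩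
  obtain ⟨nn, θ, -, hn1, hn2, hθ⟩ := hC M D₁ E hAF
  let T : ℕ → S.F.ι → ℤ := fun m f => lo + m - S.deg f
  have htop : lvlF B (d := n + 1) M K (T 0) = ⊤ := top_le_iff.1 fun z _ => mem_lvlF.2 fun f => by
    rw [filB_of_nonpos (by have := hlo f; simp only [T]; omega)]
    trivial
  have hmono : ∀ k l : ℕ, k ≤ l → ∀ f, T k f ≤ T l f := fun k l h f => by simp only [T]; omega
  have piece : ∀ m, m < m₀ → ∀ j : ℤ,
      lvlH S.F M K (T m) (T (m + 1)) j ≤
          ((nn * sectionDim c (lo + m) j + c₀ * E : ℕ) : ℕ∞) ∧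
        ((nn * sectionDim c (lo + m) j : ℕ) : ℕ∞) ≤
          lvlH S.F M K (T m) (T (m + 1)) j + ((c₀ * E : ℕ) : ℕ∞) := by
    intro m hm j
    have hT1 : T (m + 1) = fun f => lo + m - S.deg f + 1 := funext fun f => by
      simp only [T]; push_cast; ring
    have h := lvlH_piece (M := M) (c := C * E) S.homog hK θ (lo + m)
      (fun f => hθ _ (by have := hlo f; omega)) j
    have e : 2 * (Fintype.card S.F.ι * (C * E)) = c₀ * E := by rw [hc₀]; ring
    rw [e] at h
    rw [hT1, ← S.resolves]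
    exact h
  have hsum : ∑ k ∈ range m₀, nn * sectionDim c (lo + k) 0 = nn * TT := by
    rw [← mul_sum]
    congr 1
    refine sum_bij (fun k _ => lo + k) (fun k hk => ?_) (fun k _ k' _ h => by omega)
      (fun t ht => ⟨(t - lo).toNat, ?_, ?_⟩) fun k _ => rfl
    · have := mem_range.1 hk
      rw [mem_Ico]
      omega
    · have := mem_Ico.1 ht
      rw [mem_range]
      omega
    · have := mem_Ico.1 ht
      omega
  by_cases ha : lo ≤ a
  · obtain ⟨-, h2, h3⟩ := lvlH_sum (M := M) (K := K) S.F T hmono htop (N := m₀) (c := c₀ * E)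
      (β := fun m => nn * sectionDim c (lo + m) 0)
      (fun m hm => by
        refine (piece m hm 1).1.trans (le_of_eq ?_)
        rw [show sectionDim c (lo + m) 1 = 0 from if_neg fun h => one_ne_zero h.1, mul_zero,
          zero_add])
      (fun m hm => (piece m hm 0).1) (fun m hm => (piece m hm 0).2) m₀ le_rfl
    have hcyc : (S.F.diff M B).cycles ⊤ (lvlF B (d := n + 1) M K (T m₀)) 0 =
        (S.F.diff M B).deg 0 := by
      refine le_antisymm (fun z hz => ((Diff.mem_cycles _).1 hz).2.1) fun z hz => ?_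
      refine (Diff.mem_cycles _).2 ⟨trivial, hz, ?_⟩
      rw [show (S.F.diff M B).d z = 0 from
        funext fun f => (S.F.diff M B).d_deg 0 z hz f (by omega)]
      exact Submodule.zero_mem _
    have hT : (fun f => a - S.deg f) = T m₀ := funext fun f => by simp only [T]; omega
    unfold lvlH at h2 h3
    rw [hsum, htop, hcyc] at h2 h3
    rw [hT]
    have h5 : m₀ * (c₀ * E) ≤ (m₀ + 1) * (m₀ + 1) * c₀ * E := by
      rw [← mul_assoc]
      exact Nat.mul_le_mul_right E (Nat.mul_le_mul_right c₀ (by nlinarith))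
    have h6 : m₀ * (m₀ + 1) * (c₀ * E) ≤ (m₀ + 1) * (m₀ + 1) * c₀ * E := by
      rw [← mul_assoc]
      exact Nat.mul_le_mul_right E (Nat.mul_le_mul_right c₀ (Nat.mul_le_mul_right _ (by omega)))
    refine ⟨h2.trans (Nat.cast_le.2 ?_), ?_⟩
    · have h7 := Nat.mul_le_mul_right TT hn1
      linarith [Nat.zero_le (C * TT * E)]
    · have h4 : D₁ * TT ≤ nn * TT + C * TT * E :=
        (Nat.mul_le_mul_right TT hn2).trans (le_of_eq (by ring))
      refine (Nat.cast_le.2 h4).trans ?_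
      rw [Nat.cast_add]
      refine (add_le_add h3 le_rfl).trans ?_
      rw [add_assoc, ← Nat.cast_add]
      refine add_le_add le_rfl (Nat.cast_le.2 ?_)
      linarith [Nat.zero_le (TT * E)]
  · have hTT0 : TT = 0 := by
      rw [hTT, Ico_eq_empty (fun h => ha h.le), sum_empty]
    rw [hTT0, mul_zero, Nat.cast_zero]
    refine ⟨?_, zero_le⟩
    rw [len_eq_zero]
    · exact zero_le
    intro z hz
    refine (Diff.mem_bdries _).2 ⟨0, ⟨trivial, Submodule.zero_mem _⟩, z,
      ⟨mem_lvlF.2 fun f => ?_, hz⟩, by rw [map_zero, zero_add]⟩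
    rw [filB_of_nonpos (by have := hlo f; omega)]
    trivial

end Vale.Agent.P202.Mixed.Window
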