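import Vale.Agent.P202.Mixed.Levels.Cmp

/-!
# P202 mixed characteristic, the window: nilpotent elements

If every element is nilpotent, a fixed power of the operators kills an almost free module, so the
number of generators is negligible and the window inequality is trivial.
-/

noncomputable section

namespace Vale.Agent.P202.Mixed.Window

open IsLocalRing MvPolynomial Finset

universe u

variable {B : Type u} [CommRing B] [IsLocalRing B] {d : ℕ}
  {M : Type u} [AddCommGroup M] [Module (Rz B d) M] [Module B M] [IsScalarTower B (Rz B d) M]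
  {x : Fin d → B} {Q K v D₁ E : ℕ}

theorem pow_smul_of_almostFree (hAF : AlmostFree B M x Q K v D₁ E) (a : Fin d) :
    ∀ (k : ℕ) (y : M), x a ^ k • y = (X a : Rz B d) ^ (Q * k) • y
  | 0, y => by simp
  | k + 1, y => by
    rw [pow_succ', mul_smul, pow_smul_of_almostFree hAF a k y, hAF.x_smul, smul_smul, ← pow_add,
      Nat.mul_succ, add_comm Q]

/-- A fixed power of the operators kills the module. -/
theorem zpow_eq_bot_of_nilpotent (hAF : AlmostFree B M x Q K v D₁ E) (hd : 1 ≤ d) {k : ℕ}
    (hk : ∀ a, x a ^ k = 0) : zpow B M d (d * (Q * k) + 1) = ⊥ := by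
  classical
  refine le_bot_iff.1 ((zpow_le_monomials _).trans (iSup_le fun α => ?_))
  rintro _ ⟨y, -, rfl⟩
  rw [Submodule.mem_bot, smulB_apply]
  have hα : ∑ a, (α : Fin d →₀ ℕ) a = d * (Q * k) + 1 := (Finset.mem_finsuppAntidiag.1 α.2).1
  obtain ⟨a, ha⟩ : ∃ a, Q * k ≤ (α : Fin d →₀ ℕ) a := by
    by_contra h
    simp only [not_exists, not_le] at h
    have h1 : ∑ a, (α : Fin d →₀ ℕ) a ≤ ∑ _a : Fin d, Q * k := sum_le_sum fun a _ => (h a).le
    rw [sum_const, Finset.card_univ, Fintype.card_fin, smul_eq_mul] at h1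
    omega
  have e : (monomial (α : Fin d →₀ ℕ) (1 : B) : Rz B d) =
      monomial ((α : Fin d →₀ ℕ) - Finsupp.single a (Q * k)) 1 * (X a : Rz B d) ^ (Q * k) := by
    rw [X_pow_eq_monomial, monomial_mul, mul_one,
      tsub_add_cancel_of_le (Finsupp.single_le_iff.2 ha)]
  rw [e, mul_smul, ← pow_smul_of_almostFree hAF, hk a, zero_smul, smul_zero]

/-- The window inequality when all elements are nilpotent. -/
theorem window_nilpotent (hd : 1 ≤ d) (hnil : ∀ a, IsNilpotent (x a)) (Q K r : ℕ) :
    ∃ v₀ : ℕ, ∀ v, v₀ ≤ v → ∃ C : ℕ, ∀ (M : Type u) [AddCommGroup M] [Module (Rz B d) M]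
      [Module B M] [IsScalarTower B (Rz B d) M] (D₁ E : ℕ), AlmostFree B M x Q K v D₁ E →
      r * D₁ * (K - 1) ^ d ≤ C * E := by
  choose k hk using hnil
  let kk := ∑ a, k a
  have hkk : ∀ a, x a ^ kk = 0 := fun a =>
    pow_eq_zero_of_le (Finset.single_le_sum (fun _ _ => Nat.zero_le _) (mem_univ a)) (hk a)
  set N := d * (Q * kk) + 1 with hN
  refine ⟨N + 1, fun v hv => ⟨r * (K - 1) ^ d * (monCount d v + 1),
    fun M _ _ _ _ D₁ E hAF => ?_⟩⟩
  have h1 := hAF.len_zpow_top N
  rw [zpow_eq_bot_of_nilpotent hAF hd hkk, len_bot, Module.length_top] at h1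
  have h2 : Module.length B M ≤ ((monCount d N * (D₁ + E) : ℕ) : ℕ∞) := by
    refine h1.trans ((sum_le_sum fun i _ => hAF.len_zpow_succ i).trans (le_of_eq ?_))
    rw [← Nat.cast_sum, ← Finset.sum_mul, monCount]
  have h3 := hAF.lower.trans (add_le_add h2 le_rfl)
  rw [← Nat.cast_add, Nat.cast_le] at h3
  have hone : ∀ j, 1 ≤ d.multichoose j := fun j => by
    rw [Nat.multichoose_eq]
    exact Nat.choose_pos (by omega)
  have h4 : monCount d N + 1 ≤ monCount d v := by
    have h5 : monCount d (N + 1) ≤ monCount d v :=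
      sum_le_sum_of_subset (Finset.range_subset_range.2 hv)
    have h6 : monCount d (N + 1) = monCount d N + d.multichoose N := sum_range_succ _ _
    have := hone N
    omega
  have h7 : D₁ ≤ (monCount d v + 1) * E := by
    have h8 := Nat.mul_le_mul_left D₁ h4
    have h9 : monCount d N * E ≤ monCount d v * E := Nat.mul_le_mul_right E (by omega)
    rw [mul_add, mul_one] at h8
    rw [mul_add, mul_comm (monCount d N) D₁] at h3
    rw [add_mul, one_mul]
    omega
  have := Nat.mul_le_mul_left (r * (K - 1) ^ d) h7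
  nlinarith

end Vale.Agent.P202.Mixed.Window
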