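import Vale.Agent.P202.Mixed.Interface
import Vale.Agent.P202.Diag.Euler
import Vale.Agent.P202.HomAlg.Coef

/-!
# P202 mixed characteristic, the window: ranks

If powers of the elements are null-homotopic on the complex and one of the elements is not
nilpotent, the alternating sum of the ranks vanishes.
-/

noncomputable section

namespace Vale.Agent.P202.Mixed.Window

open IsLocalRing Finset

universe u

variable {B : Type u} [CommRing B]

theorem euler_zero_of_prime {d : ℕ} {x : Fin d → B} {G : FreeCx B} (hG : NullPowers G x)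
    (P : Ideal B) [P.IsPrime] {a : Fin d} (ha : x a ∉ P) :
    ∑ g : G.ι, (-1 : ℤ) ^ G.pos g = 0 := by
  classical
  obtain ⟨m, -, hs⟩ := hG
  obtain ⟨s, hsp, hsq⟩ := hs a
  let φ : B →+* P.ResidueField := algebraMap B P.ResidueField
  have hu : φ (x a ^ m) ≠ 0 := by
    rw [ne_eq, ← RingHom.mem_ker, Ideal.ker_algebraMap_residueField]
    exact fun h => ha (Ideal.IsPrime.mem_of_pow_mem ‹_› m h)
  set z := φ (x a ^ m)
  have hs' : G.mat.map φ * s.map φ + s.map φ * G.mat.map φ =
      z • (1 : Matrix G.ι G.ι P.ResidueField) := by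
    have h := congrArg (fun A : Matrix G.ι G.ι B => A.map φ) hsq
    simp only [Matrix.map_add φ φ.map_add, Matrix.map_mul] at h
    refine h.trans ?_
    ext i j
    simp [z, Matrix.one_apply, apply_ite φ]
  let D : Diff P.ResidueField (G.ι → P.ResidueField) :=
    (G.map φ).diff P.ResidueField P.ResidueField
  have hd : ∀ v : G.ι → P.ResidueField, D.d v = (G.mat.map φ).mulVec v := fun v => rfl
  have hsub : ∀ j, Subsingleton (D.H ⊤ ⊥ j) := by
    intro j
    refine ⟨fun p q => ?_⟩
    suffices H : ∀ p : D.H ⊤ ⊥ j, p = 0 by rw [H p, H q]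
    intro p
    obtain ⟨⟨f, hf⟩, rfl⟩ := Submodule.Quotient.mk_surjective _ p
    obtain ⟨-, hfj, hfc⟩ := (D.mem_cycles).1 hf
    refine (D.mk_eq_zero_iff _).2 ((D.mem_bdries).2 ⟨z⁻¹ • (s.map φ).mulVec f, ⟨trivial, ?_⟩,
      0, ⟨Submodule.zero_mem _, Submodule.zero_mem _⟩, ?_⟩)
    · refine Submodule.smul_mem _ _ fun g hg => ?_
      show ∑ i, s.map φ g i * f i = 0
      refine sum_eq_zero fun i _ => ?_
      by_cases hne : s g i = 0
      · rw [show s.map φ g i = φ (s g i) from rfl, hne, map_zero, zero_mul]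
      · have := hsp g i hne
        have h0 : f i = 0 := hfj i (by
          simp only [FreeCx.map] at hg ⊢
          omega)
        rw [h0, mul_zero]
    · show D.d (z⁻¹ • (s.map φ).mulVec f) + 0 = f
      rw [add_zero, map_smul, hd]
      have h1 : (G.mat.map φ * s.map φ + s.map φ * G.mat.map φ).mulVec f = z • f := by
        rw [hs', Matrix.smul_mulVec, Matrix.one_mulVec]
      rw [Submodule.mem_bot, hd] at hfc
      rw [Matrix.add_mulVec, ← Matrix.mulVec_mulVec, ← Matrix.mulVec_mulVec, hfc,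
        Matrix.mulVec_zero, add_zero] at h1
      rw [h1, smul_smul, inv_mul_cancel₀ hu, one_smul]
  have h := Diag.chi_of_finite (k := P.ResidueField) (G.map φ) P.ResidueField
  rw [Module.finrank_self, Nat.cast_one, mul_one] at h
  refine h.symm.trans ?_
  rw [FreeCx.chi, Diff.chi]
  refine finsum_eq_zero_of_forall_eq_zero fun j => ?_
  have : Subsingleton (((G.map φ).diff P.ResidueField P.ResidueField).H ⊤ ⊥ j) := hsub j
  have h0 : ((G.map φ).diff P.ResidueField P.ResidueField).betti ⊤ ⊥ j = 0 :=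
    Module.finrank_zero_of_subsingleton
  rw [h0, Nat.cast_zero, mul_zero]

theorem euler_zero_of_not_nilpotent {d : ℕ} {x : Fin d → B} {G : FreeCx B} (hG : NullPowers G x)
    {a : Fin d} (ha : ¬ IsNilpotent (x a)) : ∑ g : G.ι, (-1 : ℤ) ^ G.pos g = 0 := by
  rw [← mem_nilradical, nilradical_eq_sInf, Submodule.mem_sInf] at ha
  simp only [not_forall] at ha
  obtain ⟨P, hP, hPa⟩ := ha
  have : Ideal.IsPrime P := hP
  exact euler_zero_of_prime hG P hPa

theorem sum_rank (G : FreeCx B) {d : ℕ} (hd : G.LengthLE d) :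
    ∑ i ∈ range (d + 1), (-1 : ℤ) ^ i * (G.rank i : ℤ) = ∑ g : G.ι, (-1 : ℤ) ^ G.pos g := by
  rw [← sum_fiberwise_of_maps_to (t := range (d + 1)) (g := G.pos)
    (fun g _ => mem_range.2 (Nat.lt_succ_of_le (hd g)))]
  refine sum_congr rfl fun i _ => ?_
  rw [FreeCx.rank, sum_congr rfl (g := fun _ => (-1 : ℤ) ^ i) fun g hg => by
    rw [(mem_filter.1 hg).2], sum_const, nsmul_eq_mul, mul_comm]

end Vale.Agent.P202.Mixed.Window
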