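import Vale.Agent.P202.Mixed.Len

/-!
# P202 mixed characteristic, the window: lengths of homology as numbers

On a module of finite length the lengths are integers; Euler characteristics, the two-sided bound
from a nested pair, and the kernel of a map along a nested pair.
-/

noncomputable section

namespace Vale.Agent.P202.Mixed.Window

universe uA uM

variable {A : Type uA} [CommRing A] {M : Type uM} [AddCommGroup M] [Module A M]
  {M' : Type uM} [AddCommGroup M'] [Module A M']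

/-- The length of the image of `N` modulo `P`, as an integer. -/
def ln (P N : Submodule A M) : ℤ := (len P N).toNat

theorem ln_nonneg (P N : Submodule A M) : 0 ≤ ln P N := Int.natCast_nonneg _

theorem ln_le_of_len_le {P N : Submodule A M} {c : ℕ} (h : len P N ≤ (c : ℕ∞)) : ln P N ≤ c :=
  Int.ofNat_le.2 (ENat.toNat_le_of_le_natCast h)

theorem ln_eq_zero {P N : Submodule A M} (h : N ≤ P) : ln P N = 0 := by
  rw [ln, len_eq_zero h]
  rfl

section Finite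

variable (hM : Module.length A M ≠ ⊤)

include hM

theorem len_ne_top (P N : Submodule A M) : len P N ≠ ⊤ :=
  ne_top_of_le_ne_top hM (len_le_length P N)

theorem coe_ln (P N : Submodule A M) : ((len P N).toNat : ℕ∞) = len P N :=
  ENat.natCast_toNat (len_ne_top hM P N)

theorem ln_mono {P N N' : Submodule A M} (h : N ≤ N') : ln P N ≤ ln P N' :=
  Int.ofNat_le.2 (ENat.toNat_le_toNat (len_mono h) (len_ne_top hM _ _))

theorem ln_anti {P P' : Submodule A M} (h : P ≤ P') (N : Submodule A M) : ln P' N ≤ ln P N :=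
  Int.ofNat_le.2 (ENat.toNat_le_toNat (len_anti h N) (len_ne_top hM _ _))

theorem ln_add {P Q N : Submodule A M} (hPQ : P ≤ Q) (hQN : Q ≤ N) :
    ln P N = ln P Q + ln Q N := by
  unfold ln
  rw [len_add hPQ hQN, ENat.toNat_add (len_ne_top hM _ _) (len_ne_top hM _ _), Nat.cast_add]

theorem ln_triangle (P Q N : Submodule A M) : ln P N ≤ ln P Q + ln Q N := by
  unfold ln
  rw [← Nat.cast_add, ← ENat.toNat_add (len_ne_top hM _ _) (len_ne_top hM _ _)]
  exact Int.ofNat_le.2 (ENat.toNat_le_toNat (len_triangle P Q N)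
    (WithTop.add_ne_top.2 ⟨len_ne_top hM _ _, len_ne_top hM _ _⟩))

theorem ln_sup_le (P N N' : Submodule A M) : ln P (N ⊔ N') ≤ ln P N + ln P N' := by
  unfold ln
  rw [← Nat.cast_add, ← ENat.toNat_add (len_ne_top hM _ _) (len_ne_top hM _ _)]
  exact Int.ofNat_le.2 (ENat.toNat_le_toNat (len_sup_le P N N')
    (WithTop.add_ne_top.2 ⟨len_ne_top hM _ _, len_ne_top hM _ _⟩))

theorem ln_map_le (f : M →ₗ[A] M') {P N : Submodule A M} {P' : Submodule A M'}
    (h : ∀ x ∈ N, x ∈ P → f x ∈ P') : ln P' (N.map f) ≤ ln P N :=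
  Int.ofNat_le.2 (ENat.toNat_le_toNat (len_map_le f h) (len_ne_top hM _ _))

end Finite

section Two

variable (hM : Module.length A M ≠ ⊤) (hM' : Module.length A M' ≠ ⊤)

include hM hM'

theorem ln_le_add_map (f : M →ₗ[A] M') (P N : Submodule A M) (P' : Submodule A M') :
    ln P N ≤ ln P (N ⊓ P'.comap f) + ln P' (N.map f) := by
  unfold ln
  rw [← Nat.cast_add, ← ENat.toNat_add (len_ne_top hM _ _) (len_ne_top hM' _ _)]
  exact Int.ofNat_le.2 (ENat.toNat_le_toNat (len_le_add_map f P N P')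
    (WithTop.add_ne_top.2 ⟨len_ne_top hM _ _, len_ne_top hM' _ _⟩))

theorem ln_eq_add_map (f : M →ₗ[A] M') (P N : Submodule A M) (P' : Submodule A M')
    (h : ∀ x ∈ N, x ∈ P → f x ∈ P') :
    ln P N = ln P (N ⊓ P'.comap f) + ln P' (N.map f) := by
  unfold ln
  rw [len_eq_add_map f P N P' h, ENat.toNat_add (len_ne_top hM _ _) (len_ne_top hM' _ _),
    Nat.cast_add]

end Two

variable (D : Diff A M)

/-- The length of the homology of a pair. -/
def hl (X Y : Submodule A M) (j : ℤ) : ℤ := ln (D.bdries X Y j) (D.cycles X Y j)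

theorem hl_nonneg (X Y : Submodule A M) (j : ℤ) : 0 ≤ hl D X Y j := ln_nonneg _ _

theorem bdries_le_cycles {X Y : Submodule A M} (hX : D.Stable X) (hY : D.Stable Y) (hYX : Y ≤ X)
    (j : ℤ) : D.bdries X Y j ≤ D.cycles X Y j := by
  intro x hx
  obtain ⟨w, ⟨hw, hw'⟩, y, ⟨hy, hy'⟩, rfl⟩ := D.mem_bdries.1 hx
  refine D.mem_cycles.2 ⟨X.add_mem (hX _ hw) (hYX hy), Submodule.add_mem _ ?_ hy', ?_⟩
  · simpa using D.d_deg _ _ hw'
  · rw [map_add, D.d_d, zero_add]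
    exact hY _ hy

theorem d_mem_deg {j : ℤ} {x : M} (hx : x ∈ D.deg (j + 1)) : D.d x ∈ D.deg j := by
  simpa using D.d_deg _ _ hx

variable (hM : Module.length A M ≠ ⊤)

include hM

/-- The Euler characteristic of a stable pair. -/
theorem euler {X Y : Submodule A M} (hX : D.Stable X) (hY : D.Stable Y) (hYX : Y ≤ X) (N : ℕ)
    (hlow : X ⊓ D.deg (-1) ≤ Y) (htop : X ⊓ D.deg ((N : ℤ) + 1) ≤ Y) :
    ∑ j ∈ Finset.range (N + 1), (-1 : ℤ) ^ j * hl D X Y (j : ℤ) =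
      ∑ j ∈ Finset.range (N + 1), (-1 : ℤ) ^ j * ln (Y ⊓ D.deg (j : ℤ)) (X ⊓ D.deg (j : ℤ)) := by
  set b : ℤ → ℤ := fun j => ln (Y ⊓ D.deg j) (D.bdries X Y j) with hb
  have hBY : ∀ j, Y ⊓ D.deg j ≤ D.bdries X Y j := fun j => le_sup_right
  have step : ∀ j : ℤ, ln (Y ⊓ D.deg j) (X ⊓ D.deg j) = hl D X Y j + b j + b (j - 1) := by
    intro j
    have hCX : D.cycles X Y j ≤ X ⊓ D.deg j := inf_le_left
    have hBC := bdries_le_cycles D hX hY hYX j
    rw [ln_add hM ((hBY j).trans hBC) hCX, ln_add hM (hBY j) hBC]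
    have e : ln (D.cycles X Y j) (X ⊓ D.deg j) = b (j - 1) := by
      have hd : ∀ x ∈ X ⊓ D.deg j, x ∈ D.cycles X Y j → D.d x ∈ Y ⊓ D.deg (j - 1) :=
        fun x hx hc => ⟨(D.mem_cycles.1 hc).2.2, D.d_deg _ _ hx.2⟩
      have hk : (X ⊓ D.deg j) ⊓ (Y ⊓ D.deg (j - 1)).comap D.d ≤ D.cycles X Y j :=
        fun x hx => D.mem_cycles.2 ⟨hx.1.1, hx.1.2, hx.2.1⟩
      rw [ln_eq_add_map hM hM D.d _ _ _ hd, ln_eq_zero hk, zero_add, hb]
      simp only [Diff.bdries, sub_add_cancel]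
      unfold ln
      rw [len_sup_left _ _ le_rfl]
    rw [e]
    show b j + hl D X Y j + b (j - 1) = _
    ring
  have bn : b (N : ℤ) = 0 := ln_eq_zero fun x hx => by
    obtain ⟨w, ⟨hw, hw'⟩, y, ⟨hy, hy'⟩, rfl⟩ := D.mem_bdries.1 hx
    exact ⟨Y.add_mem (hY _ (htop ⟨hw, hw'⟩)) hy, Submodule.add_mem _ (d_mem_deg D hw') hy'⟩
  have bm : b (-1) = 0 := ln_eq_zero fun x hx => by
    obtain ⟨w, ⟨hw, hw'⟩, y, ⟨hy, hy'⟩, rfl⟩ := D.mem_bdries.1 hx
    exact ⟨Y.add_mem (hlow ⟨hX _ hw, d_mem_deg D hw'⟩) hy,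
      Submodule.add_mem _ (d_mem_deg D hw') hy'⟩
  have tele : ∀ n : ℕ, ∑ j ∈ Finset.range (n + 1), (-1 : ℤ) ^ j * (b (j : ℤ) + b ((j : ℤ) - 1)) =
      (-1 : ℤ) ^ n * b (n : ℤ) + b (-1) := by
    intro n
    induction n with
    | zero => simp
    | succ n ih =>
      rw [Finset.sum_range_succ, ih]
      push_cast
      rw [add_sub_cancel_right, pow_succ]
      ring
  have h := tele N
  rw [bn, bm, mul_zero, add_zero] at h
  conv_lhs => rw [← add_zero (∑ j ∈ Finset.range (N + 1), (-1 : ℤ) ^ j * hl D X Y (j : ℤ)), ← h,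
    ← Finset.sum_add_distrib]
  refine Finset.sum_congr rfl fun j _ => ?_
  rw [step]
  ring

/-- Subadditivity. -/
theorem hl_le {Y X W : Submodule A M} (hYX : Y ≤ X) (hXW : X ≤ W) (j : ℤ) :
    hl D W Y j ≤ hl D X Y j + hl D W X j := by
  unfold hl ln
  rw [← Nat.cast_add, ← ENat.toNat_add (len_ne_top hM _ _) (len_ne_top hM _ _)]
  exact Int.ofNat_le.2 (ENat.toNat_le_toNat (len_devissage D hYX hXW j)
    (WithTop.add_ne_top.2 ⟨len_ne_top hM _ _, len_ne_top hM _ _⟩))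

/-- The lower bound from a nested pair. -/
theorem hl_add_le {Y X W : Submodule A M} (hYX : Y ≤ X) (hXW : X ≤ W) (j : ℤ) :
    hl D X Y j + hl D W X j ≤
      hl D W Y j + hl D W X (j + 1) + hl D X Y (j - 1) := by
  set BWY := D.bdries W Y j
  set BWX := D.bdries W X j
  set CWY := D.cycles W Y j
  set CXY := D.cycles X Y j
  have h0 : ln BWY CXY + ln BWX CWY ≤ hl D W Y j := by
    have hP : ∀ x ∈ CWY, x ∈ BWY → (LinearMap.id : M →ₗ[A] M) x ∈ BWX :=
      fun x _ hx => bdries_mono D le_rfl hYX j hx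
    rw [hl, ln_eq_add_map hM hM LinearMap.id _ _ _ hP, Submodule.map_id, Submodule.comap_id]
    refine add_le_add (ln_mono hM fun x hx => ⟨cycles_mono D hXW le_rfl j hx, ?_⟩) le_rfl
    exact D.mem_bdries.2 ⟨0, ⟨W.zero_mem, Submodule.zero_mem _⟩, x,
      ⟨(D.mem_cycles.1 hx).1, (D.mem_cycles.1 hx).2.1⟩, by rw [map_zero, zero_add]⟩
  have h1 : hl D X Y j ≤ hl D W X (j + 1) + ln BWY CXY := by
    have h := ln_le_add_map hM hM LinearMap.id (D.bdries X Y j) CXY BWY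
    rw [Submodule.map_id, Submodule.comap_id] at h
    refine h.trans (add_le_add ?_ le_rfl)
    refine (ln_mono hM (N' := (D.cycles W X (j + 1)).map D.d ⊔ (Y ⊓ D.deg j)) ?_).trans ?_
    · rintro x ⟨hx, hxb⟩
      obtain ⟨w, ⟨hw, hw'⟩, y, hy, rfl⟩ := D.mem_bdries.1 hxb
      refine Submodule.add_mem_sup ⟨w, D.mem_cycles.2 ⟨hw, hw', ?_⟩, rfl⟩ hy
      simpa using X.sub_mem (D.mem_cycles.1 hx).1 (hYX hy.1)
    · refine (ln_sup_le hM _ _ _).trans ?_
      rw [show ln (D.bdries X Y j) (Y ⊓ D.deg j) = 0 from ln_eq_zero le_sup_right, add_zero]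
      refine ln_map_le hM D.d fun x hx hxb => ?_
      obtain ⟨w, -, r, ⟨hr, hr'⟩, rfl⟩ := D.mem_bdries.1 hxb
      rw [map_add, D.d_d, zero_add]
      exact D.mem_bdries.2 ⟨r, ⟨hr, hr'⟩, 0, ⟨Y.zero_mem, Submodule.zero_mem _⟩, add_zero _⟩
  have h2 : hl D W X j ≤ ln BWX CWY + hl D X Y (j - 1) := by
    refine (ln_triangle hM BWX (BWX ⊔ CWY) _).trans (add_le_add ?_ ?_)
    · refine (ln_sup_le hM _ _ _).trans ?_
      rw [ln_eq_zero le_rfl, zero_add]
    · refine (ln_le_add_map hM hM D.d _ _ (D.bdries X Y (j - 1))).trans ?_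
      rw [ln_eq_zero ?_, zero_add]
      · refine ln_mono hM ?_
        rintro _ ⟨x, hx, rfl⟩
        obtain ⟨-, h2, h3⟩ := D.mem_cycles.1 hx
        exact D.mem_cycles.2 ⟨h3, D.d_deg _ _ h2, by rw [D.d_d]; exact Y.zero_mem⟩
      · rintro x ⟨hx, hxb⟩
        obtain ⟨h1, h2, -⟩ := D.mem_cycles.1 hx
        obtain ⟨r, ⟨hr, hr'⟩, y, ⟨hy, -⟩, e⟩ := D.mem_bdries.1 hxb
        rw [sub_add_cancel] at hr'
        rw [show x = r + (x - r) by abel]
        refine Submodule.add_mem_sup (D.mem_bdries.2 ⟨0, ⟨W.zero_mem, Submodule.zero_mem _⟩, r,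
          ⟨hr, hr'⟩, by rw [map_zero, zero_add]⟩) ?_
        refine D.mem_cycles.2 ⟨W.sub_mem h1 (hXW hr), Submodule.sub_mem _ h2 hr', ?_⟩
        rw [map_sub, ← e, add_sub_cancel_left]
        exact hy
  linarith

end Vale.Agent.P202.Mixed.Window

namespace Vale.Agent.P202.Mixed.Window

universe vA vM

variable {A : Type vA} [CommRing A] {M : Type vM} [AddCommGroup M] [Module A M]
  {M' : Type vM} [AddCommGroup M'] [Module A M']

/-- The kernel of a map of pairs on homology. -/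
def kl (D : Diff A M) (D' : Diff A M') (φ : M →ₗ[A] M') (X Y : Submodule A M)
    (X' Y' : Submodule A M') (j : ℤ) : ℤ :=
  ln (D.bdries X Y j) (D.cycles X Y j ⊓ (D'.bdries X' Y' j).comap φ)

/-- The cokernel of a map of pairs on homology. -/
def ckl (D : Diff A M) (D' : Diff A M') (φ : M →ₗ[A] M') (X Y : Submodule A M)
    (X' Y' : Submodule A M') (j : ℤ) : ℤ :=
  ln (D'.bdries X' Y' j ⊔ (D.cycles X Y j).map φ) (D'.cycles X' Y' j)

theorem kl_nonneg (D : Diff A M) (D' : Diff A M') (φ : M →ₗ[A] M') (X Y : Submodule A M)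
    (X' Y' : Submodule A M') (j : ℤ) : 0 ≤ kl D D' φ X Y X' Y' j := ln_nonneg _ _

/-- The kernel along a nested pair. -/
theorem kl_le {D : Diff A M} {D' : Diff A M'} (hM : Module.length A M ≠ ⊤)
    (hM' : Module.length A M' ≠ ⊤) {φ : M →ₗ[A] M'} (hφd : ∀ x, φ (D.d x) = D'.d (φ x))
    (hφdeg : ∀ j x, x ∈ D.deg j → φ x ∈ D'.deg j)
    {Y X W : Submodule A M} {Y' X' W' : Submodule A M'} (hYX : Y ≤ X) (hXW : X ≤ W)
    (hY'X' : Y' ≤ X') (hW : ∀ x ∈ W, φ x ∈ W') (hX : ∀ x ∈ X, φ x ∈ X') (j : ℤ) :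
    kl D D' φ W Y W' Y' j ≤ kl D D' φ W X W' X' j + ckl D D' φ W X W' X' (j + 1) +
      kl D D' φ X Y X' Y' j := by
  set N0 := D.cycles W Y j ⊓ (D'.bdries W' Y' j).comap φ with hN0
  set N1 := D.cycles X Y j ⊓ (D'.bdries W' Y' j).comap φ with hN1
  set Q := D'.bdries X' Y' j ⊔ ((D.cycles W X (j + 1)).map D.d).map φ with hQ
  have a : ln (D.bdries W Y j) N0 ≤
      ln (D.bdries W Y j) (N0 ⊓ D.bdries W X j) + kl D D' φ W X W' X' j := by
    have h := ln_le_add_map hM hM LinearMap.id (D.bdries W Y j) N0 (D.bdries W X j)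
    rw [Submodule.map_id, Submodule.comap_id] at h
    refine h.trans (add_le_add le_rfl (ln_mono hM ?_))
    exact inf_le_inf (cycles_mono D le_rfl hYX j)
      (Submodule.comap_mono (bdries_mono D' le_rfl hY'X' j))
  have b : ln (D.bdries W Y j) (N0 ⊓ D.bdries W X j) ≤ ln (D.bdries W Y j) N1 := by
    refine (ln_mono hM (N' := N1 ⊔ D.bdries W Y j) ?_).trans
      ((ln_sup_le hM _ _ _).trans (by rw [ln_eq_zero le_rfl, add_zero]))
    rintro x ⟨⟨hx, hxφ⟩, hxb⟩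
    obtain ⟨u, ⟨hu, hu'⟩, r, ⟨hr, hr'⟩, rfl⟩ := D.mem_bdries.1 hxb
    rw [add_comm]
    refine Submodule.add_mem_sup ⟨D.mem_cycles.2 ⟨hr, hr', ?_⟩, ?_⟩
      (D.mem_bdries.2 ⟨u, ⟨hu, hu'⟩, 0, ⟨Y.zero_mem, Submodule.zero_mem _⟩, add_zero _⟩)
    · simpa [D.d_d] using (D.mem_cycles.1 hx).2.2
    · have h1 : φ r = φ (D.d u + r) - D'.d (φ u) := by
        rw [map_add, hφd]; abel
      rw [SetLike.mem_coe, Submodule.mem_comap, h1]
      exact Submodule.sub_mem _ hxφ (D'.mem_bdries.2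
        ⟨φ u, ⟨hW _ hu, hφdeg _ _ hu'⟩, 0, ⟨Y'.zero_mem, Submodule.zero_mem _⟩, add_zero _⟩)
  have c : ln Q (N1.map φ) ≤ ckl D D' φ W X W' X' (j + 1) := by
    refine (ln_mono hM' (N' := (D'.cycles W' X' (j + 1)).map D'.d ⊔ (Y' ⊓ D'.deg j)) ?_).trans ?_
    · rintro _ ⟨r, ⟨hr, hrφ⟩, rfl⟩
      obtain ⟨p, ⟨hp, hp'⟩, y, hy, e⟩ := D'.mem_bdries.1 hrφ
      rw [← e]
      refine Submodule.add_mem_sup ⟨p, D'.mem_cycles.2 ⟨hp, hp', ?_⟩, rfl⟩ hy
      rw [eq_sub_of_add_eq e]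
      exact X'.sub_mem (hX _ (D.mem_cycles.1 hr).1) (hY'X' hy.1)
    · refine (ln_sup_le hM' _ _ _).trans ?_
      rw [ln_eq_zero (le_sup_of_le_left le_sup_right : Y' ⊓ D'.deg j ≤ Q), add_zero]
      refine ln_map_le hM' D'.d fun x _ hxP => ?_
      obtain ⟨b, hb, _, ⟨z, hz, rfl⟩, rfl⟩ := Submodule.mem_sup.1 hxP
      obtain ⟨w, -, r, ⟨hr, hr'⟩, rfl⟩ := D'.mem_bdries.1 hb
      rw [map_add, map_add, D'.d_d, zero_add, ← hφd]
      exact Submodule.add_mem_sup (D'.mem_bdries.2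
        ⟨r, ⟨hr, hr'⟩, 0, ⟨Y'.zero_mem, Submodule.zero_mem _⟩, add_zero _⟩) ⟨_, ⟨z, hz, rfl⟩, rfl⟩
  have e : ln (D.bdries W Y j) (N1 ⊓ Q.comap φ) ≤ kl D D' φ X Y X' Y' j := by
    refine (ln_mono hM (N' := (D.cycles X Y j ⊓ (D'.bdries X' Y' j).comap φ) ⊔
      D.bdries W Y j) ?_).trans ((ln_sup_le hM _ _ _).trans ?_)
    · rintro r ⟨⟨hr, -⟩, hrQ⟩
      obtain ⟨b, hb, _, ⟨_, ⟨z, hz, rfl⟩, rfl⟩, e⟩ := Submodule.mem_sup.1 hrQ
      obtain ⟨hzW, hzd, hzX⟩ := D.mem_cycles.1 hz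
      obtain ⟨hr1, hr2, hr3⟩ := D.mem_cycles.1 hr
      rw [show r = (r - D.d z) + D.d z by abel]
      refine Submodule.add_mem_sup ⟨D.mem_cycles.2 ⟨X.sub_mem hr1 hzX,
        Submodule.sub_mem _ hr2 (d_mem_deg D hzd), by rw [map_sub, D.d_d, sub_zero]; exact hr3⟩,
        ?_⟩ (D.mem_bdries.2 ⟨z, ⟨hzW, hzd⟩, 0, ⟨Y.zero_mem, Submodule.zero_mem _⟩, add_zero _⟩)
      rw [SetLike.mem_coe, Submodule.mem_comap, map_sub, ← e, add_sub_cancel_right]
      exact hb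
    · rw [ln_eq_zero le_rfl, add_zero]
      exact ln_anti hM (bdries_mono D hXW le_rfl j) _
  have g := ln_le_add_map hM hM' φ (D.bdries W Y j) N1 Q
  unfold kl at *
  rw [← hN0]
  linarith

end Vale.Agent.P202.Mixed.Window
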