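import Vale.Agent.P202.Mixed.Interface
import Vale.Agent.P202.Mixed.Levels.Src
import Vale.Agent.P202.HomAlg.Homotopy
import Vale.Agent.P202.HomAlg.Coef

/-!
# P202 mixed characteristic, the window: the total complexes

`G ⊗ F ⊗ Kos(Z ^ b)` with its levels, the transition maps, and the submodules killing the zeroth
homology of `G`.
-/

noncomputable section

namespace Vale.Agent.P202.Mixed.Window

open IsLocalRing MvPolynomial Finset

universe u

variable {B : Type u} [CommRing B] {d : ℕ}

/-- The index set of the total complexes. -/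
abbrev TI (G : FreeCx B) (F : FreeCx (Rz B d)) : Type := G.ι × (F.ι × Finset (Fin d))

/-- The total complex of `G`, `F` and the Koszul complex on the `b`-th powers. -/
@[reducible] def tot (G : FreeCx B) (F : FreeCx (Rz B d)) (b : ℕ) : FreeCx (Rz B d) where
  ι := TI G F
  fin := inferInstance
  dec := inferInstance
  pos p := G.pos p.1 + (F.pos p.2.1 + (d - p.2.2.card))
  mat := Matrix.of fun p q : TI G F =>
    (if p.2 = q.2 then MvPolynomial.C (G.mat p.1 q.1) else 0) +
      (if p.1 = q.1 then (-1 : Rz B d) ^ G.pos p.1 *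
        ((if p.2.2 = q.2.2 then F.mat p.2.1 q.2.1 else 0) +
          (if p.2.1 = q.2.1 then (-1 : Rz B d) ^ F.pos p.2.1 *
            kosMat (fun a => (X a : Rz B d) ^ b) p.2.2 q.2.2 else 0))
        else 0)
  mat_pos := ((G.map (MvPolynomial.C : B →+* Rz B d)).tensor (F.tensor (zKos B d b))).mat_pos
  sq := ((G.map (MvPolynomial.C : B →+* Rz B d)).tensor (F.tensor (zKos B d b))).sq

/-- `G` with polynomial coefficients. -/
@[reducible] def Gz (G : FreeCx B) : FreeCx (Rz B d) where
  ι := G.ι
  fin := inferInstance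
  dec := inferInstance
  pos := G.pos
  mat := Matrix.of fun g h => MvPolynomial.C (G.mat g h)
  mat_pos := (G.map (MvPolynomial.C : B →+* Rz B d)).mat_pos
  sq := (G.map (MvPolynomial.C : B →+* Rz B d)).sq

theorem Gz_mat (G : FreeCx B) (g h : G.ι) :
    (Gz (d := d) G).mat g h = MvPolynomial.C (G.mat g h) := rfl

variable {G : FreeCx B} {F : FreeCx (Rz B d)}

/-- The offsets of the levels. -/
def off (deg : F.ι → ℤ) (L b : ℕ) (p : TI G F) : ℤ :=
  ((L * G.pos p.1 : ℕ) : ℤ) + deg p.2.1 + zKosLev b p.2.2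

theorem tot_pos (b : ℕ) (p : TI G F) :
    (tot G F b).pos p = G.pos p.1 + (F.pos p.2.1 + (d - p.2.2.card)) := rfl

theorem tot_mat (b : ℕ) (g h : G.ι) (f f' : F.ι) (S S' : Finset (Fin d)) :
    (tot G F b).mat (g, f, S) (h, f', S') =
      (if (f, S) = (f', S') then MvPolynomial.C (G.mat g h) else 0) +
      (if g = h then (-1 : Rz B d) ^ G.pos g *
        ((if S = S' then F.mat f f' else 0) +
          (if f = f' then (-1 : Rz B d) ^ F.pos f * kosMat (fun a => (X a : Rz B d) ^ b) S S' else 0))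
        else 0) := rfl

theorem kos_tau {b b' : ℕ} (hb : b ≤ b') (S S' : Finset (Fin d)) :
    kosMat (fun a => (X a : Rz B d) ^ b) S S' * tauScalar B b b' S =
      kosMat (fun a => (X a : Rz B d) ^ b') S S' * tauScalar B b b' S' := by
  simp only [kosMat, Matrix.of_apply, Finset.sum_mul]
  refine sum_congr rfl fun a ha => ?_
  obtain ⟨haS, rfl⟩ := (mem_filter.1 ha).2
  rw [tauScalar, tauScalar, prod_insert haS, smul_mul_assoc, smul_mul_assoc, ← mul_assoc, ← pow_add,
    Nat.add_sub_cancel' hb]

variable {M : Type u} [AddCommGroup M] [Module (Rz B d) M] [Module B M]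
  [IsScalarTower B (Rz B d) M]

variable (G F M) in
/-- The transition map. -/
def tau (b b' : ℕ) : (TI G F → M) →ₗ[B] (TI G F → M) :=
  LinearMap.pi fun p => ((LinearMap.lsmul (Rz B d) M (tauScalar B b b' p.2.2)).restrictScalars B) ∘ₗ
    LinearMap.proj p

theorem tau_apply (b b' : ℕ) (x : TI G F → M) (p : TI G F) :
    tau G F M b b' x p = tauScalar B b b' p.2.2 • x p := rfl

theorem tot_mat_tau {b b' : ℕ} (hb : b ≤ b') (p q : TI G F) :
    tauScalar B b b' p.2.2 * (tot G F b).mat p q =
      (tot G F b').mat p q * tauScalar B b b' q.2.2 := by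
  obtain ⟨g, f, S⟩ := p
  obtain ⟨h, f', S'⟩ := q
  rw [tot_mat, tot_mat, mul_add, add_mul]
  have h1 : tauScalar B b b' S * (if (f, S) = (f', S') then (MvPolynomial.C (G.mat g h) : Rz B d)
      else 0) = (if (f, S) = (f', S') then MvPolynomial.C (G.mat g h) else 0) *
        tauScalar B b b' S' := by
    by_cases hp : (f, S) = (f', S')
    · obtain ⟨rfl, rfl⟩ := Prod.ext_iff.1 hp
      exact mul_comm _ _
    · rw [if_neg hp, mul_zero, zero_mul]
  have h2 : tauScalar B b b' S * (if S = S' then F.mat f f' else 0) =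
      (if S = S' then F.mat f f' else 0) * tauScalar B b b' S' := by
    by_cases hS : S = S'
    · subst hS
      exact mul_comm _ _
    · rw [if_neg hS, mul_zero, zero_mul]
  have h3 : tauScalar B b b' S *
      (if f = f' then (-1 : Rz B d) ^ F.pos f * kosMat (fun a => (X a : Rz B d) ^ b) S S' else 0) =
      (if f = f' then (-1 : Rz B d) ^ F.pos f * kosMat (fun a => (X a : Rz B d) ^ b') S S' else 0) *
        tauScalar B b b' S' := by
    by_cases hf : f = f'
    · rw [if_pos hf, if_pos hf]
      linear_combination ((-1 : Rz B d) ^ F.pos f) * kos_tau (B := B) hb S S'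
    · rw [if_neg hf, if_neg hf, mul_zero, zero_mul]
  by_cases hg : g = h
  · rw [if_pos hg, if_pos hg]
    linear_combination h1 + (-1 : Rz B d) ^ G.pos g * (h2 + h3)
  · rw [if_neg hg, if_neg hg, mul_zero, zero_mul, add_zero, add_zero]
    exact h1

theorem tot_d_apply (b : ℕ) (x : TI G F → M) (p : TI G F) :
    ((tot G F b).diff M B).d x p = ∑ q : TI G F, (tot G F b).mat p q • x q := rfl

theorem tau_comm {b b' : ℕ} (hb : b ≤ b') (x : TI G F → M) :
    tau G F M b b' (((tot G F b).diff M B).d x) = ((tot G F b').diff M B).d (tau G F M b b' x) := by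
  funext p
  refine (tau_apply b b' _ p).trans ?_
  refine ((congrArg (tauScalar B b b' p.2.2 • ·) (tot_d_apply b x p)).trans ?_).trans
    (tot_d_apply b' _ p).symm
  refine (Finset.smul_sum).trans (sum_congr rfl fun q _ => ?_)
  refine (smul_smul _ _ _).trans ?_
  refine (congrArg (· • x q) (tot_mat_tau hb p q)).trans ?_
  exact (smul_smul _ _ _).symm

theorem tau_deg (b b' : ℕ) (j : ℤ) (x : TI G F → M) (hx : x ∈ ((tot G F b).diff M B).deg j) :
    tau G F M b b' x ∈ ((tot G F b').diff M B).deg j := fun p hp => by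
  rw [tau_apply, hx p hp, smul_zero]

section Weights

variable [IsLocalRing B] {deg : F.ι → ℤ} {K L : ℕ}

theorem tot_mat_mem (hhom : ∀ h g, F.mat h g ∈ homInt B d (deg g - deg h)) (hLK : L ≤ K)
    (hG : G.EntriesIn (maximalIdeal B)) (b : ℕ) (p q : TI G F) :
    (tot G F b).mat p q ∈ wIdeal B d K (off deg L b q - off deg L b p) := by
  obtain ⟨g, f, S⟩ := p
  obtain ⟨h, f', S'⟩ := q
  rw [tot_mat]
  refine Ideal.add_mem _ ?_ ?_
  · by_cases hp : (f, S) = (f', S')
    · rw [if_pos hp]
      by_cases h0 : G.mat g h = 0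
      · rw [h0, map_zero]; exact Submodule.zero_mem _
      · have hpos := G.mat_pos g h h0
        refine C_mem_wIdeal (hG g h) ?_
        obtain ⟨rfl, rfl⟩ := Prod.ext_iff.1 hp
        simp only [off, hpos]
        push_cast
        rw [mul_add, mul_one]
        omega
    · rw [if_neg hp]; exact Submodule.zero_mem _
  · by_cases hg : g = h
    · rw [if_pos hg]
      subst hg
      refine Ideal.mul_mem_left _ _ (Ideal.add_mem _ ?_ ?_)
      · by_cases hS : S = S'
        · rw [if_pos hS]
          subst hS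
          refine wIdeal_antitone (le_of_eq ?_) (homInt_le_wIdeal (hhom f f'))
          simp only [off]
          ring
        · rw [if_neg hS]; exact Submodule.zero_mem _
      · by_cases hf : f = f'
        · rw [if_pos hf]
          subst hf
          refine Ideal.mul_mem_left _ _ ?_
          rw [kosMat, Matrix.of_apply]
          refine Submodule.sum_mem _ fun a ha => ?_
          obtain ⟨haS, rfl⟩ := (mem_filter.1 ha).2
          refine Submodule.smul_of_tower_mem _ _ (X_pow_mem_wIdeal a b ?_)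
          simp only [off, zKosLev, card_insert_of_notMem haS]
          push_cast
          rw [mul_add, mul_one]
          omega
        · rw [if_neg hf]; exact Submodule.zero_mem _
    · rw [if_neg hg]; exact Submodule.zero_mem _

/-- The levels of the total complex. -/
def fT (G : FreeCx B) (M : Type u) [AddCommGroup M] [Module (Rz B d) M] [Module B M] [IsScalarTower B (Rz B d) M]
    (deg : F.ι → ℤ) (K L b : ℕ) (u : ℤ) : Submodule B (TI G F → M) :=
  lvlF B (d := d) M K fun p => u - off deg L b p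

theorem mem_fT {b : ℕ} {u : ℤ} {x : TI G F → M} :
    x ∈ fT G M deg K L b u ↔ ∀ p, x p ∈ filB B (d := d) M K (u - off deg L b p) := mem_lvlF

theorem fT_antitone (b : ℕ) {u u' : ℤ} (h : u ≤ u') :
    fT G M deg K L b u' ≤ fT G M deg K L b u :=
  lvlF_antitone fun _ => by omega

theorem fT_stable (hhom : ∀ h g, F.mat h g ∈ homInt B d (deg g - deg h)) (hLK : L ≤ K)
    (hG : G.EntriesIn (maximalIdeal B)) (b : ℕ) (u : ℤ) :
    ((tot G F b).diff M B).Stable (fT G M deg K L b u) :=
  stable_lvlF _ fun p q _ => by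
    convert tot_mat_mem hhom hLK hG b p q using 2
    ring

theorem tau_mem_fT {b b' : ℕ} (hb : b ≤ b') {u : ℤ} {x : TI G F → M}
    (hx : x ∈ fT G M deg K L b u) : tau G F M b b' x ∈ fT G M deg K L b' u := by
  refine mem_fT.2 fun p => ?_
  refine smul_mem_filB (e := (((b' - b) * p.2.2.card : ℕ) : ℤ)) ?_ (mem_fT.1 hx p) ?_
  · refine zIdeal_pow_le_wIdeal (b := (b' - b) * p.2.2.card) le_rfl ?_
    rw [tauScalar, pow_mul, ← prod_const]
    exact Ideal.prod_mem_prod fun a _ => Ideal.pow_mem_pow
      (Ideal.subset_span (s := Set.range (MvPolynomial.X : Fin d → Rz B d)) ⟨a, rfl⟩) _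
  · simp only [off, zKosLev]
    push_cast [Nat.cast_sub hb]
    rw [sub_mul]
    omega

theorem fT_of_le {b : ℕ} {u : ℤ} (h : ∀ p : TI G F, u ≤ off deg L b p) :
    fT G M deg K L b u = ⊤ := by
  refine top_le_iff.1 fun x _ => mem_fT.2 fun p => ?_
  rw [filB_of_nonpos (by have := h p; omega)]
  trivial

end Weights

section Bottom

variable (d) (G) (M) in
/-- The boundaries of `G ⊗ M` in position zero. -/
def bd0 : Submodule (Rz B d) (G.ι → M) :=
  (Gz G).bdriesA M 0

variable (G F M) in
/-- The position zero part of one component. -/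
def slot (f : F.ι) (S : Finset (Fin d)) : (TI G F → M) →ₗ[B] (G.ι → M) :=
  LinearMap.pi fun g => if G.pos g = 0 then LinearMap.proj (g, f, S) else 0

theorem slot_apply (f : F.ι) (S : Finset (Fin d)) (x : TI G F → M) (g : G.ι) :
    slot G F M f S x g = if G.pos g = 0 then x (g, f, S) else 0 := by
  unfold slot
  rw [LinearMap.pi_apply]
  split_ifs <;> rfl

variable (G F M) in
/-- All components vanish in the zeroth homology of `G`. -/
def killAll : Submodule B (TI G F → M) :=
  ⨅ f : F.ι, ⨅ S : Finset (Fin d), ((bd0 d G M).restrictScalars B).comap (slot G F M f S)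

variable (G F M) in
/-- The components over the empty subset vanish in the zeroth homology of `G`. -/
def killEmpty : Submodule B (TI G F → M) :=
  ⨅ f : F.ι, ((bd0 d G M).restrictScalars B).comap (slot G F M f ∅)

theorem mem_killAll {x : TI G F → M} :
    x ∈ killAll G F M ↔ ∀ f S, slot G F M f S x ∈ bd0 d G M := by
  simp [killAll]

theorem mem_killEmpty {x : TI G F → M} :
    x ∈ killEmpty G F M ↔ ∀ f, slot G F M f ∅ x ∈ bd0 d G M := by
  simp [killEmpty]

theorem killAll_le : killAll G F M ≤ killEmpty G F M :=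
  fun _ hx => mem_killEmpty.2 fun f => mem_killAll.1 hx f ∅

theorem slot_d (b : ℕ) (x : TI G F → M) (f : F.ι) (S : Finset (Fin d)) :
    slot G F M f S (((tot G F b).diff M B).d x) =
      (Gz (d := d) G).dA M
          ((Gz (d := d) G).posProj M 1 fun g => x (g, f, S)) +
        ∑ f' : F.ι, F.mat f f' • slot G F M f' S x +
        ∑ S' : Finset (Fin d),
          ((-1 : Rz B d) ^ F.pos f * kosMat (fun a => (X a : Rz B d) ^ b) S S') • slot G F M f S' x := by
  funext g
  have hG : (Gz (d := d) G).dA M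
      ((Gz (d := d) G).posProj M 1 fun g => x (g, f, S)) g =
      if G.pos g = 0 then ∑ h : G.ι, (MvPolynomial.C (G.mat g h) : Rz B d) • x (h, f, S)
      else 0 := by
    rw [FreeCx.dA_apply]
    simp only [FreeCx.posProj_apply, Matrix.of_apply]
    split_ifs with hg
    · refine sum_congr rfl fun h _ => ?_
      by_cases h0 : G.mat g h = 0
      · rw [h0, map_zero, zero_smul, zero_smul]
      · rw [if_pos (by have := G.mat_pos g h h0; omega)]
    · refine sum_eq_zero fun h _ => ?_
      by_cases h0 : G.mat g h = 0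
      · rw [h0, map_zero, zero_smul]
      · rw [if_neg (by have := G.mat_pos g h h0; omega), smul_zero]
  simp only [slot_apply, Pi.add_apply, Finset.sum_apply, Pi.smul_apply, hG]
  split_ifs with hg
  · rw [tot_d_apply, Fintype.sum_prod_type]
    have e : ∀ h : G.ι, ∑ q : F.ι × Finset (Fin d), (tot G F b).mat (g, f, S) (h, q) • x (h, q) =
        (MvPolynomial.C (G.mat g h) : Rz B d) • x (h, f, S) +
        if g = h then ∑ q : F.ι × Finset (Fin d),
          ((if S = q.2 then F.mat f q.1 else 0) + (if f = q.1 then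
            (-1 : Rz B d) ^ F.pos f * kosMat (fun a => (X a : Rz B d) ^ b) S q.2 else 0)) • x (h, q)
        else 0 := by
      intro h
      rw [show (if g = h then ∑ q : F.ι × Finset (Fin d),
          ((if S = q.2 then F.mat f q.1 else 0) + (if f = q.1 then
            (-1 : Rz B d) ^ F.pos f * kosMat (fun a => (X a : Rz B d) ^ b) S q.2 else 0)) • x (h, q)
        else 0) = ∑ q : F.ι × Finset (Fin d), (if g = h then
          ((if S = q.2 then F.mat f q.1 else 0) + (if f = q.1 then
            (-1 : Rz B d) ^ F.pos f * kosMat (fun a => (X a : Rz B d) ^ b) S q.2 else 0))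
          else 0) • x (h, q) by split_ifs <;> simp]
      rw [← Finset.sum_ite_eq univ (f, S) (fun q => (MvPolynomial.C (G.mat g h) : Rz B d) • x (h, q))
        |>.trans (if_pos (mem_univ _)), ← sum_add_distrib]
      refine sum_congr rfl fun ⟨f', S'⟩ _ => ?_
      rw [tot_mat, add_smul, hg, pow_zero, one_mul]
      congr 1
      split_ifs <;> simp
    rw [sum_congr rfl fun h _ => e h, sum_add_distrib, Finset.sum_ite_eq,
      if_pos (mem_univ _), add_assoc, Fintype.sum_prod_type]
    congr 1
    simp only [add_smul, ite_smul, zero_smul, sum_add_distrib, Finset.sum_ite_eq, mem_univ, if_true]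
    congr 1
    rw [Finset.sum_comm]
    simp only [Finset.sum_ite_eq, mem_univ, if_true]
  · simp

theorem smul_bd0 {r : Rz B d} {v : G.ι → M} (hv : v ∈ bd0 d G M) : r • v ∈ bd0 d G M :=
  Submodule.smul_mem _ r hv

theorem dA_posProj_mem_bd0 (v : G.ι → M) :
    (Gz (d := d) G).dA M
      ((Gz (d := d) G).posProj M 1 v) ∈ bd0 d G M :=
  ⟨_, ⟨v, rfl⟩, rfl⟩

theorem killAll_stable (b : ℕ) : ((tot G F b).diff M B).Stable (killAll G F M) := by
  intro x hx
  rw [mem_killAll] at hx ⊢
  intro f S
  rw [slot_d]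
  exact add_mem (add_mem (dA_posProj_mem_bd0 _) (Submodule.sum_mem _ fun f' _ =>
    smul_bd0 (hx f' S))) (Submodule.sum_mem _ fun S' _ => smul_bd0 (hx f S'))

theorem kosMat_empty (z : Fin d → Rz B d) (S' : Finset (Fin d)) : kosMat z ∅ S' = 0 := by
  rw [kosMat, Matrix.of_apply]
  exact sum_eq_zero fun a ha => absurd (mem_filter.1 ha).2.2.symm (insert_ne_empty a S')

theorem killEmpty_stable (b : ℕ) : ((tot G F b).diff M B).Stable (killEmpty G F M) := by
  intro x hx
  rw [mem_killEmpty] at hx ⊢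
  intro f
  rw [slot_d]
  refine add_mem (add_mem (dA_posProj_mem_bd0 _) (Submodule.sum_mem _ fun f' _ =>
    smul_bd0 (hx f'))) ?_
  simp [kosMat_empty]

variable {Q m : ℕ} {x₀ : Fin d → B}

theorem pow_smul_eq {r : B} {P : Rz B d} {Q : ℕ} (h : ∀ y : M, r • y = P ^ Q • y) :
    ∀ (k : ℕ) (y : M), r ^ k • y = P ^ (Q * k) • y := by
  intro k
  induction k with
  | zero => simp
  | succ k ih =>
    intro y
    rw [pow_succ, mul_smul, h, ih, ← mul_smul, ← pow_add, Nat.mul_succ]

/-- The powers of the operators kill position zero. -/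
theorem X_pow_smul_mem_bd0 (hx : ∀ a (y : M), x₀ a • y = (X a : Rz B d) ^ Q • y) (a : Fin d)
    (hs : ∃ s : Matrix G.ι G.ι B, (∀ h g, s h g ≠ 0 → G.pos h = G.pos g + 1) ∧
      G.mat * s + s * G.mat = x₀ a ^ m • (1 : Matrix G.ι G.ι B))
    {v : G.ι → M} (hv : ∀ g, G.pos g ≠ 0 → v g = 0) :
    (X a : Rz B d) ^ (Q * m) • v ∈ bd0 d G M := by
  obtain ⟨s, hsp, hsq⟩ := hs
  have hxm : ∀ y : M, x₀ a ^ m • y = (X a : Rz B d) ^ (Q * m) • y := pow_smul_eq (hx a) m
  have hC : ∀ (r : B) (y : M), (MvPolynomial.C r : Rz B d) • y = r • y := fun r y => by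
    rw [← MvPolynomial.algebraMap_eq, IsScalarTower.algebraMap_smul]
  refine ⟨fun h => ∑ g, s h g • v g, ⟨fun h => ∑ g, s h g • v g, ?_⟩, ?_⟩
  · funext h
    rw [FreeCx.posProj_apply]
    split_ifs with hh
    · rfl
    · refine (sum_eq_zero fun g _ => ?_).symm
      by_cases h0 : s h g = 0
      · rw [h0, zero_smul]
      · have := hsp h g h0
        have hh' : ¬ ((G.pos h : ℤ) = 1) := hh
        rw [hv g (by omega), smul_zero]
  · funext l
    rw [FreeCx.dA_apply, Pi.smul_apply, ← hxm]
    show ∑ h, (MvPolynomial.C (G.mat l h) : Rz B d) • ∑ g, s h g • v g = _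
    simp only [hC, smul_sum, smul_smul]
    rw [sum_comm]
    have h1 : ∀ g, ∑ h, (G.mat l h * s h g) • v g = (x₀ a ^ m • (1 : Matrix G.ι G.ι B)) l g • v g := by
      intro g
      by_cases hg : G.pos g = 0
      · rw [← hsq, Matrix.add_apply, Matrix.mul_apply, Matrix.mul_apply, ← sum_smul,
          show ∑ h, s l h * G.mat h g = 0 from ?_, add_zero]
        refine sum_eq_zero fun h _ => ?_
        by_cases h0 : G.mat h g = 0
        · rw [h0, mul_zero]
        · have := G.mat_pos h g h0
          omega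
      · simp [hv g hg]
    simp only [h1]
    simp [Matrix.one_apply, ite_smul]

variable [IsLocalRing B]

/-- High levels in position zero are boundaries. -/
theorem exists_high (d K Q m : ℕ) (hK : 1 ≤ K) (x₀ : Fin d → B)
    (hred : ∃ r, maximalIdeal B ^ r ≤ Ideal.span (Set.range x₀)) :
    ∃ cH : ℕ, ∀ (M : Type u) [AddCommGroup M] [Module (Rz B d) M] [Module B M]
      [IsScalarTower B (Rz B d) M], (∀ a (y : M), x₀ a • y = (X a : Rz B d) ^ Q • y) →
      (∀ a, ∃ s : Matrix G.ι G.ι B, (∀ h g, s h g ≠ 0 → G.pos h = G.pos g + 1) ∧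
        G.mat * s + s * G.mat = x₀ a ^ m • (1 : Matrix G.ι G.ι B)) →
      ∀ (u : ℤ), (cH : ℤ) ≤ u → ∀ v : G.ι → M, (∀ g, G.pos g ≠ 0 → v g = 0) →
        (∀ g, v g ∈ filB B (d := d) M K u) → v ∈ bd0 d G M := by
  obtain ⟨r, hr⟩ := hred
  let J₁ : Ideal (Rz B d) := Ideal.span (Set.range fun a : Fin d => (X a : Rz B d) ^ (Q * m))
  let J₂ : Ideal B := Ideal.span (Set.range fun a => x₀ a ^ m)
  obtain ⟨k₁, hk₁⟩ : ∃ k, zIdeal B d ^ k ≤ J₁ := by
    refine Ideal.exists_pow_le_of_le_radical_of_fg ?_ (Submodule.fg_span (Set.finite_range _))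
    rw [zIdeal, Ideal.span_le]
    rintro _ ⟨a, rfl⟩
    exact ⟨Q * m, Ideal.subset_span ⟨a, rfl⟩⟩
  obtain ⟨k₂, hk₂⟩ : ∃ k, Ideal.span (Set.range x₀) ^ k ≤ J₂ := by
    refine Ideal.exists_pow_le_of_le_radical_of_fg ?_ (Submodule.fg_span (Set.finite_range _))
    rw [Ideal.span_le]
    rintro _ ⟨a, rfl⟩
    exact ⟨m, Ideal.subset_span ⟨a, rfl⟩⟩
  refine ⟨r * k₂ * K + k₁, fun M _ _ _ _ hx hs u hu v hv hvu => ?_⟩
  let J : Ideal (Rz B d) :=
    { carrier := {p | ∀ w : G.ι → M, (∀ g, G.pos g ≠ 0 → w g = 0) → p • w ∈ bd0 d G M}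
      add_mem' := fun {p q} hp hq w hw => by rw [add_smul]; exact add_mem (hp w hw) (hq w hw)
      zero_mem' := fun w _ => by rw [zero_smul]; exact Submodule.zero_mem _
      smul_mem' := fun c p hp w hw => by rw [smul_eq_mul, mul_smul]; exact smul_bd0 (hp w hw) }
  have hJ₁ : J₁ ≤ J := by
    rw [Ideal.span_le]
    rintro _ ⟨a, rfl⟩ w hw
    exact X_pow_smul_mem_bd0 hx a (hs a) hw
  have hJ₂ : J₂.map MvPolynomial.C ≤ J := by
    rw [Ideal.map_span, Ideal.span_le]
    rintro _ ⟨_, ⟨a, rfl⟩, rfl⟩ w hw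
    have h := X_pow_smul_mem_bd0 hx a (hs a) hw
    convert h using 1
    funext g
    rw [Pi.smul_apply, Pi.smul_apply, ← MvPolynomial.algebraMap_eq,
      IsScalarTower.algebraMap_smul]
    exact pow_smul_eq (hx a) m _
  have hwJ : wIdeal B d K u ≤ J := by
    refine wIdeal_le fun a b hab => ?_
    by_cases ha : r * k₂ ≤ a
    · refine Ideal.mul_le_left.trans ((Ideal.map_mono ?_).trans hJ₂)
      rw [mul_comm] at ha
      refine (Ideal.pow_le_pow_right ha).trans ?_
      rw [mul_comm, pow_mul]
      exact (Ideal.pow_right_mono hr _).trans hk₂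
    · refine Ideal.mul_le_right.trans ((Ideal.pow_le_pow_right ?_).trans (hk₁.trans hJ₁))
      have h2 : (a : ℤ) * K ≤ (r : ℤ) * k₂ * K := by
        exact_mod_cast Nat.mul_le_mul_right K (not_le.1 ha).le
      push_cast at hab hu
      omega
  have hsum : v = ∑ g, Pi.single g (v g) := (Finset.univ_sum_single v).symm
  rw [hsum]
  refine Submodule.sum_mem _ fun g _ => ?_
  by_cases hg : G.pos g = 0
  · have hm : v g ∈ wIdeal B d K u • (⊤ : Submodule (Rz B d) M) := hvu g
    refine Submodule.smul_induction_on hm (fun p hp y _ => ?_) fun y y' hy hy' => ?_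
    · rw [Pi.single_smul]
      refine hwJ hp _ fun h hh => ?_
      rw [Pi.single_apply, if_neg (fun e => hh (by rw [e]; exact hg))]
    · rw [Pi.single_add]
      exact add_mem hy hy'
  · rw [hv g hg, Pi.single_zero]
    exact Submodule.zero_mem _

end Bottom

end Vale.Agent.P202.Mixed.Window
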