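import Vale.Agent.P202.Mixed.Interface
import Vale.Agent.P202.Mixed.Window.Tot
import Vale.Agent.P202.Mixed.Window.Hom

/-!
# P202 mixed characteristic, the window: the kernel of the bottom map

The part of the total complex killed in the zeroth homology of `G` is peeled off one position of
`F ⊗ Kos` at a time; in each column stable vanishing makes a deep relative cycle a boundary.
-/

noncomputable section

namespace Vale.Agent.P202.Mixed.Window

open IsLocalRing MvPolynomial Finset

universe u

variable {B : Type u} [CommRing B] {d : ℕ} {G : FreeCx B} {F : FreeCx (Rz B d)}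
  {M : Type u} [AddCommGroup M] [Module (Rz B d) M] [Module B M] [IsScalarTower B (Rz B d) M]

/-- The position in `F ⊗ Kos` of a column. -/
def colPos (q : F.ι × Finset (Fin d)) : ℕ := F.pos q.1 + (d - q.2.card)

theorem colPos_lt (q : F.ι × Finset (Fin d)) : colPos q < Finset.univ.sup F.pos + d + 1 := by
  have := Finset.le_sup (f := F.pos) (Finset.mem_univ q.1)
  simp only [colPos]
  omega

variable (G F M) in
/-- Supported in the columns of position less than `r`. -/
def colBelow (r : ℕ) : Submodule B (TI G F → M) where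
  carrier := {x | ∀ g q, r ≤ colPos q → x (g, q) = 0}
  add_mem' {x y} hx hy g q h := by rw [Pi.add_apply, hx g q h, hy g q h, add_zero]
  zero_mem' g q _ := rfl
  smul_mem' c x hx g q h := by rw [Pi.smul_apply, hx g q h, smul_zero]

theorem mem_colBelow {r : ℕ} {x : TI G F → M} :
    x ∈ colBelow G F M r ↔ ∀ g q, r ≤ colPos q → x (g, q) = 0 := Iff.rfl

variable (G F M) in
/-- One column. -/
def colProj (q : F.ι × Finset (Fin d)) : (TI G F → M) →ₗ[B] (G.ι → M) :=
  LinearMap.funLeft B M fun g => ((g, q) : TI G F)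

theorem colProj_apply (q : F.ι × Finset (Fin d)) (x : TI G F → M) (g : G.ι) :
    colProj G F M q x g = x (g, q) := rfl

theorem Gz_dA_eq (y : G.ι → M) : (Gz (d := d) G).dA M y = G.dA M y := by
  funext g
  rw [FreeCx.dA_apply, FreeCx.dA_apply]
  refine sum_congr rfl fun h _ => ?_
  rw [Gz_mat, ← MvPolynomial.algebraMap_eq, IsScalarTower.algebraMap_smul]

theorem mem_bd0_iff {v : G.ι → M} :
    v ∈ bd0 d G M ↔ ∃ y, y ∈ (G.diff M B).deg 1 ∧ G.dA M y = v := by
  constructor
  · rintro ⟨_, ⟨w, rfl⟩, rfl⟩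
    exact ⟨_, fun g hg => by rw [FreeCx.posProj_apply, if_neg]; simpa using hg,
      (Gz_dA_eq _).symm⟩
  · rintro ⟨y, hy, rfl⟩
    refine ⟨y, ⟨y, funext fun g => ?_⟩, Gz_dA_eq y⟩
    rw [FreeCx.posProj_apply]
    by_cases hg : ((Gz (d := d) G).pos g : ℤ) = 0 + 1
    · rw [if_pos hg]
    · rw [if_neg hg]
      exact (hy g (by simpa using hg)).symm

theorem tot_dA_col (b r : ℕ) {x : TI G F → M} (hx : ∀ g q, r < colPos q → x (g, q) = 0) (g : G.ι)
    (q : F.ι × Finset (Fin d)) (hq : r ≤ colPos q) :
    (tot G F b).dA M x (g, q) = G.dA M (colProj G F M q x) g := by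
  classical
  obtain ⟨f, S⟩ := q
  have key : ∀ (h : G.ι) (f' : F.ι) (S' : Finset (Fin d)),
      (tot G F b).mat (g, f, S) (h, f', S') • x (h, f', S') =
        if (f, S) = (f', S') then G.mat g h • x (h, f', S') else 0 := by
    intro h f' S'
    by_cases hp : (f, S) = (f', S')
    · rw [if_pos hp, tot_mat, if_pos hp]
      obtain ⟨rfl, rfl⟩ := Prod.ext_iff.1 hp
      have hF : F.mat f f = 0 := by
        by_contra h0
        have := F.mat_pos f f h0
        omega
      have hk : kosMat (fun a => (X a : Rz B d) ^ b) S S = 0 := by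
        rw [kosMat, Matrix.of_apply]
        refine sum_eq_zero fun a ha => absurd (mem_filter.1 ha).2.2 fun e => ?_
        exact (mem_filter.1 ha).2.1 (e ▸ mem_insert_self a S)
      rw [hF, hk, mul_zero, if_pos rfl, if_pos rfl, add_zero, mul_zero, ite_self, add_zero,
        ← MvPolynomial.algebraMap_eq, IsScalarTower.algebraMap_smul]
    · rw [if_neg hp]
      by_cases hx0 : x (h, f', S') = 0
      · rw [hx0, smul_zero]
      by_cases hm : (tot G F b).mat (g, f, S) (h, f', S') = 0
      · rw [hm, zero_smul]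
      exfalso
      have hle : colPos (f', S') ≤ r := le_of_not_gt fun hlt => hx0 (hx h (f', S') hlt)
      rw [tot_mat, if_neg hp, zero_add] at hm
      by_cases hg : g = h
      · subst hg
        rw [if_pos rfl] at hm
        have hc : (F.tensor (zKos B d b)).mat (f, S) (f', S') ≠ 0 := fun h0 => hm (by
          change (-1 : Rz B d) ^ G.pos g * (F.tensor (zKos B d b)).mat (f, S) (f', S') = 0
          rw [h0, mul_zero])
        have h3 : colPos (f', S') = colPos (f, S) + 1 :=
          (F.tensor (zKos B d b)).mat_pos (f, S) (f', S') hc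
        omega
      · exact hm (if_neg hg)
  calc (tot G F b).dA M x (g, f, S) = ∑ h, ∑ q : F.ι × Finset (Fin d),
        (tot G F b).mat (g, f, S) (h, q) • x (h, q) := Fintype.sum_prod_type _
    _ = ∑ h, ∑ q : F.ι × Finset (Fin d),
        (if (f, S) = q then G.mat g h • x (h, q) else 0) :=
      sum_congr rfl fun h _ => sum_congr rfl fun q _ => key h q.1 q.2
    _ = G.dA M (colProj G F M (f, S) x) g := by
      simp [FreeCx.dA_apply, colProj_apply]

variable [IsLocalRing B] {deg : F.ι → ℤ} {K L : ℕ}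

/-- The boundaries of the kernel of the bottom map. -/
abbrev kBd (G : FreeCx B) (F : FreeCx (Rz B d)) (M : Type u) [AddCommGroup M] [Module (Rz B d) M]
    [Module B M] [IsScalarTower B (Rz B d) M] (deg : F.ι → ℤ) (K L b : ℕ) (u : ℤ) (j : ℤ) :
    Submodule B (TI G F → M) :=
  ((tot G F b).diff M B).bdries (killAll G F M) (fT G M deg K L b u) j

/-- The cycles of the kernel of the bottom map in low columns. -/
abbrev kCyc (G : FreeCx B) (F : FreeCx (Rz B d)) (M : Type u) [AddCommGroup M] [Module (Rz B d) M]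
    [Module B M] [IsScalarTower B (Rz B d) M] (deg : F.ι → ℤ) (K L b r : ℕ) (u : ℤ) (j : ℤ) :
    Submodule B (TI G F → M) :=
  ((tot G F b).diff M B).cycles (killAll G F M ⊓ colBelow G F M r) (fT G M deg K L b u) j

/-- One column. -/
abbrev colGBd (G : FreeCx B) (M : Type u) [AddCommGroup M] [Module (Rz B d) M] [Module B M]
    [IsScalarTower B (Rz B d) M] (deg : F.ι → ℤ) (K L b : ℕ) (u : ℤ) (j : ℤ)
    (q : F.ι × Finset (Fin d)) : Submodule B (G.ι → M) :=
  (G.diff M B).bdries ⊤
    (filG B (d := d) M G K L (u - (deg q.1 + zKosLev b q.2))) (j - colPos q)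

/-- One column position. -/
theorem len_layer_le (hhom : ∀ h g, F.mat h g ∈ homInt B d (deg g - deg h)) (hLK : L ≤ K)
    (hG : G.EntriesIn (maximalIdeal B)) (b r : ℕ) {u₀ u₁ u₂ : ℤ} (h₁ : u₀ ≤ u₁) (h₂ : u₁ ≤ u₂)
    (j : ℤ) :
    len (kBd G F M deg K L b u₀ j) (kCyc G F M deg K L b (r + 1) u₂ j) ≤
      len (kBd G F M deg K L b u₀ j) (kCyc G F M deg K L b r u₁ j) +
      ∑ q : {q : F.ι × Finset (Fin d) // colPos q = r}, len (colGBd G M deg K L b u₁ j q.1)
        ((kCyc G F M deg K L b (r + 1) u₂ j).map (colProj G F M q.1)) := by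
  classical
  let P := kBd G F M deg K L b u₀ j
  let N := kCyc G F M deg K L b (r + 1) u₂ j
  let Φ : (TI G F → M) →ₗ[B] ({q : F.ι × Finset (Fin d) // colPos q = r} → G.ι → M) :=
    LinearMap.pi fun q => colProj G F M q.1
  let P' : Submodule B ({q : F.ι × Finset (Fin d) // colPos q = r} → G.ι → M) :=
    Submodule.pi Set.univ fun q => colGBd G M deg K L b u₁ j q.1
  refine (len_le_add_map Φ P N P').trans (add_le_add ?_ ?_)
  · refine (len_mono (N' := kCyc G F M deg K L b r u₁ j ⊔ P) ?_).trans ?_
    swap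
    · rw [len_sup_left _ _ le_rfl]
    rintro x ⟨hx, hxP⟩
    obtain ⟨⟨hxk, hxs⟩, hxd, hxY⟩ := (Diff.mem_cycles _).1 hx
    have hq : ∀ q : {q : F.ι × Finset (Fin d) // colPos q = r},
        colProj G F M q.1 x ∈ colGBd G M deg K L b u₁ j q.1 := fun q => hxP q trivial
    have hq' : ∀ q : {q : F.ι × Finset (Fin d) // colPos q = r}, ∃ y e : G.ι → M,
        y ∈ (G.diff M B).deg (j - colPos q.1 + 1) ∧
        (e ∈ filG B (d := d) M G K L (u₁ - (deg q.1.1 + zKosLev b q.1.2)) ∧
          e ∈ (G.diff M B).deg (j - colPos q.1)) ∧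
        G.dA M y + e = colProj G F M q.1 x ∧
        ∀ g, G.pos g = 0 → y g = 0 := by
      intro q
      by_cases hj : j - (colPos q.1 : ℤ) + 1 = 0
      · refine ⟨0, 0, Submodule.zero_mem _, ⟨Submodule.zero_mem _, Submodule.zero_mem _⟩, ?_,
          fun g _ => rfl⟩
        rw [map_zero, add_zero]
        funext g
        refine (hxd (g, q.1) ?_).symm
        intro e'
        have e'' : ((G.pos g + colPos q.1 : ℕ) : ℤ) = j := e'
        push_cast at e''
        omega
      · obtain ⟨y, ⟨-, hy⟩, e, he, hye⟩ := (Diff.mem_bdries _).1 (hq q)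
        refine ⟨y, e, hy, he, hye, fun g hg => hy g ?_⟩
        omega
    choose y e hy he hye hy0 using hq'
    let Y : TI G F → M := fun l => if h : colPos l.2 = r then y ⟨l.2, h⟩ l.1 else 0
    let Ee : TI G F → M := fun l => if h : colPos l.2 = r then e ⟨l.2, h⟩ l.1 else 0
    have hYoff : ∀ g q, colPos q ≠ r → Y (g, q) = 0 := fun g q h => dif_neg h
    have hEoff : ∀ g q, colPos q ≠ r → Ee (g, q) = 0 := fun g q h => dif_neg h
    have hYon : ∀ g q (h : colPos q = r), Y (g, q) = y ⟨q, h⟩ g := fun g q h => dif_pos h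
    have hEon : ∀ g q (h : colPos q = r), Ee (g, q) = e ⟨q, h⟩ g := fun g q h => dif_pos h
    have hdY : ∀ g q, r ≤ colPos q →
        (tot G F b).dA M Y (g, q) = G.dA M (colProj G F M q Y) g := fun g q h =>
      tot_dA_col b r (fun g q h' => hYoff g q (by omega)) g q h
    have hdY0 : ∀ g q, r < colPos q → (tot G F b).dA M Y (g, q) = 0 := by
      intro g q h
      rw [hdY g q h.le, show colProj G F M q Y = 0 from funext fun g' => hYoff g' q h.ne', map_zero,
        Pi.zero_apply]
    have hsum : ∀ g q (h : colPos q = r),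
        x (g, q) = (tot G F b).dA M Y (g, q) + Ee (g, q) := by
      intro g q h
      have h1 := congrFun (hye ⟨q, h⟩) g
      rw [hdY g q h.ge, hEon g q h,
        show colProj G F M q Y = y ⟨q, h⟩ from funext fun g' => hYon g' q h]
      exact h1.symm
    have hYd : Y ∈ ((tot G F b).diff M B).deg (j + 1) := by
      rintro ⟨g, q⟩ hne
      by_cases h : colPos q = r
      · rw [hYon g q h]
        refine hy ⟨q, h⟩ g ?_
        intro e'
        apply hne
        show ((G.pos g + colPos q : ℕ) : ℤ) = j + 1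
        have e'' : (G.pos g : ℤ) = j - (colPos q : ℤ) + 1 := e'
        push_cast
        omega
      · exact hYoff g q h
    have hEd : Ee ∈ ((tot G F b).diff M B).deg j := by
      rintro ⟨g, q⟩ hne
      by_cases h : colPos q = r
      · rw [hEon g q h]
        refine (he ⟨q, h⟩).2 g ?_
        intro e'
        apply hne
        show ((G.pos g + colPos q : ℕ) : ℤ) = j
        have e'' : (G.pos g : ℤ) = j - (colPos q : ℤ) := e'
        push_cast
        omega
      · exact hEoff g q h
    have hYk : Y ∈ killAll G F M := by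
      rw [mem_killAll]
      intro f S
      have h0 : slot G F M f S Y = 0 := by
        funext g
        rw [slot_apply, Pi.zero_apply]
        split_ifs with hg
        · by_cases h : colPos (f, S) = r
          · rw [hYon g (f, S) h]
            exact hy0 ⟨(f, S), h⟩ g hg
          · exact hYoff g (f, S) h
        · rfl
      rw [h0]
      exact Submodule.zero_mem _
    have hdYk : (tot G F b).dA M Y ∈ killAll G F M := killAll_stable b _ hYk
    have hEk : Ee ∈ killAll G F M := by
      rw [mem_killAll]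
      intro f S
      by_cases h : colPos (f, S) = r
      · have h0 : slot G F M f S Ee =
            slot G F M f S x - slot G F M f S ((tot G F b).dA M Y) := by
          funext g
          rw [Pi.sub_apply, slot_apply, slot_apply, slot_apply]
          split_ifs with hg
          · rw [hsum g (f, S) h, add_sub_cancel_left]
          · rw [sub_zero]
        rw [h0]
        exact Submodule.sub_mem _ (mem_killAll.1 hxk f S) (mem_killAll.1 hdYk f S)
      · have h0 : slot G F M f S Ee = 0 := by
          funext g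
          rw [slot_apply, Pi.zero_apply, hEoff g (f, S) h, ite_self]
        rw [h0]
        exact Submodule.zero_mem _
    have hE₁ : Ee ∈ fT G M deg K L b u₁ := by
      refine mem_fT.2 fun l => ?_
      obtain ⟨g, q⟩ := l
      by_cases h : colPos q = r
      · rw [hEon g q h]
        have h1 := (he ⟨q, h⟩).1 g
        rw [show u₁ - off deg L b ((g, q) : TI G F) =
          u₁ - (deg q.1 + zKosLev b q.2) - ((L * G.pos g : ℕ) : ℤ) by simp only [off]; ring]
        exact h1
      · rw [hEoff g q h]
        exact Submodule.zero_mem _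
    have hdd : ∀ z, (tot G F b).dA M ((tot G F b).dA M z) = 0 := fun z => (tot G F b).dA_dA M z
    rw [show x = (x - (tot G F b).dA M Y - Ee) + ((tot G F b).dA M Y + Ee) by abel]
    refine Submodule.add_mem_sup ?_ ((Diff.mem_bdries _).2 ⟨Y, ⟨hYk, hYd⟩, Ee,
      ⟨fT_antitone b h₁ hE₁, hEd⟩, rfl⟩)
    refine (Diff.mem_cycles _).2 ⟨⟨Submodule.sub_mem _ (Submodule.sub_mem _ hxk hdYk) hEk,
      fun g q h => ?_⟩, Submodule.sub_mem _ (Submodule.sub_mem _ hxd ?_) hEd, ?_⟩
    · show x (g, q) - (tot G F b).dA M Y (g, q) - Ee (g, q) = 0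
      rcases h.lt_or_eq with h' | h'
      · rw [hxs g q (by omega), hdY0 g q h', hEoff g q h'.ne', sub_zero, sub_zero]
      · rw [hsum g q h'.symm, add_sub_cancel_left, sub_self]
    · exact d_mem_deg ((tot G F b).diff M B) hYd
    · have hd : ((tot G F b).diff M B).d (x - (tot G F b).dA M Y - Ee) =
          ((tot G F b).diff M B).d x - ((tot G F b).diff M B).d Ee := by
        rw [map_sub, map_sub]
        rw [show ((tot G F b).diff M B).d ((tot G F b).dA M Y) = 0 from hdd Y, sub_zero]
      rw [hd]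
      exact Submodule.sub_mem _ (fT_antitone b h₂ hxY) (fT_stable hhom hLK hG b u₁ _ hE₁)
  · refine len_pi_le (P := P') (N := N.map Φ)
      (fun q : {q : F.ι × Finset (Fin d) // colPos q = r} =>
        (LinearMap.proj (R := B) (φ := fun _ : {q : F.ι × Finset (Fin d) // colPos q = r} => G.ι → M) q))
      (fun q => colGBd G M deg K L b u₁ j q.1) (fun q => N.map (colProj G F M q.1)) ?_ ?_
    · rintro _ ⟨x, hx, rfl⟩ q
      exact ⟨x, hx, rfl⟩
    · exact fun x _ h q _ => h q

/-- The image in one column consists of deep cycles, which are boundaries in position zero. -/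
theorem map_colProj_le (hhom : ∀ h g, F.mat h g ∈ homInt B d (deg g - deg h)) (b r : ℕ) (u j : ℤ)
    {q : F.ι × Finset (Fin d)} (hq : colPos q = r) :
    (kCyc G F M deg K L b (r + 1) u j).map (colProj G F M q) ≤
      (G.diff M B).cycles ⊤ (filG B (d := d) M G K L (u - (deg q.1 + zKosLev b q.2)))
        (j - colPos q) ∧
    (j - (colPos q : ℤ) = 0 → ∀ z ∈ (kCyc G F M deg K L b (r + 1) u j).map (colProj G F M q),
      ∃ y, y ∈ (G.diff M B).deg 1 ∧ G.dA M y = z) := by
  have hdeg : ∀ x ∈ kCyc G F M deg K L b (r + 1) u j,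
      colProj G F M q x ∈ (G.diff M B).deg (j - colPos q) := by
    intro x hx g hg
    refine ((Diff.mem_cycles _).1 hx).2.1 (g, q) ?_
    intro e'
    apply hg
    have e'' : ((G.pos g + colPos q : ℕ) : ℤ) = j := e'
    push_cast at e''
    omega
  refine ⟨?_, ?_⟩
  · rintro _ ⟨x, hx, rfl⟩
    obtain ⟨⟨-, hxs⟩, -, hxY⟩ := (Diff.mem_cycles _).1 hx
    refine (Diff.mem_cycles _).2 ⟨trivial, hdeg x hx, fun g => ?_⟩
    have h1 := mem_fT.1 hxY (g, q)
    rw [show (((tot G F b).diff M B).d x) (g, q) = G.dA M (colProj G F M q x) g from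
      tot_dA_col b r (fun g q h => hxs g q h) g q hq.ge] at h1
    rw [show u - (deg q.1 + zKosLev b q.2) - ((L * G.pos g : ℕ) : ℤ) =
      u - off deg L b ((g, q) : TI G F) by simp only [off]; ring]
    exact h1
  · rintro hj _ ⟨x, hx, rfl⟩
    obtain ⟨⟨hxk, -⟩, -, -⟩ := (Diff.mem_cycles _).1 hx
    have h0 : slot G F M q.1 q.2 x = colProj G F M q x := by
      funext g
      rw [slot_apply, colProj_apply]
      split_ifs with hg
      · rfl
      · exact (hdeg x hx g (by rw [hj]; exact_mod_cast hg)).symm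
    rw [← h0]
    exact mem_bd0_iff.1 (mem_killAll.1 hxk q.1 q.2)

/-- Deep relative cycles of the kernel of the bottom map are almost boundaries. -/
theorem exists_killAll_trans {B : Type u} [CommRing B] [IsLocalRing B] [IsNoetherianRing B]
    {d : ℕ} {G : FreeCx B} {F : FreeCx (Rz B d)} {deg : F.ι → ℤ} (h2 : StableStatement.{u})
    (hd : 1 ≤ d) (x : Fin d → B) (hred : ∃ r, maximalIdeal B ^ r ≤ Ideal.span (Set.range x))
    (hGd : G.LengthLE d) (hG : G.EntriesIn (maximalIdeal B)) (hnull : NullPowers G x)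
    (hhom : ∀ h g, F.mat h g ∈ homInt B d (deg g - deg h)) (Q K L : ℕ) (hQ : 1 ≤ Q)
    (hLK : L + 1 ≤ K) :
    ∃ D : ℕ, ∀ b w : ℕ, (∀ f, deg f ≤ (w : ℤ)) → ∃ v₀ : ℕ, ∀ v, v₀ ≤ v → ∃ C : ℕ,
    ∀ (M : Type u) [AddCommGroup M] [Module (Rz B d) M] [Module B M]
      [IsScalarTower B (Rz B d) M] (D₁ E : ℕ), AlmostFree B M x Q K v D₁ E → ∀ j : ℤ,
      len (((tot G F b).diff M B).bdries (killAll G F M) (fT G M deg K L b (w : ℤ)) j)
        (((tot G F b).diff M B).cycles (killAll G F M) (fT G M deg K L b ((w + D : ℕ) : ℤ)) j) ≤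
          ((C * E : ℕ) : ℕ∞) := by
  classical
  obtain ⟨Δ, hΔ⟩ := h2 B d hd x hred G hGd hnull Q K L hQ (by omega) (Or.inr ⟨by omega, hG⟩)
  choose V hV using hΔ
  choose CC hCC using hV
  let R := Finset.univ.sup F.pos + d + 1
  refine ⟨R * Δ, fun b w hw => ?_⟩
  let wcol : F.ι × Finset (Fin d) → ℕ → ℕ := fun q r =>
    ((w : ℤ) + r * Δ - (deg q.1 + zKosLev b q.2)).toNat
  refine ⟨∑ q : F.ι × Finset (Fin d), ∑ r ∈ range R, V (wcol q r), fun v hv => ?_⟩
  have hvq : ∀ q r, r ∈ range R → V (wcol q r) ≤ v := fun q r hr =>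
    ((single_le_sum (f := fun r => V (wcol q r)) (fun _ _ => Nat.zero_le _) hr).trans
      (single_le_sum (f := fun q => ∑ r ∈ range R, V (wcol q r)) (fun _ _ => Nat.zero_le _)
        (mem_univ q))).trans hv
  let Cq : F.ι × Finset (Fin d) → ℕ → ℕ := fun q r =>
    if h : r ∈ range R then CC (wcol q r) v (hvq q r h) else 0
  refine ⟨∑ r ∈ range R, ∑ q : F.ι × Finset (Fin d), Cq q r,
    fun M _ _ _ _ D₁ E hAF j => ?_⟩
  have key : ∀ r : ℕ, r ≤ R →
      len (kBd G F M deg K L b (w : ℤ) j) (kCyc G F M deg K L b r ((w : ℤ) + r * Δ) j) ≤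
        (((∑ r ∈ range r, ∑ q : F.ι × Finset (Fin d), Cq q r) * E : ℕ) : ℕ∞) := by
    intro r
    induction r with
    | zero =>
      intro _
      rw [len_eq_zero]
      · exact zero_le
      intro z hz
      have : z = 0 := funext fun l => (((Diff.mem_cycles _).1 hz).1.2) l.1 l.2 (Nat.zero_le _)
      rw [this]
      exact Submodule.zero_mem _
    | succ r ih =>
      intro hr
      refine (len_layer_le hhom (by omega) hG b r (u₁ := (w : ℤ) + r * Δ)
        (le_add_of_nonneg_right (by positivity)) (by push_cast; nlinarith) j).trans ?_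
      rw [sum_range_succ, add_mul, Nat.cast_add (R := ℕ∞)]
      refine add_le_add (ih (by omega)) ?_
      rw [Finset.sum_mul, Nat.cast_sum]
      refine (sum_le_sum (g := fun q : {q : F.ι × Finset (Fin d) // colPos q = r} =>
        ((Cq q.1 r * E : ℕ) : ℕ∞)) fun q _ => ?_).trans ?_
      · obtain ⟨h1, h0⟩ := map_colProj_le (G := G) (M := M) (K := K) (L := L) hhom b r
          ((w : ℤ) + ((r + 1 : ℕ) : ℤ) * Δ) j q.2
        by_cases hj : 1 ≤ j - (colPos q.1 : ℤ)
        · have hnn : 0 ≤ (w : ℤ) + (r : ℤ) * Δ - (deg q.1.1 + zKosLev b q.1.2) := by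
            have h3 := hw q.1.1
            have h4 : zKosLev b q.1.2 ≤ 0 := neg_nonpos.2 (Int.natCast_nonneg _)
            have h5 : (0 : ℤ) ≤ (r : ℤ) * Δ := by positivity
            omega
          have hcast : ((wcol q.1 r : ℕ) : ℤ) =
              (w : ℤ) + (r : ℤ) * Δ - (deg q.1.1 + zKosLev b q.1.2) := Int.toNat_of_nonneg hnn
          have hS := hCC (wcol q.1 r) v (hvq q.1 r (Finset.mem_range.2 (by omega))) M D₁ E hAF
            (j - colPos q.1) hj
          simp only [Cq, dif_pos (Finset.mem_range.2 (show r < R by omega))]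
          refine (len_mono h1).trans (le_trans (le_of_eq ?_) hS)
          unfold stabLen
          rw [len_def, colGBd, Nat.cast_add (wcol q.1 r) Δ, hcast,
            show (w : ℤ) + ((r + 1 : ℕ) : ℤ) * Δ - (deg q.1.1 + zKosLev b q.1.2) =
              (w : ℤ) + (r : ℤ) * Δ - (deg q.1.1 + zKosLev b q.1.2) + Δ by push_cast; ring]
        · rw [len_eq_zero]
          · exact zero_le
          intro z hz
          rcases lt_or_eq_of_le (show j - (colPos q.1 : ℤ) ≤ 0 by omega) with hneg | hzero
          · have hz2 := ((Diff.mem_cycles _).1 (h1 hz)).2.1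
            rw [show z = 0 from funext fun g => hz2 g (by omega)]
            exact Submodule.zero_mem _
          · obtain ⟨y, hy, hyz⟩ := h0 hzero z hz
            exact (Diff.mem_bdries _).2 ⟨y, ⟨trivial, by rw [hzero, zero_add]; exact hy⟩, 0,
              ⟨Submodule.zero_mem _, Submodule.zero_mem _⟩, by rw [add_zero]; exact hyz⟩
      · exact le_of_eq_of_le (Finset.sum_subtype (univ.filter fun q => colPos q = r) (by simp)
          (fun q : F.ι × Finset (Fin d) => ((Cq q r * E : ℕ) : ℕ∞))).symm
          (sum_le_sum_of_subset (Finset.subset_univ _))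
  refine le_trans ?_ (key R le_rfl)
  refine len_mono ?_
  rw [show ((w + R * Δ : ℕ) : ℤ) = (w : ℤ) + (R : ℤ) * Δ by push_cast; ring]
  exact cycles_mono _ (le_inf le_rfl fun z _ g q h => absurd h (not_le.2 (colPos_lt q))) le_rfl j

end Vale.Agent.P202.Mixed.Window
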