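import Vale.Agent.P202.Mixed.Window.Bound
import Vale.Agent.P202.Mixed.Window.Ranks
import Vale.Agent.P202.Mixed.Window.Nil
import Vale.Agent.P202.Mixed.Window.Trans
import Vale.Agent.P202.Mixed.Window.Bottom

/-!
# P202 mixed characteristic, the window: the inequality

The bound for one family of shifts is summed over the families; the alternating sum of the ranks
vanishes unless all the elements are nilpotent.
-/

noncomputable section

namespace Vale.Agent.P202.Mixed.Window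

open IsLocalRing Finset

universe u

theorem GrHyp.mono {B : Type u} [CommRing B] [IsLocalRing B] {n : ℕ} {c : Fin n → ℤ}
    {G : FreeCx B} {S : SliceCx B c} {M : Type u} [AddCommGroup M] [Module (Rz B (n + 1)) M]
    [Module B M] [IsScalarTower B (Rz B (n + 1)) M] {K L v nn : ℕ} {η η' : ℤ}
    (h : GrHyp G S M K L v nn η) (hη : η ≤ η') : GrHyp G S M K L v nn η' where
  upper b u P hr := (h.upper b u P hr).trans (add_le_add le_rfl hη)
  lower b u P hr := (h.lower b u P hr).trans (add_le_add le_rfl hη)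
  ker b b' u P hb hr hr' := (h.ker b b' u P hb hr hr').trans hη
  coker b b' u P hb hr hr' := (h.coker b b' u P hb hr hr').trans hη

variable {n L : ℕ} {q : Fin (n + 1)}

/-- The section sums are the sums of the bottom. -/
theorem sum_sectionDim_Ico (hn : 1 ≤ n) {lo : ℤ} (hlo : lo ≤ -((2 * L : ℕ) : ℤ)) (a : ℤ) :
    ((∑ t ∈ Ico lo (a + 1), sectionDim (shifts L q) t 0 : ℕ) : ℤ) =
      sectSum (shifts L q) L a := by
  rw [Nat.cast_sum, sectSum]
  simp only [sectionDim_zero]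
  refine (sum_subset ?_ ?_).symm
  · intro t ht
    simp only [mem_Ioc, mem_Ico] at ht ⊢
    omega
  · intro t ht ht'
    simp only [mem_Ioc, mem_Ico] at ht ht'
    exact sect_eq_zero hn (by omega)

variable {B : Type u} [CommRing B] [IsLocalRing B] [IsNoetherianRing B] {G : FreeCx B}

/-- The inequality for one family of shifts. -/
theorem window_one (h2 : StableStatement.{u}) (hn : 1 ≤ n) (x : Fin (n + 1) → B)
    (hred : ∃ r, maximalIdeal B ^ r ≤ Ideal.span (Set.range x)) (hGd : G.LengthLE (n + 1))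
    (hG : G.EntriesIn (maximalIdeal B)) (hnull : NullPowers G x)
    (he : ∑ i ∈ Finset.range (n + 2), (-1 : ℤ) ^ i * (G.rank i : ℤ) = 0)
    (Q K : ℕ) (hQ : 1 ≤ Q) (hL : 1 ≤ L) (hLK : L + 1 ≤ K)
    (S : SliceCx B (shifts L q)) :
    ∃ v₀ : ℕ, ∀ v, v₀ ≤ v → ∃ C : ℕ, ∀ (M : Type u) [AddCommGroup M]
      [Module (Rz B (n + 1)) M] [Module B M] [IsScalarTower B (Rz B (n + 1)) M] (D₁ E : ℕ),
      AlmostFree B M x Q K v D₁ E →
      (D₁ : ℤ) * winTotal L q (fun i => G.rank i) (L * (n + 1)) ≤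
        (n.factorial : ℤ) * hl (G.diff M B) ⊤ ⊥ 0 + ((C * E : ℕ) : ℤ) := by
  classical
  obtain ⟨m, -, hs⟩ := id hnull
  set Dg : ℕ := univ.sup fun f => (S.deg f).natAbs with hDg
  have hdeg : ∀ f, -(Dg : ℤ) ≤ S.deg f ∧ S.deg f ≤ (Dg : ℤ) := fun f => by
    have : (S.deg f).natAbs ≤ Dg := Finset.le_sup (f := fun f => (S.deg f).natAbs) (mem_univ f)
    omega
  obtain ⟨cH, hcH⟩ := exists_high (G := G) (n + 1) K Q m (by omega) x hred
  obtain ⟨Δ, hΔ⟩ := exists_killAll_trans (F := S.F) (deg := S.deg) h2 (by omega) x hred hGd hG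
    hnull S.homog Q K L hQ hLK
  set b₁ := Q * m with hb₁
  set b := b₁ + S.B₀ + L * (n + 1) + cH + Dg + (Dg + (n + 1) * b₁) with hb
  set b₂ := b + S.B₀ + L * (n + 1) + (Dg + (n + 1) * b) with hb₂
  set w := L * (n + 1) + cH + Dg + 1 with hw
  set lo : ℤ := -((Dg + (n + 1) * b₁ : ℕ) : ℤ) with hlo
  set lo₂ : ℤ := -((Dg + (n + 1) * b : ℕ) : ℤ) with hlo₂
  set lob : ℤ := -((Dg + 2 * L : ℕ) : ℤ) with hlob
  obtain ⟨v₁, hv₁⟩ := hΔ b₁ w fun f => by have := hdeg f; omega
  obtain ⟨v₂, hv₂⟩ := hΔ b w fun f => by have := hdeg f; omega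
  obtain ⟨v₃, hv₃⟩ := exists_bottom S x Q K (by omega) lob 1 fun f => by have := hdeg f; omega
  obtain ⟨v₄, hv₄⟩ := exists_bottom S x Q K (by omega) lob (1 - (L : ℤ)) fun f => by
    have := hdeg f; omega
  refine ⟨v₁ + v₂ + v₃ + v₄ + (w + Δ + Dg + (n + 1) * b₂ + 1), fun v hv => ?_⟩
  obtain ⟨Cg, hCg⟩ := exists_grHyp (G := G) S hLK hG Q v (by omega) x
  obtain ⟨Ca, hCa⟩ := hv₁ v (by omega)
  obtain ⟨Cb, hCb⟩ := hv₂ v (by omega)
  obtain ⟨Cc, hCc⟩ := hv₃ v (by omega)
  obtain ⟨Cd, hCd⟩ := hv₄ v (by omega)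
  set Cη := Cg + Ca + Cb with hCη
  set k := (topPos G S.F + 1) * (4 * ((w : ℤ) - lo).toNat + (lo - lo₂).toNat +
    2 * (1 - lo).toNat + Δ + w + 3) + 1 with hk
  set P := posSum G L q (w - 1) with hP
  refine ⟨k * Cη + Cg * P.natAbs + G.rank 0 * Cc + G.rank 1 * Cd,
    fun M _ _ _ _ D₁ E hAF => ?_⟩
  obtain ⟨nn, hn1, hn2, hgr⟩ := hCg M D₁ E hAF
  have hV := length_pi_ne_top hAF.finite (TI G S.F)
  have hoff : ∀ (b' : ℕ) (l : TI G S.F),
      -((Dg + (n + 1) * b' : ℕ) : ℤ) ≤ off S.deg L b' l := by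
    intro b' l
    have h1 := hdeg l.2.1
    have h3 : b' * l.2.2.card ≤ (n + 1) * b' := by
      rw [mul_comm (n + 1)]
      exact Nat.mul_le_mul_left _ ((Finset.card_le_univ _).trans (Fintype.card_fin _).le)
    simp only [off, zKosLev]
    omega
  have hgap : ∀ (f : S.F.ι) (T : Finset (Fin (n + 1))) (b' : ℕ), T ≠ ∅ →
      zKosLev b' T ≤ -(b' : ℤ) := by
    intro f T b' hT
    have : 1 ≤ T.card := Finset.card_pos.2 (Finset.nonempty_iff_ne_empty.2 hT)
    have := Nat.mul_le_mul_left b' this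
    simp only [zKosLev]
    omega
  have slot_mem : ∀ (u : ℤ) (z : TI G S.F → M) (f : S.F.ι) (T : Finset (Fin (n + 1))),
      z ∈ fT G M S.deg K L b u → (cH : ℤ) ≤ u - S.deg f - zKosLev b T →
      slot G S.F M f T z ∈ bd0 (n + 1) G M := by
    intro u z f T hz hu
    refine hcH M hAF.x_smul hs _ hu _ (fun g hg => ?_) fun g => ?_
    · rw [slot_apply, if_neg hg]
    · rw [slot_apply]
      split_ifs with hg
      · have := mem_fT.1 hz (g, f, T)
        simp only [off, hg, mul_zero, Nat.cast_zero, zero_add] at this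
        rwa [show u - S.deg f - zKosLev b T = u - (S.deg f + zKosLev b T) by ring]
      · exact Submodule.zero_mem _
  have hset : Setup G S M K Q m v nn x ((Cη * E : ℕ) : ℤ) b₁ b b₂ lo lo₂ w Δ := by
    refine
      { finite := hAF.finite
        x_smul := hAF.x_smul
        homotopy := hs
        gr := hgr.mono (Int.ofNat_le.2 (Nat.mul_le_mul_right E (by omega)))
        eta_nonneg := Int.natCast_nonneg _
        le₁ := le_rfl
        le₂ := by omega
        le₃ := by omega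
        lo_le := ?_
        w_ge := by omega
        range := ?_
        range₂ := ?_
        top₁ := fT_of_le fun l => hoff b₁ l
        top := fT_of_le fun l => hoff b l
        high := fun z hz f T hT => slot_mem _ z f T hz (by
          have := hdeg f
          have := hgap f T b hT
          omega)
        below := fun z hz => mem_killAll.2 fun f T => slot_mem _ z f T hz (by
          have := hdeg f
          have : zKosLev b T ≤ 0 := neg_nonpos.2 (Int.natCast_nonneg _)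
          omega)
        trans₁ := fun P => (ln_le_of_len_le (hCa M D₁ E hAF P)).trans
          (Int.ofNat_le.2 (Nat.mul_le_mul_right E (by omega)))
        trans := fun P => (ln_le_of_len_le (hCb M D₁ E hAF P)).trans
          (Int.ofNat_le.2 (Nat.mul_le_mul_right E (by omega))) }
    · have : (n + 1) * b₁ ≤ (n + 1) * b := Nat.mul_le_mul_left _ (by omega)
      omega
    · refine ⟨by omega, fun l => ?_, fun g => ?_⟩
      · have := hoff b l
        have : (n + 1) * b ≤ (n + 1) * b₂ := Nat.mul_le_mul_left _ (by omega)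
        omega
      · have := Nat.mul_le_mul_left L (hGd g)
        omega
    · refine ⟨by omega, fun l => ?_, fun g => ?_⟩
      · have := hoff b₂ l
        omega
      · have := Nat.mul_le_mul_left L (hGd g)
        omega
  have hwin := hset.window hGd hL hG (by omega)
  rw [← hk, ← hP] at hwin
  -- the corner cokernels
  set T₁ := ∑ t ∈ Ico lob 1, sectionDim (shifts L q) t 0 with hT₁
  set T₂ := ∑ t ∈ Ico lob (1 - (L : ℤ)), sectionDim (shifts L q) t 0 with hT₂
  have hF := length_pi_ne_top hAF.finite S.F.ι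
  have hb1 : (D₁ : ℤ) * T₁ ≤
      ln (cokP M S.F S.deg K 1) ((S.F.diff M B).deg 0) + ((Cc * E : ℕ) : ℤ) := by
    have h := (hCc M D₁ E hAF).2
    rw [← coe_ln hF, ← Nat.cast_add, Nat.cast_le] at h
    show (D₁ : ℤ) * (T₁ : ℤ) ≤
      ((len (cokP M S.F S.deg K 1) ((S.F.diff M B).deg 0)).toNat : ℤ) + ((Cc * E : ℕ) : ℤ)
    exact_mod_cast h
  have hb2 : ln (cokP M S.F S.deg K (1 - (L : ℤ))) ((S.F.diff M B).deg 0) ≤
      (D₁ : ℤ) * T₂ + ((Cd * E : ℕ) : ℤ) := by
    have h := ln_le_of_len_le (hCd M D₁ E hAF).1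
    push_cast at h ⊢
    exact h
  have hlb : lob ≤ -((2 * L : ℕ) : ℤ) := by omega
  have hS₁ : (T₁ : ℤ) = sectSum (shifts L q) L 0 := by
    rw [hT₁, ← sum_sectionDim_Ico hn hlb 0, zero_add]
  have hS₂ : (T₂ : ℤ) = sectSum (shifts L q) L (-(L : ℤ)) := by
    rw [hT₂, ← sum_sectionDim_Ico hn hlb (-(L : ℤ)),
      show -(L : ℤ) + 1 = 1 - (L : ℤ) by ring]
  rw [winTotal_eq hn _ _ le_rfl he, ← winTotal_eq hn _ (w - 1) (by omega) he,
    show winTotal L q (fun i => G.rank i) (w - 1) = P +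
      ((G.rank 0 : ℤ) * T₁ - (G.rank 1 : ℤ) * T₂) by rw [hS₁, hS₂]; rfl]
  have hnn : (D₁ : ℤ) * P ≤ (nn : ℤ) * P + ((Cg * P.natAbs * E : ℕ) : ℤ) := by
    push_cast
    have h1 : ((nn : ℤ) - D₁) ≤ (Cg : ℤ) * E := by
      have : (nn : ℤ) ≤ ((D₁ + Cg * E : ℕ) : ℤ) := Int.ofNat_le.2 hn1
      push_cast at this
      linarith
    have h2 : ((D₁ : ℤ) - nn) ≤ (Cg : ℤ) * E := by
      have : (D₁ : ℤ) ≤ ((nn + Cg * E : ℕ) : ℤ) := Int.ofNat_le.2 hn2
      push_cast at this
      linarith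
    rcases le_total 0 P with hp | hp
    · rw [abs_of_nonneg hp]
      have := mul_le_mul_of_nonneg_right h2 hp
      linarith
    · rw [abs_of_nonpos hp]
      have := mul_le_mul_of_nonneg_right h1 (neg_nonneg.2 hp)
      linarith
  have e1 := mul_le_mul_of_nonneg_left hb1 (Int.natCast_nonneg (G.rank 0))
  have e2 := mul_le_mul_of_nonneg_left hb2 (Int.natCast_nonneg (G.rank 1))
  push_cast at hwin hnn e1 e2 ⊢
  linarith

end Vale.Agent.P202.Mixed.Window

namespace Vale.Agent.P202.Mixed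

open IsLocalRing Finset Window

universe u

/-- The window inequality. -/
theorem windowStatement (h1 : SliceStatement.{u}) (h2 : StableStatement.{u}) :
    WindowStatement.{u} := by
  intro B _ _ _ d hd x _ hred G hGd hG hnull
  obtain ⟨n, rfl⟩ : ∃ n, d = n + 1 := ⟨d - 1, by omega⟩
  by_cases hnil : ∀ a, IsNilpotent (x a)
  · refine ⟨0, fun Q K _ _ => ?_⟩
    obtain ⟨v₀, hv₀⟩ := window_nilpotent (by omega) hnil Q K (G.rank 0)
    refine ⟨v₀, fun v hv => ?_⟩
    obtain ⟨C, hC⟩ := hv₀ v hv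
    refine ⟨C, fun M _ _ _ _ D₁ E hAF => le_add_left ?_⟩
    refine Nat.cast_le.2 ((hC M D₁ E hAF).trans ?_)
    omega
  obtain ⟨a, ha⟩ := not_forall.1 hnil
  have he : ∑ i ∈ Finset.range (n + 2), (-1 : ℤ) ^ i * (G.rank i : ℤ) = 0 := by
    rw [sum_rank G hGd]
    exact euler_zero_of_not_nilpotent hnull ha
  set C₁ := (∑ i ∈ Finset.range (n + 2), G.rank i) * numC n with hC₁
  refine ⟨C₁, fun Q K hK hKQ => ?_⟩
  have hn : 1 ≤ n := by omega
  obtain ⟨L, rfl⟩ : ∃ L, K = L + 1 := ⟨K - 1, by omega⟩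
  have hq : ∀ q : Fin (n + 1), ∃ v₀ : ℕ, ∀ v, v₀ ≤ v → ∃ C : ℕ, ∀ (M : Type u) [AddCommGroup M]
      [Module (Rz B (n + 1)) M] [Module B M] [IsScalarTower B (Rz B (n + 1)) M] (D₁ E : ℕ),
      AlmostFree B M x Q (L + 1) v D₁ E →
      (D₁ : ℤ) * winTotal L q (fun i => G.rank i) (L * (n + 1)) ≤
        (n.factorial : ℤ) * hl (G.diff M B) ⊤ ⊥ 0 + ((C * E : ℕ) : ℤ) := fun q => by
    obtain ⟨S⟩ := h1 B n (shifts L q) hn
    exact window_one h2 hn x hred hGd hG hnull he Q (L + 1) (by omega) (by omega) le_rfl S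
  choose V hV using hq
  refine ⟨∑ q, V q, fun v hv => ?_⟩
  choose C hC using fun q =>
    hV q v ((single_le_sum (fun _ _ => Nat.zero_le _) (mem_univ q)).trans hv)
  refine ⟨∑ q, C q, fun M _ _ _ _ D₁ E hAF => ?_⟩
  have hsum := sum_le_sum fun q (_ : q ∈ univ) => hC q M D₁ E hAF
  rw [← mul_sum, sum_add_distrib, sum_const, card_univ, Fintype.card_fin, nsmul_eq_mul] at hsum
  have hnum := sum_winTotal_ge hn (show 1 ≤ L by omega) (fun i => G.rank i) (L * (n + 1)) le_rfl he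
  have h3 := mul_le_mul_of_nonneg_left hnum (Int.natCast_nonneg D₁)
  rw [← hC₁] at h3
  set H := hl (G.diff M B) ⊤ ⊥ 0 with hH
  have hne : Module.length B (G.ι → M) ≠ ⊤ := length_pi_ne_top hAF.finite G.ι
  have hlen : hLen B M G 0 =
      ((len ((G.diff M B).bdries ⊤ ⊥ 0) ((G.diff M B).cycles ⊤ ⊥ 0)).toNat : ℕ∞) := by
    rw [coe_ln hne]
    exact length_H _ _ _ _
  rw [hlen, ← Nat.cast_add, Nat.cast_le, ← Int.ofNat_le]
  push_cast
  change _ ≤ H + _
  set A : ℤ := (G.rank 0 : ℤ) * D₁ * (L : ℤ) ^ (n + 1) with hA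
  set R : ℤ := (C₁ : ℤ) * D₁ * (L : ℤ) ^ n + ((∑ q, C q : ℕ) : ℤ) * E with hR
  have hR0 : 0 ≤ R := by positivity
  have key : ((n + 1).factorial : ℤ) * A ≤ ((n + 1).factorial : ℤ) * H + R := by
    push_cast [Nat.factorial_succ] at hsum h3 ⊢
    rw [hA, hR]
    push_cast
    rw [sum_mul]
    linarith
  have hfac : (1 : ℤ) ≤ ((n + 1).factorial : ℤ) := by exact_mod_cast (n + 1).factorial_pos
  have hA' : A ≤ H + R := by nlinarith
  have hpow : (C₁ : ℤ) * D₁ * (L : ℤ) ^ n ≤ (C₁ : ℤ) * D₁ * ((L : ℤ) + 1) ^ n :=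
    mul_le_mul_of_nonneg_left (pow_le_pow_left₀ (by positivity) (by omega) n) (by positivity)
  rw [hA, hR] at hA'
  push_cast at hA' ⊢
  linarith

end Vale.Agent.P202.Mixed
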