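import Vale.Agent.P202.Mixed.Window.Tor

/-!
# P202 mixed characteristic, the window: the bound for one family of shifts

The levels above zero give the window sums, the levels below give the corner.
-/

noncomputable section

namespace Vale.Agent.P202.Mixed.Window

open IsLocalRing Finset

universe u

variable {B : Type u} [CommRing B] [IsLocalRing B] {n : ℕ} {G : FreeCx B}

/-- The window sum of the positive levels, per generator. -/
def posSum (G : FreeCx B) (L : ℕ) (q : Fin (n + 1)) (W : ℕ) : ℤ :=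
  ∑ i ∈ range (n + 2), (-1) ^ i * (G.rank i : ℤ) *
      ∑ u ∈ Icc (1 : ℤ) W, (sect (shifts L q) (u - ((L * i : ℕ) : ℤ)) -
        polyP (shifts L q) (u - ((L * i : ℕ) : ℤ)))

theorem negOnePow_split (P i d : ℕ) :
    (((-1 : ℤ) ^ (d + P)) : ℤ) =
      (-1 : ℤ) ^ i * (((P : ℤ) - i - (d : ℤ)).negOnePow : ℤ) := by
  rw [← Int.coe_negOnePow_natCast, ← Int.coe_negOnePow_natCast, ← Units.val_mul, ← Int.negOnePow_add,
    Units.val_inj, Int.negOnePow_eq_iff]
  exact ⟨d, by push_cast; ring⟩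

theorem sig_sum (hGd : G.LengthLE (n + 1)) (L : ℕ) (q : Fin (n + 1)) (W top : ℕ)
    (htop : ∀ g, G.pos g + (n + 1) ≤ top) :
    ∑ i ∈ range W, ∑ P ∈ range (top + 1), (-1 : ℤ) ^ ((n + 1) + P) *
        (sig G (shifts L q) L (1 + (i : ℤ)) (P : ℤ) : ℤ) = posSum G L q W := by
  classical
  have hone : ∀ (u : ℤ), ∑ P ∈ range (top + 1), (-1 : ℤ) ^ ((n + 1) + P) *
      (sig G (shifts L q) L u (P : ℤ) : ℤ) =
      ∑ i ∈ range (n + 2), (-1) ^ i * (G.rank i : ℤ) *
        (sect (shifts L q) (u - ((L * i : ℕ) : ℤ)) - polyP (shifts L q) (u - ((L * i : ℕ) : ℤ))) := by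
    intro u
    simp only [sig, Nat.cast_sum, mul_sum]
    rw [sum_comm, ← sum_fiberwise_of_maps_to (t := range (n + 2)) (g := G.pos)
      (fun g _ => mem_range.2 (Nat.lt_succ_of_le (hGd g)))]
    refine sum_congr rfl fun i hi => ?_
    rw [sum_congr rfl (g := fun _ => (-1 : ℤ) ^ i * (sect (shifts L q) (u - ((L * i : ℕ) : ℤ)) -
      polyP (shifts L q) (u - ((L * i : ℕ) : ℤ)))) fun g hg => ?_, sum_const, nsmul_eq_mul,
      FreeCx.rank]
    · ring
    obtain ⟨-, rfl⟩ := mem_filter.1 hg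
    rw [← sum_sliceDim (shifts L q) (u - ((L * G.pos g : ℕ) : ℤ))
      ((range (top + 1)).image fun P : ℕ => (P : ℤ) - G.pos g - ((n + 1 : ℕ) : ℤ)) ?_,
      sum_image (fun a _ b _ h => by omega), mul_sum]
    · refine sum_congr rfl fun P _ => ?_
      rw [negOnePow_split P (G.pos g) (n + 1)]
      ring
    · intro p hp
      refine mem_image.2 ⟨G.pos g + (n + 1) - (p + 1), mem_range.2 ?_, ?_⟩
      · have := htop g
        omega
      · push_cast [Nat.cast_sub (show p + 1 ≤ G.pos g + (n + 1) by omega)]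
        ring
  simp only [hone, posSum, mul_sum]
  rw [sum_comm]
  refine sum_congr rfl fun i _ => ?_
  refine sum_nbij' (fun k : ℕ => 1 + (k : ℤ)) (fun u => (u - 1).toNat) ?_ ?_ ?_ ?_ ?_ <;>
    intro k hk <;> simp at hk ⊢ <;> omega

variable {M : Type u} [AddCommGroup M] [Module (Rz B (n + 1)) M] [Module B M]
  [IsScalarTower B (Rz B (n + 1)) M] {L : ℕ} {q : Fin (n + 1)} {S : SliceCx B (shifts L q)}
  {K v nn : ℕ} {η : ℤ}

/-- What is used of the module and the parameters. -/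
structure Setup (G : FreeCx B) (S : SliceCx B (shifts L q)) (M : Type u) [AddCommGroup M]
    [Module (Rz B (n + 1)) M] [Module B M] [IsScalarTower B (Rz B (n + 1)) M]
    (K Q m v nn : ℕ) (x₀ : Fin (n + 1) → B) (η : ℤ) (b₁ b b₂ : ℕ) (lo lo₂ : ℤ) (w Δ : ℕ) :
    Prop where
  finite : Module.length B M ≠ ⊤
  x_smul : ∀ a (y : M), x₀ a • y = (MvPolynomial.X a : Rz B (n + 1)) ^ Q • y
  homotopy : ∀ a, ∃ s : Matrix G.ι G.ι B, (∀ h g, s h g ≠ 0 → G.pos h = G.pos g + 1) ∧
    G.mat * s + s * G.mat = x₀ a ^ m • (1 : Matrix G.ι G.ι B)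
  gr : GrHyp G S M K L v nn η
  eta_nonneg : 0 ≤ η
  le₁ : Q * m ≤ b₁
  le₂ : b₁ ≤ b
  le₃ : b ≤ b₂
  lo_le : lo₂ ≤ lo ∧ lo ≤ 0
  w_ge : L * (n + 1) + 1 ≤ w
  range : InRange G S L v b lo ((w + Δ : ℕ) : ℤ)
  range₂ : InRange G S L v b₂ lo₂ (w : ℤ)
  top₁ : fT G M S.deg K L b₁ lo = ⊤
  top : fT G M S.deg K L b lo₂ = ⊤
  high : ∀ z ∈ fT G M S.deg K L b lo, ∀ f T, T ≠ ∅ → slot G S.F M f T z ∈ bd0 (n + 1) G M
  below : fT G M S.deg K L b (w : ℤ) ≤ killAll G S.F M
  trans₁ : ∀ P, ln (((tot G S.F b₁).diff M B).bdries (killAll G S.F M)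
      (fT G M S.deg K L b₁ (w : ℤ)) P)
    (((tot G S.F b₁).diff M B).cycles (killAll G S.F M)
      (fT G M S.deg K L b₁ ((w + Δ : ℕ) : ℤ)) P) ≤ η
  trans : ∀ P, ln (((tot G S.F b).diff M B).bdries (killAll G S.F M)
      (fT G M S.deg K L b (w : ℤ)) P)
    (((tot G S.F b).diff M B).cycles (killAll G S.F M)
      (fT G M S.deg K L b ((w + Δ : ℕ) : ℤ)) P) ≤ η

variable {Q m : ℕ} {x₀ : Fin (n + 1) → B} {b₁ b b₂ : ℕ} {lo lo₂ : ℤ} {w Δ : ℕ}

/-- The two bounds between the middle levels and the component over the empty subset. -/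
theorem Setup.compare (h : Setup G S M K Q m v nn x₀ η b₁ b b₂ lo lo₂ w Δ)
    (hGd : G.LengthLE (n + 1)) (hL : 1 ≤ L) (P : ℤ) :
    hl ((tot G S.F b).diff M B) ⊤ (killEmpty G S.F M) P ≤
      hl ((tot G S.F b).diff M B) (fT G M S.deg K L b lo) (fT G M S.deg K L b (w : ℤ)) P + η ∧
    (((n + 1 : ℕ) : ℤ) ≤ P →
      hl ((tot G S.F b).diff M B) (fT G M S.deg K L b lo) (fT G M S.deg K L b (w : ℤ)) P ≤
        hl ((tot G S.F b).diff M B) ⊤ (killEmpty G S.F M) P +
          ((2 * ((w : ℤ) - lo).toNat + (lo - lo₂).toNat + Δ + 1 : ℕ) : ℤ) * η) := by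
  have hV := length_pi_ne_top h.finite (TI G S.F)
  have hY : fT G M S.deg K L b (w : ℤ) ≤ killEmpty G S.F M := h.below.trans killAll_le
  obtain ⟨hs1, hs2⟩ := hl_sandwich hV ((tot G S.F b).diff M B)
    (X := fT G M S.deg K L b lo) (X' := ⊤) le_top hY P
  have hw := h.lo_le
  have hw' := h.w_ge
  constructor
  · refine hs1.trans (add_le_add le_rfl ?_)
    refine (middle_surj hV h.x_smul h.homotopy h.le₁ h.le₂ h.top₁ P).trans ?_
    exact (pi_surj hV _ P).trans (h.trans₁ (P - 1))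
  · intro hP
    refine hs2.trans (add_le_add le_rfl ?_)
    refine (middle_inj hV h.x_smul h.homotopy (h.le₁.trans h.le₂) h.le₃ (lo₂ := lo₂)
      (by omega : lo ≤ (w : ℤ)) h.top h.high P).trans ?_
    have e1 : (w : ℤ) = lo + (((w : ℤ) - lo).toNat : ℕ) := by omega
    have k1 := kl_range_le hV h.gr h.le₃ (P := P) ((w : ℤ) - lo).toNat lo
      (h.range.mono le_rfl (by push_cast; omega)) (h.range₂.mono hw.1 (by omega))
    rw [← e1] at k1
    have e2 : lo = lo₂ + ((lo - lo₂).toNat : ℕ) := by omega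
    have k2 := hl_range_le hV h.gr (b := b₂) (P := P + 1) (lo - lo₂).toNat lo₂
      (h.range₂.mono le_rfl (by omega)) (fun u hu hu' => sig_eq_zero_neg hGd (by omega) (by omega))
    rw [← e2] at k2
    have k3 := hl_range_le hV h.gr (b := b) (P := P - 1) Δ (w : ℤ)
      (h.range.mono (by omega) (by push_cast; omega)) (fun u hu _ => by
        refine sig_eq_zero_high hGd hL ?_ (P - 1)
        omega)
    have k4 := pi_inj hV ((tot G S.F b).diff M B) (Fw := fT G M S.deg K L b (w : ℤ))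
      (Fw' := fT G M S.deg K L b ((w + Δ : ℕ) : ℤ)) h.below (fT_antitone b (by push_cast; omega))
      (killAll_stable b) P
    have k5 := h.trans P
    rw [show (w : ℤ) + (Δ : ℤ) = ((w + Δ : ℕ) : ℤ) by push_cast; ring] at k3
    push_cast at k1 k2 k3 k4 k5 ⊢
    linarith

/-- The bound for one family of shifts. -/
theorem Setup.window (h : Setup G S M K Q m v nn x₀ η b₁ b b₂ lo lo₂ w Δ)
    (hGd : G.LengthLE (n + 1)) (hL : 1 ≤ L) (hG : G.EntriesIn (maximalIdeal B)) (hLK : L ≤ K) :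
    (nn : ℤ) * posSum G L q (w - 1) +
        (G.rank 0 : ℤ) * ln (cokP M S.F S.deg K 1) ((S.F.diff M B).deg 0) -
        (G.rank 1 : ℤ) * ln (cokP M S.F S.deg K (1 - (L : ℤ))) ((S.F.diff M B).deg 0) ≤
      (n.factorial : ℤ) * hl (G.diff M B) ⊤ ⊥ 0 + (((topPos G S.F + 1) *
        (4 * ((w : ℤ) - lo).toNat + (lo - lo₂).toNat + 2 * (1 - lo).toNat + Δ + w + 3) + 1 : ℕ) :
          ℤ) * η := by
  set top := topPos G S.F with htop
  set D := (tot G S.F b).diff M B with hD
  have hV := length_pi_ne_top h.finite (TI G S.F)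
  obtain ⟨hlo₂, hlo⟩ := h.lo_le
  have hw := h.w_ge
  set N := ((w : ℤ) - lo).toNat with hN
  set N₂ := (lo - lo₂).toNat with hN₂
  set N₁ := (1 - lo).toNat with hN₁
  set T : ℤ → ℤ := fun P => hl D ⊤ (killEmpty G S.F M) P with hT
  set X : ℤ → ℤ := fun P => hl D (fT G M S.deg K L b lo) (fT G M S.deg K L b (w : ℤ)) P with hX
  set A : ℤ → ℤ := fun P => hl D (fT G M S.deg K L b 1) (fT G M S.deg K L b (w : ℤ)) P with hA
  set R : ℤ → ℤ := fun P => hl D (fT G M S.deg K L b lo) (fT G M S.deg K L b 1) P with hR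
  have hF1 : fT G M S.deg K L b (w : ℤ) ≤ fT G M S.deg K L b 1 := fT_antitone b (by omega)
  have hF2 : fT G M S.deg K L b 1 ≤ fT G M S.deg K L b lo := fT_antitone b (by omega)
  have bR : ∀ P : ℤ, ((n + 1 : ℕ) : ℤ) < P → R P ≤ (N₁ : ℤ) * η := fun P hP => by
    have k := hl_range_le hV h.gr (b := b) (P := P) N₁ lo
      (h.range.mono le_rfl (by push_cast; omega))
      (fun u hu hu' => sig_eq_zero_neg hGd (by omega) hP)
    rwa [show lo + (N₁ : ℤ) = 1 by omega] at k
  have bA : ∀ P : ℤ, P < ((n + 1 : ℕ) : ℤ) → A P ≤ (N : ℤ) * η := fun P hP => by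
    have k := hl_range_le hV h.gr (b := b) (P := P) (w - 1) 1
      (h.range.mono (by omega) (by push_cast; omega))
      (fun u hu _ => sig_eq_zero_pos hu hP)
    rw [show (1 : ℤ) + ((w - 1 : ℕ) : ℤ) = (w : ℤ) by omega] at k
    refine k.trans (mul_le_mul_of_nonneg_right ?_ h.eta_nonneg)
    omega
  set C₀ : ℤ := ((4 * N + N₂ + 2 * N₁ + Δ + 2 : ℕ) : ℤ) with hC₀
  have hη := h.eta_nonneg
  have hterm : ∀ P : ℕ, (-1 : ℤ) ^ ((n + 1) + P) * A P + (if P = (n + 1) then R P else 0) - C₀ * η ≤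
      (-1 : ℤ) ^ ((n + 1) + P) * T P := by
    intro P
    obtain ⟨c1, c2⟩ := h.compare hGd hL (P : ℤ)
    change T P ≤ X P + η at c1
    change (((n + 1 : ℕ) : ℤ) ≤ P → X P ≤ T P + _) at c2
    have hA0 : 0 ≤ A P := hl_nonneg _ _ _ _
    have hs : (-1 : ℤ) ^ ((n + 1) + P) = 1 ∨ (-1 : ℤ) ^ ((n + 1) + P) = -1 := neg_one_pow_eq_or ℤ _
    have hNη : (0 : ℤ) ≤ (N : ℤ) * η := by positivity
    have hN₁η : (0 : ℤ) ≤ (N₁ : ℤ) * η := by positivity
    have hN₂η : (0 : ℤ) ≤ (N₂ : ℤ) * η := by positivity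
    have hΔη : (0 : ℤ) ≤ (Δ : ℤ) * η := by positivity
    rcases lt_trichotomy P (n + 1) with hP | hP | hP
    · have hT0 : T P = 0 := hl_killEmpty_low h.finite b (by exact_mod_cast hP)
      have := bA P (by exact_mod_cast hP)
      rw [if_neg hP.ne, hT0, hC₀]
      push_cast
      rcases hs with h1 | h1 <;> rw [h1] <;> linarith
    · subst hP
      rw [if_pos rfl]
      have e := hl_add_le D hV hF1 hF2 ((n + 1 : ℕ) : ℤ)
      change A (n + 1) + R (n + 1) ≤ X (n + 1) + R (((n + 1 : ℕ) : ℤ) + 1) + A (((n + 1 : ℕ) : ℤ) - 1) at e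
      have := bR (((n + 1 : ℕ) : ℤ) + 1) (by omega)
      have := bA (((n + 1 : ℕ) : ℤ) - 1) (by omega)
      have := c2 le_rfl
      rw [Even.neg_one_pow ⟨(n + 1), rfl⟩, one_mul, one_mul, hC₀]
      push_cast at *
      linarith
    · have hP' : ((n + 1 : ℕ) : ℤ) < P := by exact_mod_cast hP
      rw [if_neg hP.ne']
      have e1 := hl_le D hV hF1 hF2 (P : ℤ)
      change X P ≤ A P + R P at e1
      have e2 := hl_left_le hV D hF1 hF2 (P : ℤ)
      change A P ≤ X P + R ((P : ℤ) + 1) at e2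
      have := bR P hP'
      have := bR ((P : ℤ) + 1) (by omega)
      have := c2 hP'.le
      rw [hC₀]
      push_cast at *
      rcases hs with h1 | h1 <;> rw [h1] <;> linarith
  have htop' : ∀ l : TI G S.F, (tot G S.F b).pos l ≤ top := fun l =>
    Finset.le_sup (f := fun l : TI G S.F => G.pos l.1 + (S.F.pos l.2.1 + (n + 1 - l.2.2.card)))
      (mem_univ l)
  have heu : ∑ P ∈ Finset.range (top + 1), (-1 : ℤ) ^ ((n + 1) + P) * T P =
      (n.factorial : ℤ) * hl (G.diff M B) ⊤ ⊥ 0 := by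
    have hFtop : ∀ f : S.F.ι, G.ι → S.F.pos f + (n + 1) ≤ top := fun f g => by
      have := htop' (g, f, ∅)
      simp only [Finset.card_empty, Nat.sub_zero] at this
      omega
    rcases isEmpty_or_nonempty G.ι with hem | hne
    · have hz : ∀ P, T P = 0 := fun P => ln_eq_zero fun x _ => by
        rw [show x = 0 from funext fun l => hem.elim l.1]
        exact Submodule.zero_mem _
      have hH : hl (G.diff M B) ⊤ ⊥ 0 = 0 := ln_eq_zero fun x _ => by
        rw [show x = 0 from funext fun g => hem.elim g]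
        exact Submodule.zero_mem _
      simp [hz, hH]
    · obtain ⟨g⟩ := hne
      rw [tor_euler h.finite b top htop' fun f => hFtop f g, S.euler]
  have hsum := sum_le_sum fun P (_ : P ∈ Finset.range (top + 1)) => hterm P
  rw [heu, sum_sub_distrib, sum_add_distrib, Finset.sum_ite_eq', sum_const, card_range,
    nsmul_eq_mul] at hsum
  -- the positive levels
  have hchi : (nn : ℤ) * posSum G L q (w - 1) - (((w - 1) * (top + 1) : ℕ) : ℤ) * η ≤
      ∑ P ∈ Finset.range (top + 1), (-1 : ℤ) ^ ((n + 1) + P) * A P := by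
    rcases isEmpty_or_nonempty G.ι with hem | hne
    · have hz : ∀ P, A P = 0 := fun P => ln_eq_zero fun x _ => by
        rw [show x = 0 from funext fun l => hem.elim l.1]
        exact Submodule.zero_mem _
      have hr : ∀ i, G.rank i = 0 := fun i => by
        rw [FreeCx.rank, card_eq_zero, filter_eq_empty_iff]
        exact fun g => hem.elim g
      simp only [posSum, hr, hz, Nat.cast_zero, mul_zero, zero_mul, sum_const_zero, zero_sub]
      have : (0 : ℤ) ≤ (((w - 1) * (top + 1) : ℕ) : ℤ) * η := by positivity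
      linarith
    have htopg : ∀ g, G.pos g + (n + 1) ≤ top := fun g => by
      obtain ⟨f⟩ : Nonempty S.F.ι := by
        by_contra hc
        rw [not_nonempty_iff] at hc
        have := S.euler
        simp only [Finset.univ_eq_empty, sum_empty] at this
        exact absurd this.symm (by exact_mod_cast n.factorial_ne_zero)
      have := htop' (g, f, ∅)
      simp only [Finset.card_empty, Nat.sub_zero] at this
      omega
    have e : ∑ P ∈ Finset.range (top + 1), (-1 : ℤ) ^ ((n + 1) + P) * A P =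
        (-1 : ℤ) ^ (n + 1) * chiR G S M K L b 1 (w : ℤ) := by
      rw [chiR, mul_sum]
      exact sum_congr rfl fun P _ => by rw [pow_add, mul_assoc]
    have ew : (w : ℤ) = 1 + ((w - 1 : ℕ) : ℤ) := by omega
    rw [e, ew, chiR_range hV hLK hG b (w - 1) 1, ← sig_sum hGd L q (w - 1) top htopg, mul_sum,
      mul_sum]
    rw [show (((w - 1) * (top + 1) : ℕ) : ℤ) * η =
      ∑ _i ∈ Finset.range (w - 1), ((top + 1 : ℕ) : ℤ) * η by simp [mul_assoc], ← sum_sub_distrib]
    refine sum_le_sum fun i hi => ?_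
    rw [mem_range] at hi
    rw [chiR, mul_sum, mul_sum, show ((top + 1 : ℕ) : ℤ) * η = ∑ _P ∈ Finset.range (top + 1), η by simp,
      ← sum_sub_distrib]
    refine sum_le_sum fun P _ => ?_
    have hr := h.range.mono (lo' := 1 + (i : ℤ)) (hi' := 1 + (i : ℤ) + 1) (by omega)
      (by push_cast; omega)
    have h1 := h.gr.upper b (1 + (i : ℤ)) (P : ℤ) hr
    have h2 := h.gr.lower b (1 + (i : ℤ)) (P : ℤ) hr
    rw [pow_add, mul_assoc]
    rcases neg_one_pow_eq_or ℤ (n + 1) with hd1 | hd1 <;> rcases neg_one_pow_eq_or ℤ P with hP1 | hP1 <;>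
      rw [hd1, hP1] <;> linarith
  -- the corner
  have hcorner : (G.rank 0 : ℤ) * ln (cokP M S.F S.deg K 1) ((S.F.diff M B).deg 0) -
      (G.rank 1 : ℤ) * ln (cokP M S.F S.deg K (1 - (L : ℤ))) ((S.F.diff M B).deg 0) ≤
      (if (n + 1) ∈ Finset.range (top + 1) then R ((n + 1 : ℕ) : ℤ) else 0) + η := by
    rcases isEmpty_or_nonempty G.ι with hem | hne
    · have hr : ∀ i, G.rank i = 0 := fun i => by
        rw [FreeCx.rank, card_eq_zero, filter_eq_empty_iff]
        exact fun g => hem.elim g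
      simp only [hr, Nat.cast_zero, zero_mul, sub_zero]
      have : (0 : ℤ) ≤ if (n + 1) ∈ Finset.range (top + 1) then R ((n + 1 : ℕ) : ℤ) else 0 := by
        split_ifs
        · exact hl_nonneg _ _ _ _
        · exact le_rfl
      linarith
    obtain ⟨g⟩ := hne
    obtain ⟨f⟩ : Nonempty S.F.ι := by
      by_contra hc
      rw [not_nonempty_iff] at hc
      have := S.euler
      simp only [Finset.univ_eq_empty, sum_empty] at this
      exact absurd this.symm (by exact_mod_cast n.factorial_ne_zero)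
    rw [if_pos (mem_range.2 (by
      have := htop' (g, f, ∅)
      simp only [Finset.card_empty, Nat.sub_zero] at this
      omega))]
    have c := corner_bound (F := S.F) (deg := S.deg) h.finite hG hLK b
    have e := corner_le hV D (X := fT G M S.deg K L b lo) (F₁ := fT G M S.deg K L b 1)
      (Fw := fT G M S.deg K L b (w : ℤ)) (W := killEmpty G S.F M) hF1 ((n + 1 : ℕ) : ℤ)
    have s1 := (middle_surj hV h.x_smul h.homotopy h.le₁ h.le₂ (w := (w : ℤ)) h.top₁ ((n + 1 : ℕ) : ℤ)).trans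
      ((pi_surj hV _ ((n + 1 : ℕ) : ℤ)).trans (h.trans₁ (((n + 1 : ℕ) : ℤ) - 1)))
    change _ ≤ R ((n + 1 : ℕ) : ℤ) + _ at e
    simp only [hD] at e
    linarith
  have hfin : (((w - 1) * (top + 1) : ℕ) : ℤ) * η + ((top + 1 : ℕ) : ℤ) * (C₀ * η) + η ≤
      (((top + 1) * (4 * N + N₂ + 2 * N₁ + Δ + w + 3) + 1 : ℕ) : ℤ) * η := by
    rw [hC₀, ← mul_assoc, ← add_mul]
    nth_rewrite 2 [← one_mul η]
    rw [← add_mul, ← Nat.cast_mul, ← Nat.cast_add]
    refine mul_le_mul_of_nonneg_right ?_ hη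
    exact_mod_cast Nat.succ_le_succ (by
      rw [mul_comm (w - 1), ← mul_add]
      exact Nat.mul_le_mul_left _ (by omega))
  push_cast at hsum hchi hcorner hfin ⊢
  linarith

end Vale.Agent.P202.Mixed.Window
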