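import Vale.Agent.P202.Mixed.Window.Src

/-!
# P202 mixed characteristic, the window: slices as lengths

The slice hypotheses as lengths over the local ring, and the transition as an isomorphism on the
columns and on the graded pieces of free modules.
-/

noncomputable section

namespace Vale.Agent.P202.Mixed.Window

open IsLocalRing MvPolynomial Finset

universe u

section General

variable {A : Type*} [CommRing A] {V : Type*} [AddCommGroup V] [Module A V]

theorem eq_zero_of_coe_eq_add {s : ℕ} {X : ℕ∞} (h : (s : ℕ∞) = X + s) : X = 0 := by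
  cases X with
  | top => simp at h
  | coe m => norm_cast at h ⊢; omega

theorem le_of_len_eq_zero {P N : Submodule A V} (h : len P N = 0) : N ≤ P := fun x hx => by
  rw [len_eq_quot, Module.length_eq_zero_iff, Submodule.Quotient.subsingleton_iff] at h
  have : (⟨x, hx⟩ : N) ∈ P.comap N.subtype := by rw [h]; trivial
  exact this

end General

variable {B : Type u} [CommRing B] [IsLocalRing B]

section Restrict

variable {V : Type*} [AddCommGroup V] [Module (ResidueField B) V] [Module B V]
  [IsScalarTower B (ResidueField B) V]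

theorem len_restrict (P N : Submodule (ResidueField B) V) :
    len (P.restrictScalars B) (N.restrictScalars B) = len P N := by
  rw [len_eq_quot, len_eq_quot]
  refine ((Submodule.Quotient.restrictScalarsEquiv B (P.comap N.subtype)).length_eq).trans ?_
  exact Module.length_eq_of_surjective (R := ResidueField B) (S := B) residue_surjective

theorem len_eq_finrank (P N : Submodule (ResidueField B) V)
    [Module.Finite (ResidueField B) N] :
    len P N = (Module.finrank (ResidueField B) ↥(N.map P.mkQ) : ℕ∞) := by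
  rw [len_def]
  exact Module.length_eq_finrank (ResidueField B) ↥(N.map P.mkQ)

end Restrict

variable {n : ℕ} {c : Fin n → ℤ}

section Column

variable (S : SliceCx B c)

/-- The degrees in one column of the slice complex. -/
abbrev sdeg (b : ℕ) : CI S.F → ℤ := cdeg S.deg b

theorem finite_degPiece (b : ℕ) (t : ℤ) :
    Module.Finite (ResidueField B) (degPiece (d := n + 1) (ResidueField B) (sdeg S b) t) := by
  have hfin : ∀ e : ℤ, Module.Finite (ResidueField B) (homInt (ResidueField B) (n + 1) e) := by
    intro e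
    have hle : homInt (ResidueField B) (n + 1) e ≤
        MvPolynomial.restrictTotalDegree (Fin (n + 1)) (ResidueField B) e.toNat := by
      intro p hp
      rw [MvPolynomial.mem_restrictTotalDegree]
      refine Finset.sup_le fun α hα => ?_
      have h := mem_homInt.1 hp α (mem_support_iff.1 hα)
      have h2 : (α.sum fun _ e => e) = α.degree := rfl
      omega
    exact Module.Finite.of_injective _ (Submodule.inclusion_injective hle)
  let f : degPiece (ResidueField B) (sdeg S b) t →ₗ[ResidueField B]
      ((p : CI S.F) → homInt (ResidueField B) (n + 1) (t - sdeg S b p)) :=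
    LinearMap.pi fun p => ((LinearMap.proj p).comp (Submodule.subtype _)).codRestrict _
      fun x => (Submodule.mem_pi.1 x.2) p (Set.mem_univ _)
  refine Module.Finite.of_injective f fun x y h => Subtype.ext (funext fun p => ?_)
  exact congrArg Subtype.val (congrFun h p)

theorem finite_col_cycles (b : ℕ) (t P : ℤ) :
    Module.Finite (ResidueField B)
      ((colDiff S.F b).cycles (degPiece (ResidueField B) (sdeg S b) t) ⊥ P) := by
  have := finite_degPiece S b t
  have hle : (colDiff S.F b).cycles (degPiece (ResidueField B) (sdeg S b) t) ⊥ P ≤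
      degPiece (ResidueField B) (sdeg S b) t := fun x hx => ((Diff.mem_cycles _).1 hx).1
  exact Module.Finite.of_injective _ (Submodule.inclusion_injective hle)

theorem len_col {b : ℕ} (hb : S.B₀ ≤ b) {t : ℤ} (ht : -(b : ℤ) + S.B₀ ≤ t) (j : ℤ) :
    len ((colDiff S.F b).bdries (degPiece (ResidueField B) (sdeg S b) t) ⊥ (j + ((n + 1 : ℕ) : ℤ)))
      ((colDiff S.F b).cycles (degPiece (ResidueField B) (sdeg S b) t) ⊥ (j + ((n + 1 : ℕ) : ℤ))) =
      (sliceDim c t j : ℕ∞) := by
  have h := S.slices b hb t ht j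
  have := finite_col_cycles S b t (j + ((n + 1 : ℕ) : ℤ))
  rw [← h, len_eq_quot]
  exact Module.length_eq_finrank _ _

/-- The transition on one column. -/
def colTau (F : FreeCx (Rz B (n + 1))) (b b' : ℕ) :
    (CI F → MvPolynomial (Fin (n + 1)) (ResidueField B)) →ₗ[ResidueField B]
      (CI F → MvPolynomial (Fin (n + 1)) (ResidueField B)) :=
  LinearMap.pi fun q => (LinearMap.mulLeft (ResidueField B)
    (tauScalar (ResidueField B) b b' q.2)).comp (LinearMap.proj q)

theorem len_col_image {b b' : ℕ} (hb : S.B₀ ≤ b) (hbb : b ≤ b') {t : ℤ}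
    (ht : -(b : ℤ) + S.B₀ ≤ t) (j : ℤ) :
    len ((colDiff S.F b').bdries (degPiece (ResidueField B) (sdeg S b') t) ⊥
        (j + ((n + 1 : ℕ) : ℤ)))
      (((colDiff S.F b).cycles (degPiece (ResidueField B) (sdeg S b) t) ⊥
        (j + ((n + 1 : ℕ) : ℤ))).map (colTau S.F b b')) = (sliceDim c t j : ℕ∞) := by
  have h := S.transition b b' hb hbb t ht j
  have := finite_col_cycles S b t (j + ((n + 1 : ℕ) : ℤ))
  rw [← h, len_eq_finrank]
  rfl

theorem col_stable (b : ℕ) (t : ℤ) :
    (colDiff S.F b).Stable (degPiece (ResidueField B) (sdeg S b) t) := by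
  intro x hx
  rw [degPiece, Submodule.mem_pi] at hx ⊢
  intro p _
  show (colK S.F b).dA (MvPolynomial (Fin (n + 1)) (ResidueField B)) x p ∈ _
  rw [FreeCx.dA_apply]
  refine Submodule.sum_mem _ fun q _ => ?_
  show polyResidue B (n + 1) (colMat S.F b p q) * x q ∈ _
  have h1 : polyResidue B (n + 1) (colMat S.F b p q) ∈
      homInt (ResidueField B) (n + 1) (sdeg S b q - sdeg S b p) := by
    refine mem_homInt.2 fun α hα => mem_homInt.1 (colMat_mem S.homog b p q) α fun h0 => hα ?_
    rw [polyResidue, coeff_map, h0, map_zero]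
  have := mul_mem_homInt h1 (hx q (Set.mem_univ _))
  rw [show sdeg S b q - sdeg S b p + (t - sdeg S b q) = t - sdeg S b p by ring] at this
  exact this

theorem colTau_mem {b b' : ℕ} (hbb : b ≤ b') (t : ℤ)
    {x : CI S.F → MvPolynomial (Fin (n + 1)) (ResidueField B)}
    (hx : x ∈ degPiece (ResidueField B) (sdeg S b) t) :
    colTau S.F b b' x ∈ degPiece (ResidueField B) (sdeg S b') t := by
  rw [degPiece, Submodule.mem_pi] at hx ⊢
  intro q _
  show tauScalar (ResidueField B) b b' q.2 * x q ∈ _
  have h1 : tauScalar (ResidueField B) b b' q.2 ∈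
      homInt (ResidueField B) (n + 1) (((b' - b) * q.2.card : ℕ) : ℤ) := by
    rw [homInt, if_pos (Int.natCast_nonneg _), Int.toNat_natCast,
      MvPolynomial.mem_homogeneousSubmodule, tauScalar, mul_comm, ← smul_eq_mul,
      ← Finset.sum_const]
    exact IsHomogeneous.prod _ _ _ fun a _ => isHomogeneous_X_pow a _
  have := mul_mem_homInt h1 (hx q (Set.mem_univ _))
  rw [show ((((b' - b) * q.2.card : ℕ) : ℤ)) + (t - sdeg S b q) = t - sdeg S b' q by
    simp only [sdeg, cdeg, zKosLev]
    push_cast [Nat.cast_sub hbb]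
    ring] at this
  exact this

theorem col_tau_cycles {b b' : ℕ} (hbb : b ≤ b') (t P : ℤ)
    (hcomm : ∀ x, colTau S.F b b' ((colDiff S.F b).d x) =
      (colDiff S.F b').d (colTau S.F b b' x)) :
    ((colDiff S.F b).cycles (degPiece (ResidueField B) (sdeg S b) t) ⊥ P).map
        (colTau S.F b b') ≤
      (colDiff S.F b').cycles (degPiece (ResidueField B) (sdeg S b') t) ⊥ P := by
  rintro _ ⟨x, hx, rfl⟩
  obtain ⟨h1, h2, h3⟩ := (Diff.mem_cycles _).1 hx
  refine (Diff.mem_cycles _).2 ⟨colTau_mem S hbb t h1, fun q hq => ?_, ?_⟩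
  · show tauScalar (ResidueField B) b b' q.2 * x q = 0
    rw [h2 q hq, mul_zero]
  · rw [Submodule.mem_bot] at h3 ⊢
    rw [← hcomm, h3, map_zero]

theorem colTau_comm {b b' : ℕ} (hbb : b ≤ b')
    (x : CI S.F → MvPolynomial (Fin (n + 1)) (ResidueField B)) :
    colTau S.F b b' ((colDiff S.F b).d x) = (colDiff S.F b').d (colTau S.F b b' x) := by
  funext p
  show tauScalar (ResidueField B) b b' p.2 *
      ∑ q : CI S.F, polyResidue B (n + 1) (colMat S.F b p q) * x q =
    ∑ q : CI S.F, polyResidue B (n + 1) (colMat S.F b' p q) *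
      (tauScalar (ResidueField B) b b' q.2 * x q)
  rw [mul_sum]
  refine sum_congr rfl fun q _ => ?_
  have hres : ∀ T : Finset (Fin (n + 1)), polyResidue B (n + 1) (tauScalar B b b' T) =
      tauScalar (ResidueField B) b b' T := fun T => by
    simp [tauScalar, polyResidue, map_prod]
  have h : tauScalar B b b' p.2 * colMat S.F b p q =
      colMat S.F b' p q * tauScalar B b b' q.2 := by
    rw [colMat, colMat, mul_add, add_mul]
    congr 1
    · by_cases hT : p.2 = q.2
      · rw [if_pos hT, hT, mul_comm]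
      · rw [if_neg hT, mul_zero, zero_mul]
    · by_cases hf : p.1 = q.1
      · rw [if_pos hf, if_pos hf]
        linear_combination ((-1 : Rz B (n + 1)) ^ S.F.pos p.1) * kos_tau (B := B) hbb p.2 q.2
      · rw [if_neg hf, if_neg hf, mul_zero, zero_mul]
  have h' := congrArg (polyResidue B (n + 1)) h
  rw [map_mul, map_mul, hres, hres] at h'
  rw [← mul_assoc, h', mul_assoc]

/-- The transition is an isomorphism on the columns. -/
theorem col_tau_iso {b b' : ℕ} (hb : S.B₀ ≤ b) (hbb : b ≤ b') {t : ℤ}
    (ht : -(b : ℤ) + S.B₀ ≤ t) (P : ℤ) :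
    (colDiff S.F b).cycles (degPiece (ResidueField B) (sdeg S b) t) ⊥ P ⊓
        ((colDiff S.F b').bdries (degPiece (ResidueField B) (sdeg S b') t) ⊥ P).comap
          (colTau S.F b b') ≤
      (colDiff S.F b).bdries (degPiece (ResidueField B) (sdeg S b) t) ⊥ P ∧
    (colDiff S.F b').cycles (degPiece (ResidueField B) (sdeg S b') t) ⊥ P ≤
      (colDiff S.F b').bdries (degPiece (ResidueField B) (sdeg S b') t) ⊥ P ⊔
        ((colDiff S.F b).cycles (degPiece (ResidueField B) (sdeg S b) t) ⊥ P).map
          (colTau S.F b b') := by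
  obtain ⟨j, rfl⟩ : ∃ j : ℤ, P = j + ((n + 1 : ℕ) : ℤ) := ⟨P - ((n + 1 : ℕ) : ℤ), by ring⟩
  set P := j + ((n + 1 : ℕ) : ℤ)
  set Bd := (colDiff S.F b).bdries (degPiece (ResidueField B) (sdeg S b) t) ⊥ P
  set Cy := (colDiff S.F b).cycles (degPiece (ResidueField B) (sdeg S b) t) ⊥ P
  set Bd' := (colDiff S.F b').bdries (degPiece (ResidueField B) (sdeg S b') t) ⊥ P
  set Cy' := (colDiff S.F b').cycles (degPiece (ResidueField B) (sdeg S b') t) ⊥ P
  have h1 := len_col S hb ht j
  have h2 := len_col S (hb.trans hbb) (show -(b' : ℤ) + S.B₀ ≤ t by omega) j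
  have h3 := len_col_image S hb hbb ht j
  have hmaps : ∀ x ∈ Cy, x ∈ Bd → colTau S.F b b' x ∈ Bd' := by
    intro x _ hx
    obtain ⟨w, ⟨hw, hw'⟩, y, ⟨hy, -⟩, rfl⟩ := (Diff.mem_bdries _).1 hx
    refine (Diff.mem_bdries _).2 ⟨colTau S.F b b' w, ⟨colTau_mem S hbb t hw, fun q hq => ?_⟩, 0,
      ⟨Submodule.zero_mem _, Submodule.zero_mem _⟩, ?_⟩
    · show tauScalar (ResidueField B) b b' q.2 * w q = 0
      rw [hw' q hq, mul_zero]
    · rw [(Submodule.mem_bot _).1 hy, add_zero, add_zero, colTau_comm S hbb]
  constructor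
  · refine le_of_len_eq_zero ?_
    have h := len_eq_add_map (colTau S.F b b') Bd Cy Bd' hmaps
    rw [h1, h3] at h
    exact eq_zero_of_coe_eq_add h
  · refine le_of_len_eq_zero ?_
    have hBC : Bd' ≤ Cy' := bdries_le_cycles _ (col_stable S b' t)
      (fun x hx => by rw [(Submodule.mem_bot _).1 hx, map_zero]; exact Submodule.zero_mem _)
      bot_le P
    have h := len_add (le_sup_left : Bd' ≤ Bd' ⊔ Cy.map (colTau S.F b b'))
      (sup_le hBC (col_tau_cycles S hbb t P (colTau_comm S hbb)))
    rw [sup_comm, len_sup_left _ _ le_rfl, h2, h3] at h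
    rw [sup_comm]
    exact eq_zero_of_coe_eq_add (h.trans (add_comm _ _))

end Column

end Vale.Agent.P202.Mixed.Window
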