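import Vale.Agent.P202.Mixed.Window.Range

/-!
# P202 mixed characteristic, the window: the middle levels compute `H₀(G ⊗ M) ⊗ F`

Three steps: the map to the quotient by `killAll` is almost bijective on homology, the middle
levels map onto the component over the empty set, and almost injectively in the top range.
-/

noncomputable section

namespace Vale.Agent.P202.Mixed.Window

open IsLocalRing Finset

universe u

section Calculus

variable {A : Type*} [CommRing A] {V : Type u} [AddCommGroup V] [Module A V]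
  (hV : Module.length A V ≠ ⊤) (D : Diff A V)

include hV

theorem ln_map_split (f : V →ₗ[A] V) (P₂ N Q : Submodule A V) :
    ln P₂ (N.map f) ≤ ln P₂ ((N ⊓ Q).map f) + ln Q N := by
  refine (ln_triangle hV P₂ (P₂ ⊔ (N ⊓ Q).map f) _).trans (add_le_add ?_ ?_)
  · refine (ln_sup_le hV _ _ _).trans ?_
    rw [ln_eq_zero le_rfl, zero_add]
  · exact ln_map_le hV f fun x hx hxQ => Submodule.mem_sup_right ⟨x, ⟨hx, hxQ⟩, rfl⟩

theorem hl_sandwich {X Y X' Y' : Submodule A V} (hX : X ≤ X') (hY : Y ≤ Y') (j : ℤ) :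
    hl D X' Y' j ≤
        hl D X Y j + ln (D.bdries X' Y' j ⊔ D.cycles X Y j) (D.cycles X' Y' j) ∧
      hl D X Y j ≤ hl D X' Y' j + ln (D.bdries X Y j) (D.cycles X Y j ⊓ D.bdries X' Y' j) := by
  have hC : D.cycles X Y j ≤ D.cycles X' Y' j := cycles_mono D hX hY j
  have hB : D.bdries X Y j ≤ D.bdries X' Y' j := bdries_mono D hX hY j
  constructor
  · refine (ln_triangle hV _ (D.bdries X' Y' j ⊔ D.cycles X Y j) _).trans (add_le_add ?_ le_rfl)
    refine (ln_sup_le hV _ _ _).trans ?_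
    rw [ln_eq_zero le_rfl, zero_add]
    exact ln_anti hV hB _
  · have h := ln_le_add_map hV hV LinearMap.id (D.bdries X Y j) (D.cycles X Y j)
      (D.bdries X' Y' j)
    rw [Submodule.map_id, Submodule.comap_id] at h
    refine h.trans ?_
    rw [add_comm]
    exact add_le_add (ln_mono hV hC) le_rfl

/-- Surjectivity of the quotient map, from the vanishing transition of the kernel. -/
theorem pi_surj {W Fw Fw' : Submodule A V} (P : ℤ) :
    ln (D.bdries ⊤ W P ⊔ D.cycles ⊤ Fw P) (D.cycles ⊤ W P) ≤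
      ln (D.bdries W Fw (P - 1)) (D.cycles W Fw' (P - 1)) := by
  refine (ln_le_add_map hV hV D.d _ _ (D.bdries W Fw (P - 1))).trans ?_
  rw [ln_eq_zero ?_, zero_add]
  · refine ln_mono hV ?_
    rintro _ ⟨x, hx, rfl⟩
    obtain ⟨-, h2, h3⟩ := (Diff.mem_cycles _).1 hx
    exact (Diff.mem_cycles _).2 ⟨h3, D.d_deg _ _ h2, by rw [D.d_d]; exact Submodule.zero_mem _⟩
  · rintro x ⟨hx, hxb⟩
    obtain ⟨-, h2, -⟩ := (Diff.mem_cycles _).1 hx
    obtain ⟨w, ⟨hw, hw'⟩, y, ⟨hy, -⟩, e⟩ := (Diff.mem_bdries _).1 hxb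
    rw [sub_add_cancel] at hw'
    rw [show x = w + (x - w) by abel]
    refine Submodule.add_mem_sup ((Diff.mem_bdries _).2 ⟨0, ⟨trivial, Submodule.zero_mem _⟩, w,
      ⟨hw, hw'⟩, by rw [map_zero, zero_add]⟩)
      ((Diff.mem_cycles _).2 ⟨trivial, Submodule.sub_mem _ h2 hw', ?_⟩)
    rw [map_sub, ← e, add_sub_cancel_left]
    exact hy

/-- Injectivity of the quotient map, from the vanishing transition of the kernel and the gap. -/
theorem pi_inj {W Fw Fw' : Submodule A V} (hFW : Fw ≤ W) (hFF : Fw' ≤ Fw) (hW : D.Stable W)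
    (P : ℤ) :
    ln (D.bdries ⊤ Fw P) (D.cycles ⊤ Fw P ⊓ D.bdries ⊤ W P) ≤
      hl D Fw Fw' (P - 1) + ln (D.bdries W Fw P) (D.cycles W Fw' P) := by
  refine (ln_le_add_map hV hV D.d _ _ (D.bdries Fw Fw' (P - 1))).trans ?_
  rw [add_comm]
  refine add_le_add (ln_mono hV ?_) ?_
  · rintro _ ⟨x, ⟨hx, -⟩, rfl⟩
    obtain ⟨-, h2, h3⟩ := (Diff.mem_cycles _).1 hx
    exact (Diff.mem_cycles _).2 ⟨h3, D.d_deg _ _ h2, by rw [D.d_d]; exact Submodule.zero_mem _⟩
  · refine (ln_mono hV (N' := (D.cycles W Fw' P) ⊔ D.bdries ⊤ Fw P) ?_).trans ?_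
    · rintro x ⟨⟨hx, hxW⟩, hxb⟩
      obtain ⟨-, h2, -⟩ := (Diff.mem_cycles _).1 hx
      obtain ⟨w, ⟨hw, hw'⟩, y, ⟨hy, -⟩, e⟩ := (Diff.mem_bdries _).1 hxb
      rw [sub_add_cancel] at hw'
      obtain ⟨v, ⟨-, hv'⟩, z, ⟨hz, hz'⟩, e'⟩ := (Diff.mem_bdries _).1 hxW
      rw [show x = (z - w) + (D.d v + w) by rw [← e']; abel]
      refine Submodule.add_mem_sup ((Diff.mem_cycles _).2
        ⟨W.sub_mem hz (hFW hw), Submodule.sub_mem _ hz' hw', ?_⟩)
        ((Diff.mem_bdries _).2 ⟨v, ⟨trivial, hv'⟩, w, ⟨hw, hw'⟩, rfl⟩)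
      have e2 : D.d z = D.d x := by rw [← e', map_add, D.d_d, zero_add]
      rw [map_sub, e2, ← e, add_sub_cancel_left]
      exact hy
    · refine (ln_sup_le hV _ _ _).trans ?_
      rw [ln_eq_zero (le_refl (D.bdries ⊤ Fw P)), add_zero]
      exact ln_anti hV (bdries_mono D le_top le_rfl P) _

end Calculus

section Empty

variable {B : Type u} [CommRing B] {d : ℕ} {G : FreeCx B} {F : FreeCx (Rz B d)}
  {M : Type u} [AddCommGroup M] [Module (Rz B d) M] [Module B M]
  [IsScalarTower B (Rz B d) M]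

/-- The components over the empty subset. -/
def emptyPart (G : FreeCx B) (F : FreeCx (Rz B d)) (M : Type u) [AddCommGroup M] [Module B M] :
    (TI G F → M) →ₗ[B] (TI G F → M) :=
  LinearMap.pi fun l => if l.2.2 = ∅ then LinearMap.proj l else 0

theorem emptyPart_apply (x : TI G F → M) (l : TI G F) :
    emptyPart G F M x l = if l.2.2 = ∅ then x l else 0 := by
  unfold emptyPart
  rw [LinearMap.pi_apply]
  split_ifs <;> rfl

theorem emptyPart_deg (b b' : ℕ) {P : ℤ} {x : TI G F → M}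
    (hx : x ∈ ((tot G F b).diff M B).deg P) :
    emptyPart G F M x ∈ ((tot G F b').diff M B).deg P := fun l hl => by
  rw [emptyPart_apply, hx l hl, ite_self]

theorem slot_emptyPart (x : TI G F → M) (f : F.ι) (S : Finset (Fin d)) :
    slot G F M f S (emptyPart G F M x) = if S = ∅ then slot G F M f S x else 0 := by
  funext g
  rw [slot_apply, emptyPart_apply]
  by_cases hS : S = ∅
  · simp only [hS, if_true, slot_apply]
  · rw [if_neg hS, if_neg hS, ite_self, Pi.zero_apply]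

theorem slot_mem_bd0_of_pos {x : TI G F → M} {f : F.ι} {S : Finset (Fin d)} (g : G.ι)
    (hg : G.pos g ≠ 0) : slot G F M f S x g = 0 := by
  rw [slot_apply, if_neg hg]

variable {Q m : ℕ} {x₀ : Fin d → B}
  (hx : ∀ a (y : M), x₀ a • y = (MvPolynomial.X a : Rz B d) ^ Q • y)
  (hs : ∀ a, ∃ s : Matrix G.ι G.ι B, (∀ h g, s h g ≠ 0 → G.pos h = G.pos g + 1) ∧
    G.mat * s + s * G.mat = x₀ a ^ m • (1 : Matrix G.ι G.ι B))

include hx hs

theorem kosMat_smul_bd0 {b : ℕ} (hb : Q * m ≤ b) (S S' : Finset (Fin d)) {v : G.ι → M}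
    (hv : ∀ g, G.pos g ≠ 0 → v g = 0) :
    kosMat (fun a => (MvPolynomial.X a : Rz B d) ^ b) S S' • v ∈ bd0 d G M := by
  rw [kosMat, Matrix.of_apply, Finset.sum_smul]
  refine Submodule.sum_mem _ fun a _ => ?_
  rw [smul_assoc]
  refine zsmul_mem ?_ _
  rw [show b = (b - Q * m) + Q * m by omega, pow_add, mul_smul]
  exact smul_bd0 (X_pow_smul_mem_bd0 hx a (hs a) hv)

/-- The empty part of a cycle modulo `killEmpty` is a cycle modulo `killAll`. -/
theorem emptyPart_cycle {b₁ b : ℕ} (hb : Q * m ≤ b₁) {P : ℤ} {z : TI G F → M}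
    (hz : z ∈ ((tot G F b).diff M B).cycles ⊤ (killEmpty G F M) P) :
    emptyPart G F M z ∈ ((tot G F b₁).diff M B).cycles ⊤ (killAll G F M) P := by
  obtain ⟨-, h2, h3⟩ := (Diff.mem_cycles _).1 hz
  refine (Diff.mem_cycles _).2 ⟨trivial, emptyPart_deg b b₁ h2, mem_killAll.2 fun f S => ?_⟩
  rw [slot_d]
  by_cases hS : S = ∅
  · subst hS
    have h := mem_killEmpty.1 h3 f
    rw [slot_d] at h
    simp only [kosMat_empty, mul_zero, zero_smul, sum_const_zero, add_zero] at h ⊢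
    refine add_mem (dA_posProj_mem_bd0 _) ?_
    rw [Submodule.add_mem_iff_right _ (dA_posProj_mem_bd0 _)] at h
    simpa [slot_emptyPart] using h
  · refine add_mem (add_mem (dA_posProj_mem_bd0 _) (Submodule.sum_mem _ fun f' _ => ?_))
      (Submodule.sum_mem _ fun S' _ => ?_)
    · rw [slot_emptyPart, if_neg hS, smul_zero]
      exact Submodule.zero_mem _
    · rw [mul_smul]
      exact smul_bd0 (kosMat_smul_bd0 hx hs hb S S' fun g hg => slot_mem_bd0_of_pos g hg)

/-- An element with the components over nonempty subsets killed, which is a boundary modulo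
`killEmpty`, is one modulo `killAll`. -/
theorem mem_bdries_killAll {b : ℕ} (hb : Q * m ≤ b) {P : ℤ} {z : TI G F → M}
    (hz : ∀ f S, S ≠ ∅ → slot G F M f S z ∈ bd0 d G M)
    (hzb : z ∈ ((tot G F b).diff M B).bdries ⊤ (killEmpty G F M) P) :
    z ∈ ((tot G F b).diff M B).bdries ⊤ (killAll G F M) P := by
  obtain ⟨w, ⟨-, hw⟩, y, ⟨hy, hy'⟩, e⟩ := (Diff.mem_bdries _).1 hzb
  set w' := emptyPart G F M w
  refine (Diff.mem_bdries _).2 ⟨w', ⟨trivial, emptyPart_deg b b hw⟩,
    z - ((tot G F b).diff M B).d w', ⟨mem_killAll.2 fun f S => ?_, ?_⟩, add_sub_cancel _ _⟩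
  · rw [map_sub]
    by_cases hS : S = ∅
    · subst hS
      have h1 := mem_killEmpty.1 hy f
      have h2 : slot G F M f ∅ (((tot G F b).diff M B).d w) -
          slot G F M f ∅ (((tot G F b).diff M B).d w') ∈ bd0 d G M := by
        rw [slot_d, slot_d]
        simp only [kosMat_empty, mul_zero, zero_smul, sum_const_zero, add_zero, w', slot_emptyPart,
          if_true]
        rw [add_sub_add_right_eq_sub]
        exact Submodule.sub_mem _ (dA_posProj_mem_bd0 _) (dA_posProj_mem_bd0 _)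
      rw [← e, map_add]
      convert add_mem h2 h1 using 1
      abel
    · refine Submodule.sub_mem _ (hz f S hS) ?_
      rw [slot_d]
      refine add_mem (add_mem (dA_posProj_mem_bd0 _) (Submodule.sum_mem _ fun f' _ => ?_))
        (Submodule.sum_mem _ fun S' _ => ?_)
      · rw [slot_emptyPart, if_neg hS, smul_zero]
        exact Submodule.zero_mem _
      · rw [mul_smul]
        exact smul_bd0 (kosMat_smul_bd0 hx hs hb S S' fun g hg => slot_mem_bd0_of_pos g hg)
  · refine Submodule.sub_mem _ ?_ (d_mem_deg _ (emptyPart_deg b b hw))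
    rw [← e]
    exact Submodule.add_mem _ (d_mem_deg _ hw) hy'

end Empty

section Middle

variable {B : Type u} [CommRing B] [IsLocalRing B] {d : ℕ} {G : FreeCx B} {F : FreeCx (Rz B d)}
  {M : Type u} [AddCommGroup M] [Module (Rz B d) M] [Module B M]
  [IsScalarTower B (Rz B d) M] {deg : F.ι → ℤ} {K L : ℕ} {Q m : ℕ} {x₀ : Fin d → B}

theorem sub_emptyPart_mem (x : TI G F → M) : x - emptyPart G F M x ∈ killEmpty G F M :=
  mem_killEmpty.2 fun f => by
    rw [map_sub, slot_emptyPart, if_pos rfl, sub_self]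
    exact Submodule.zero_mem _

theorem tau_emptyPart (b b' : ℕ) (x : TI G F → M) :
    tau G F M b b' (emptyPart G F M x) = emptyPart G F M x := by
  funext l
  rw [tau_apply, emptyPart_apply]
  split_ifs with h
  · rw [h]; simp [tauScalar]
  · rw [smul_zero]

theorem slot_tau (b b' : ℕ) (x : TI G F → M) (f : F.ι) (S : Finset (Fin d)) :
    slot G F M f S (tau G F M b b' x) = tauScalar B b b' S • slot G F M f S x := by
  funext g
  rw [Pi.smul_apply, slot_apply, slot_apply, tau_apply]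
  split_ifs
  · rfl
  · rw [smul_zero]

variable (hV : Module.length B (TI G F → M) ≠ ⊤)
  (hx : ∀ a (y : M), x₀ a • y = (MvPolynomial.X a : Rz B d) ^ Q • y)
  (hs : ∀ a, ∃ s : Matrix G.ι G.ι B, (∀ h g, s h g ≠ 0 → G.pos h = G.pos g + 1) ∧
    G.mat * s + s * G.mat = x₀ a ^ m • (1 : Matrix G.ι G.ι B))

include hV hx hs

/-- The middle levels map onto the component over the empty subset. -/
theorem middle_surj {b₁ b : ℕ} (hb₁ : Q * m ≤ b₁) (hbb : b₁ ≤ b) {lo w : ℤ}
    (hlo : fT G M deg K L b₁ lo = ⊤) (P : ℤ) :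
    ln (((tot G F b).diff M B).bdries ⊤ (killEmpty G F M) P ⊔
        ((tot G F b).diff M B).cycles (fT G M deg K L b lo) (fT G M deg K L b w) P)
      (((tot G F b).diff M B).cycles ⊤ (killEmpty G F M) P) ≤
    ln (((tot G F b₁).diff M B).bdries ⊤ (killAll G F M) P ⊔
        ((tot G F b₁).diff M B).cycles ⊤ (fT G M deg K L b₁ w) P)
      (((tot G F b₁).diff M B).cycles ⊤ (killAll G F M) P) := by
  set D := (tot G F b).diff M B
  set D₁ := (tot G F b₁).diff M B
  set P₀ := D.bdries ⊤ (killEmpty G F M) P ⊔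
    D.cycles (fT G M deg K L b lo) (fT G M deg K L b w) P
  refine (ln_mono hV (N' := P₀ ⊔
    (D₁.cycles ⊤ (killAll G F M) P).map (tau G F M b₁ b)) ?_).trans ?_
  · intro z hz
    rw [show z = (z - emptyPart G F M z) + emptyPart G F M z by abel]
    have hzd := ((Diff.mem_cycles _).1 hz).2.1
    refine Submodule.add_mem_sup (Submodule.mem_sup_left ((Diff.mem_bdries _).2
      ⟨0, ⟨trivial, Submodule.zero_mem _⟩, _, ⟨sub_emptyPart_mem z,
        Submodule.sub_mem _ hzd (emptyPart_deg b b hzd)⟩, by rw [map_zero, zero_add]⟩))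
      ⟨_, emptyPart_cycle hx hs hb₁ hz, tau_emptyPart b₁ b z⟩
  · refine (ln_sup_le hV _ _ _).trans ?_
    rw [ln_eq_zero le_rfl, zero_add]
    refine ln_map_le hV _ fun x _ hx' => ?_
    obtain ⟨p, hp, c, hc, rfl⟩ := Submodule.mem_sup.1 hx'
    rw [map_add]
    refine Submodule.add_mem_sup ?_ ?_
    · obtain ⟨w', ⟨-, hw'⟩, y, ⟨hy, hy'⟩, rfl⟩ := (Diff.mem_bdries _).1 hp
      refine (Diff.mem_bdries _).2 ⟨tau G F M b₁ b w', ⟨trivial, tau_deg b₁ b _ w' hw'⟩,
        tau G F M b₁ b y, ⟨mem_killEmpty.2 fun f => ?_, tau_deg b₁ b _ y hy'⟩,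
        by rw [map_add, tau_comm hbb]⟩
      rw [slot_tau]
      exact smul_bd0 (mem_killAll.1 hy f ∅)
    · obtain ⟨-, hc2, hc3⟩ := (Diff.mem_cycles _).1 hc
      refine (Diff.mem_cycles _).2 ⟨tau_mem_fT hbb (by rw [hlo]; trivial), tau_deg b₁ b _ c hc2, ?_⟩
      rw [← tau_comm hbb]
      exact tau_mem_fT hbb hc3

/-- The middle levels map almost injectively. -/
theorem middle_inj {b b₂ : ℕ} (hb : Q * m ≤ b) (hbb : b ≤ b₂)
    {lo₂ lo w : ℤ} (hlw : lo ≤ w) (hlo₂ : fT G M deg K L b lo₂ = ⊤)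
    (hhigh : ∀ z ∈ fT G M deg K L b lo, ∀ f S, S ≠ ∅ → slot G F M f S z ∈ bd0 d G M)
    (P : ℤ) :
    ln (((tot G F b).diff M B).bdries (fT G M deg K L b lo) (fT G M deg K L b w) P)
      (((tot G F b).diff M B).cycles (fT G M deg K L b lo) (fT G M deg K L b w) P ⊓
        ((tot G F b).diff M B).bdries ⊤ (killEmpty G F M) P) ≤
    kl ((tot G F b).diff M B) ((tot G F b₂).diff M B) (tau G F M b b₂)
        (fT G M deg K L b lo) (fT G M deg K L b w) (fT G M deg K L b₂ lo) (fT G M deg K L b₂ w) P +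
      (hl ((tot G F b₂).diff M B) (fT G M deg K L b₂ lo₂) (fT G M deg K L b₂ lo) (P + 1) +
        ln (((tot G F b).diff M B).bdries ⊤ (fT G M deg K L b w) P)
          (((tot G F b).diff M B).cycles ⊤ (fT G M deg K L b w) P ⊓
            ((tot G F b).diff M B).bdries ⊤ (killAll G F M) P)) := by
  set D := (tot G F b).diff M B
  set D₂ := (tot G F b₂).diff M B
  set τ := tau G F M b b₂
  set N := D.cycles (fT G M deg K L b lo) (fT G M deg K L b w) P ⊓
    D.bdries ⊤ (killEmpty G F M) P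
  have hNN : N ≤ D.cycles ⊤ (fT G M deg K L b w) P ⊓ D.bdries ⊤ (killAll G F M) P := by
    rintro z ⟨hz, hzb⟩
    exact ⟨cycles_mono D le_top le_rfl P hz,
      mem_bdries_killAll hx hs hb (hhigh z ((Diff.mem_cycles _).1 hz).1) hzb⟩
  set P₂ := D₂.bdries (fT G M deg K L b₂ lo) (fT G M deg K L b₂ w) P
  refine (ln_le_add_map hV hV τ _ N P₂).trans (add_le_add ?_ ?_)
  · exact ln_mono hV (inf_le_inf_right _ inf_le_left)
  refine (ln_map_split hV τ P₂ N (D.bdries ⊤ (fT G M deg K L b w) P)).trans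
    (add_le_add ?_ (ln_mono hV hNN))
  refine (ln_mono hV (N' := (D₂.cycles (fT G M deg K L b₂ lo₂) (fT G M deg K L b₂ lo) (P + 1)).map
    D₂.d ⊔ P₂) ?_).trans ((ln_sup_le hV _ _ _).trans ?_)
  · rintro _ ⟨z, ⟨⟨hz, -⟩, hzb⟩, rfl⟩
    obtain ⟨h1, -, -⟩ := (Diff.mem_cycles _).1 hz
    obtain ⟨w', ⟨-, hw'⟩, f, ⟨hf, hf'⟩, rfl⟩ := (Diff.mem_bdries _).1 hzb
    rw [map_add, tau_comm hbb]
    have hw2 : w' ∈ fT G M deg K L b lo₂ := by rw [hlo₂]; trivial
    refine Submodule.add_mem_sup ⟨τ w', (Diff.mem_cycles _).2 ⟨tau_mem_fT hbb hw2,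
      tau_deg b b₂ _ w' hw', ?_⟩, rfl⟩ ((Diff.mem_bdries _).2
        ⟨0, ⟨Submodule.zero_mem _, Submodule.zero_mem _⟩, τ f, ⟨tau_mem_fT hbb hf,
          tau_deg b b₂ _ f hf'⟩, by rw [map_zero, zero_add]⟩)
    rw [← tau_comm hbb]
    refine tau_mem_fT hbb ?_
    have := Submodule.sub_mem _ h1 (fT_antitone b hlw hf)
    rwa [add_sub_cancel_right] at this
  · rw [ln_eq_zero (le_refl P₂), add_zero]
    refine ln_map_le hV D₂.d fun x _ hxb => ?_
    obtain ⟨v, -, r, ⟨hr, hr'⟩, rfl⟩ := (Diff.mem_bdries _).1 hxb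
    rw [map_add, D₂.d_d, zero_add]
    exact (Diff.mem_bdries _).2 ⟨r, ⟨hr, hr'⟩, 0, ⟨Submodule.zero_mem _, Submodule.zero_mem _⟩,
      add_zero _⟩

end Middle

end Vale.Agent.P202.Mixed.Window
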