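import Vale.Agent.P202.Mixed.Window.Core

/-!
# P202 mixed characteristic, the window: the corner

In position zero of `G` and of `F`, over the empty subset, the first columns minus the images of
the second ones are a lower bound for the homology of the nonpositive levels.
-/

noncomputable section

namespace Vale.Agent.P202.Mixed.Window

open IsLocalRing Finset

universe u

section Left

variable {A : Type*} [CommRing A] {V : Type u} [AddCommGroup V] [Module A V]
  (hV : Module.length A V ≠ ⊤) (D : Diff A V)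

include hV

/-- The bound on the sub from the whole and the quotient one position higher. -/
theorem hl_left_le {Y X W : Submodule A V} (hYX : Y ≤ X) (hXW : X ≤ W) (j : ℤ) :
    hl D X Y j ≤ hl D W Y j + hl D W X (j + 1) := by
  refine (hl_sandwich hV D hXW le_rfl j).2.trans (add_le_add le_rfl ?_)
  refine (ln_mono hV (N' := (D.cycles W X (j + 1)).map D.d ⊔ (Y ⊓ D.deg j)) ?_).trans ?_
  · rintro x ⟨hx, hxb⟩
    obtain ⟨w, ⟨hw, hw'⟩, y, hy, rfl⟩ := D.mem_bdries.1 hxb
    refine Submodule.add_mem_sup ⟨w, D.mem_cycles.2 ⟨hw, hw', ?_⟩, rfl⟩ hy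
    simpa using X.sub_mem (D.mem_cycles.1 hx).1 (hYX hy.1)
  · refine (ln_sup_le hV _ _ _).trans ?_
    rw [show ln (D.bdries X Y j) (Y ⊓ D.deg j) = 0 from ln_eq_zero le_sup_right, add_zero]
    refine ln_map_le hV D.d fun x _ hxb => ?_
    obtain ⟨w, -, r, ⟨hr, hr'⟩, rfl⟩ := D.mem_bdries.1 hxb
    rw [map_add, D.d_d, zero_add]
    exact D.mem_bdries.2 ⟨r, ⟨hr, hr'⟩, 0, ⟨Y.zero_mem, Submodule.zero_mem _⟩, add_zero _⟩

/-- The quotient of the middle levels is at least the cokernel of the levels above. -/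
theorem corner_le {X F₁ Fw W : Submodule A V} (hw : Fw ≤ F₁) (j : ℤ) :
    ln (D.bdries ⊤ W j ⊔ (F₁ ⊓ D.deg j)) (D.cycles ⊤ W j) ≤
      hl D X F₁ j + ln (D.bdries ⊤ W j ⊔ D.cycles X Fw j) (D.cycles ⊤ W j) := by
  set P := D.bdries ⊤ W j ⊔ (F₁ ⊓ D.deg j)
  refine (ln_triangle hV P (D.bdries ⊤ W j ⊔ D.cycles X Fw j) _).trans (add_le_add ?_ le_rfl)
  refine (ln_sup_le hV _ _ _).trans ?_
  rw [ln_eq_zero (le_sup_left : D.bdries ⊤ W j ≤ P), zero_add]
  refine (ln_mono hV (cycles_mono D le_rfl hw j)).trans (ln_anti hV (P := D.bdries X F₁ j) ?_ _)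
  intro x hx
  obtain ⟨w, ⟨-, hw'⟩, y, hy, rfl⟩ := D.mem_bdries.1 hx
  exact Submodule.add_mem_sup
    (D.mem_bdries.2 ⟨w, ⟨trivial, hw'⟩, 0, ⟨W.zero_mem, Submodule.zero_mem _⟩, add_zero _⟩) hy

end Left

variable {B : Type u} [CommRing B] [IsLocalRing B] {d : ℕ} {G : FreeCx B}
  {F : FreeCx (Rz B d)} {M : Type u} [AddCommGroup M] [Module (Rz B d) M] [Module B M]
  [IsScalarTower B (Rz B d) M]

variable (G F M) in
/-- The components in position zero of `G` over the empty subset. -/
def corner : (TI G F → M) →ₗ[B] ({g : G.ι // G.pos g = 0} → F.ι → M) :=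
  LinearMap.pi fun g => LinearMap.pi fun f => LinearMap.proj ((g.1, f, ∅) : TI G F)

theorem corner_apply (z : TI G F → M) (g : {g : G.ι // G.pos g = 0}) (f : F.ι) :
    corner G F M z g f = z (g.1, f, ∅) := rfl

variable (G F M) in
/-- The differential of `G` from position one, on the components in position zero of `F`. -/
def cornerMap : ({h : G.ι // G.pos h = 1} → F.ι → M) →ₗ[B]
    ({g : G.ι // G.pos g = 0} → F.ι → M) :=
  LinearMap.pi fun g => ∑ h : {h : G.ι // G.pos h = 1}, G.mat g.1 h.1 • LinearMap.proj h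

theorem cornerMap_apply (y : {h : G.ι // G.pos h = 1} → F.ι → M) (g : {g : G.ι // G.pos g = 0}) :
    cornerMap G F M y g = ∑ h : {h : G.ι // G.pos h = 1}, G.mat g.1 h.1 • y h := by
  simp [cornerMap]

theorem dA_posProj_one (w : G.ι → M) (g : G.ι) :
    (Gz (d := d) G).dA M ((Gz (d := d) G).posProj M 1 w) g =
      ∑ h : {h : G.ι // G.pos h = 1}, G.mat g h.1 • w h.1 := by
  rw [FreeCx.dA_apply, ← Finset.sum_subtype (univ.filter fun h : G.ι => G.pos h = 1) (by simp)
    fun h => G.mat g h • w h, sum_filter]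
  refine sum_congr rfl fun h _ => ?_
  show (MvPolynomial.C (G.mat g h) : Rz B d) • (if (G.pos h : ℤ) = 1 then w h else 0) =
    if G.pos h = 1 then G.mat g h • w h else 0
  rw [← MvPolynomial.algebraMap_eq, IsScalarTower.algebraMap_smul]
  by_cases hh : G.pos h = 1
  · rw [if_pos (by exact_mod_cast hh), if_pos hh]
  · rw [if_neg (by exact_mod_cast hh), if_neg hh, smul_zero]

variable (M) in
/-- The cokernel of `F ⊗ M` in position zero modulo the levels above `a`. -/
def cokP (F : FreeCx (Rz B d)) (deg : F.ι → ℤ) (K : ℕ) (a : ℤ) : Submodule B (F.ι → M) :=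
  (F.diff M B).bdries ⊤ (lvlF B (d := d) M K fun f => a - deg f) 0

variable {deg : F.ι → ℤ} {K L : ℕ}

theorem smul_mem_cokP {r : B} (hr : r ∈ maximalIdeal B) {a a' : ℤ} (h : a' ≤ a + K)
    {y : F.ι → M} (hy : y ∈ cokP M F deg K a) : r • y ∈ cokP M F deg K a' := by
  obtain ⟨w, ⟨-, hw⟩, z, ⟨hz, hz'⟩, rfl⟩ := (Diff.mem_bdries _).1 hy
  refine (Diff.mem_bdries _).2 ⟨r • w, ⟨trivial, Submodule.smul_mem _ r hw⟩, r • z,
    ⟨mem_lvlF.2 fun f => ?_, Submodule.smul_mem _ r hz'⟩, by rw [map_smul, smul_add]⟩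
  rw [Pi.smul_apply, ← IsScalarTower.algebraMap_smul (Rz B d) r (z f), MvPolynomial.algebraMap_eq]
  exact smul_mem_filB (C_mem_wIdeal hr le_rfl) (mem_lvlF.1 hz f) (by omega)

variable (hM : Module.length B M ≠ ⊤)

include hM

theorem length_pi_ne_top (ι : Type*) [Fintype ι] : Module.length B (ι → M) ≠ ⊤ := by
  rw [Module.length_pi_of_fintype]
  exact WithTop.sum_ne_top.2 fun _ _ => hM

/-- The corner bound. -/
theorem corner_bound (hG : G.EntriesIn (maximalIdeal B)) (hKL : L ≤ K) (b : ℕ) :
    (G.rank 0 : ℤ) * ln (cokP M F deg K 1) ((F.diff M B).deg 0) ≤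
      ln (((tot G F b).diff M B).bdries ⊤ (killEmpty G F M) (d : ℤ) ⊔
          (fT G M deg K L b 1 ⊓ ((tot G F b).diff M B).deg (d : ℤ)))
        (((tot G F b).diff M B).cycles ⊤ (killEmpty G F M) (d : ℤ)) +
      (G.rank 1 : ℤ) * ln (cokP M F deg K (1 - (L : ℤ))) ((F.diff M B).deg 0) := by
  classical
  have hF := length_pi_ne_top hM F.ι
  have hV : ∀ (ι : Type) [Fintype ι], Module.length B (ι → F.ι → M) ≠ ⊤ := fun ι _ => by
    rw [Module.length_pi_of_fintype]
    exact WithTop.sum_ne_top.2 fun _ _ => hF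
  have hT := length_pi_ne_top hM (TI G F)
  -- products of copies
  have hprod : ∀ (ι : Type) [Fintype ι] (a : ℤ),
      ln (Submodule.pi Set.univ fun _ : ι => cokP M F deg K a)
        (Submodule.pi Set.univ fun _ : ι => (F.diff M B).deg 0) =
      (Fintype.card ι : ℤ) * ln (cokP M F deg K a) ((F.diff M B).deg 0) := by
    intro ι _ a
    have h := len_eq_sum (A := B) (fun g : ι => LinearMap.proj (R := B) (φ := fun _ : ι => F.ι → M) g)
      (P := Submodule.pi Set.univ fun _ : ι => cokP M F deg K a)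
      (N := Submodule.pi Set.univ fun _ : ι => (F.diff M B).deg 0)
      (fun _ => cokP M F deg K a) (fun _ => (F.diff M B).deg 0)
      (fun x hx g => Submodule.mem_pi.1 hx g trivial) (fun x _ => by simp [Submodule.mem_pi])
      (fun y hy => ⟨y, Submodule.mem_pi.2 fun g _ => hy g, fun g => rfl⟩)
    unfold ln
    rw [h, ENat.toNat_sum fun _ _ => len_ne_top hF _ _, sum_const, card_univ, smul_eq_mul,
      Nat.cast_mul]
  set D := (tot G F b).diff M B with hD
  set N₀ : Submodule B ({g : G.ι // G.pos g = 0} → F.ι → M) :=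
    Submodule.pi Set.univ fun _ => (F.diff M B).deg 0
  set P₀ : Submodule B ({g : G.ι // G.pos g = 0} → F.ι → M) :=
    Submodule.pi Set.univ fun _ => cokP M F deg K 1
  set N₁ : Submodule B ({h : G.ι // G.pos h = 1} → F.ι → M) :=
    Submodule.pi Set.univ fun _ => (F.diff M B).deg 0
  set P₁ : Submodule B ({h : G.ι // G.pos h = 1} → F.ι → M) :=
    Submodule.pi Set.univ fun _ => cokP M F deg K (1 - (L : ℤ))
  have h0 : (G.rank 0 : ℤ) * ln (cokP M F deg K 1) ((F.diff M B).deg 0) = ln P₀ N₀ := by
    rw [hprod, Fintype.card_subtype]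
    rfl
  have h1 : (G.rank 1 : ℤ) * ln (cokP M F deg K (1 - (L : ℤ))) ((F.diff M B).deg 0) = ln P₁ N₁ := by
    rw [hprod, Fintype.card_subtype]
    rfl
  rw [h0, h1]
  refine (ln_triangle (hV _) P₀ (P₀ ⊔ N₁.map (cornerMap G F M)) _).trans ?_
  rw [add_comm]
  refine add_le_add ?_ ?_
  · refine (ln_mono (hV _) (N' := (D.cycles ⊤ (killEmpty G F M) (d : ℤ)).map (corner G F M))
      ?_).trans ?_
    · intro y hy
      refine ⟨fun l => if h : G.pos l.1 = 0 ∧ l.2.2 = ∅ ∧ F.pos l.2.1 = 0 then
        y ⟨l.1, h.1⟩ l.2.1 else 0, ?_, funext fun g => funext fun f => ?_⟩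
      · refine (Diff.mem_cycles _).2 ⟨trivial, fun l hl => dif_neg fun h => hl ?_,
          mem_killEmpty.2 fun f => ?_⟩
        · show ((G.pos l.1 + (F.pos l.2.1 + (d - l.2.2.card)) : ℕ) : ℤ) = (d : ℤ)
          rw [h.1, h.2.1, h.2.2]
          simp
        · convert Submodule.zero_mem (bd0 d G M) using 1
          funext g
          rw [slot_apply]
          by_cases hg : G.pos g = 0
          · rw [if_pos hg]
            refine (D.d_deg (d : ℤ) _ (fun l hl => dif_neg fun h => hl ?_)) (g, f, ∅) ?_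
            · show ((G.pos l.1 + (F.pos l.2.1 + (d - l.2.2.card)) : ℕ) : ℤ) = (d : ℤ)
              rw [h.1, h.2.1, h.2.2]
              simp
            · show ((G.pos g + (F.pos f + (d - (∅ : Finset (Fin d)).card)) : ℕ) : ℤ) ≠ (d : ℤ) - 1
              rw [Finset.card_empty]
              push_cast
              omega
          · rw [if_neg hg]; rfl
      · rw [corner_apply]
        by_cases hf : F.pos f = 0
        · rw [dif_pos ⟨g.2, rfl, hf⟩]
        · rw [dif_neg fun h => hf h.2.2]
          exact ((Submodule.mem_pi.1 hy g trivial) f (by exact_mod_cast hf)).symm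
    · refine ln_map_le hT _ fun z hz hzP => ?_
      obtain ⟨bz, hbz, fz, ⟨hfz, hfzd⟩, rfl⟩ := Submodule.mem_sup.1 hzP
      obtain ⟨w, ⟨-, hw⟩, y, ⟨hy, hyd⟩, rfl⟩ := (Diff.mem_bdries _).1 hbz
      rw [map_add, map_add]
      refine add_mem (add_mem ?_ ?_) (Submodule.mem_sup_left (Submodule.mem_pi.2 fun g _ => ?_))
      · -- boundaries
        let wG : {h : G.ι // G.pos h = 1} → F.ι → M := fun h f =>
          if F.pos f = 0 then w (h.1, f, ∅) else 0
        have hwG : wG ∈ N₁ := Submodule.mem_pi.2 fun h _ f hf => if_neg (by exact_mod_cast hf)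
        rw [show corner G F M (D.d w) = (corner G F M (D.d w) - cornerMap G F M wG) +
          cornerMap G F M wG by abel]
        refine Submodule.add_mem_sup (Submodule.mem_pi.2 fun g _ => ?_) ⟨wG, hwG, rfl⟩
        refine (Diff.mem_bdries _).2 ⟨fun f => if F.pos f = 1 then w (g.1, f, ∅) else 0,
          ⟨trivial, fun f hf => if_neg (by omega)⟩, 0,
          ⟨Submodule.zero_mem _, Submodule.zero_mem _⟩, ?_⟩
        rw [add_zero]
        funext f
        show F.dA M (fun f => if F.pos f = 1 then w (g.1, f, ∅) else 0) f =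
          corner G F M (D.d w) g f - cornerMap G F M wG g f
        have hs := congrFun (slot_d b w f ∅) g.1
        simp only [Pi.add_apply, Finset.sum_apply, Pi.smul_apply, kosMat_empty, mul_zero,
          zero_smul, sum_const_zero, add_zero, Pi.zero_apply, slot_apply, if_pos g.2] at hs
        rw [dA_posProj_one] at hs
        rw [corner_apply, cornerMap_apply, Finset.sum_apply]
        by_cases hf : F.pos f = 0
        · rw [hs, FreeCx.dA_apply]
          simp only [wG, Pi.smul_apply, if_pos hf]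
          rw [add_sub_cancel_left]
          refine sum_congr rfl fun f' _ => ?_
          by_cases hm : F.mat f f' = 0
          · rw [hm, zero_smul, zero_smul]
          · rw [if_pos (by rw [F.mat_pos f f' hm, hf])]
        · have hz0 : D.d w (g.1, f, ∅) = 0 := d_mem_deg D hw (g.1, f, ∅) (by
            show ((G.pos g.1 + (F.pos f + (d - (∅ : Finset (Fin d)).card)) : ℕ) : ℤ) ≠ (d : ℤ)
            rw [Finset.card_empty]
            push_cast
            omega)
          rw [hz0, FreeCx.dA_apply]
          simp only [wG, Pi.smul_apply, if_neg hf, smul_zero, sum_const_zero, sub_zero]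
          refine sum_eq_zero fun f' _ => ?_
          by_cases hm : F.mat f f' = 0
          · rw [hm, zero_smul]
          · rw [if_neg (by have := F.mat_pos f f' hm; omega), smul_zero]
      · -- killed elements
        choose w' hw' using fun f => mem_killEmpty.1 hy f
        choose v hv using fun f => (hw' f).1
        let wG : {h : G.ι // G.pos h = 1} → F.ι → M := fun h f =>
          if F.pos f = 0 then v f h.1 else 0
        refine Submodule.mem_sup_right ⟨wG, Submodule.mem_pi.2 fun h _ f hf =>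
          if_neg (by exact_mod_cast hf), funext fun g => funext fun f => ?_⟩
        rw [corner_apply, cornerMap_apply, Finset.sum_apply]
        by_cases hf : F.pos f = 0
        · have e := congrFun (hw' f).2 g.1
          rw [slot_apply, if_pos g.2, ← hv f, zero_add, dA_posProj_one] at e
          simp only [wG, Pi.smul_apply, if_pos hf]
          exact e
        · rw [hyd (g.1, f, ∅) ?_]
          · simp only [wG, Pi.smul_apply, if_neg hf, smul_zero, sum_const_zero]
          · show ((G.pos g.1 + (F.pos f + (d - (∅ : Finset (Fin d)).card)) : ℕ) : ℤ) ≠ (d : ℤ)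
            rw [Finset.card_empty]
            push_cast
            omega
      · refine (Diff.mem_bdries _).2 ⟨0, ⟨trivial, Submodule.zero_mem _⟩, _,
          ⟨mem_lvlF.2 fun f => ?_, fun f hf => ?_⟩, by rw [map_zero, zero_add]⟩
        · rw [corner_apply]
          have := mem_fT.1 hfz (g.1, f, ∅)
          simpa [off, zKosLev, g.2] using this
        · rw [corner_apply, hfzd (g.1, f, ∅) ?_]
          show ((G.pos g.1 + (F.pos f + (d - (∅ : Finset (Fin d)).card)) : ℕ) : ℤ) ≠ (d : ℤ)
          rw [Finset.card_empty]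
          push_cast
          omega
  · refine (ln_sup_le (hV _) _ _ _).trans ?_
    rw [ln_eq_zero le_rfl, zero_add]
    refine ln_map_le (hV _) _ fun y _ hyP => ?_
    refine Submodule.mem_pi.2 fun g _ => ?_
    rw [cornerMap_apply]
    exact Submodule.sum_mem _ fun h _ =>
      smul_mem_cokP (hG g.1 h.1) (by omega) (Submodule.mem_pi.1 hyP h trivial)

end Vale.Agent.P202.Mixed.Window
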