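import Vale.Agent.P202.Mixed.Window.Col
import Vale.Agent.P202.Mixed.Levels.Cmp

/-!
# P202 mixed characteristic, the window: graded pieces of almost free modules

Each graded piece of the total complex has the homology of almost `D₁` copies of the slices, and
the transition maps are almost isomorphisms on it.
-/

noncomputable section

namespace Vale.Agent.P202.Mixed.Window

open IsLocalRing MvPolynomial Finset

universe u

variable {B : Type u} [CommRing B] [IsLocalRing B] {n : ℕ} {c : Fin n → ℤ} {G : FreeCx B}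
  (S : SliceCx B c) {K L : ℕ}

section Src

variable {nn : ℕ} (hLK : L + 1 ≤ K) (hG : G.EntriesIn (maximalIdeal B))

theorem tau_mem_srcLvl {b b' : ℕ} (hbb : b ≤ b') (u : ℤ) {a : TI G S.F → Fin nn → Rz B (n + 1)}
    (ha : a ∈ srcLvl (tot G S.F b) K nn fun l => u - off S.deg L b l) :
    tau G S.F (Fin nn → Rz B (n + 1)) b b' a ∈
      srcLvl (tot G S.F b') K nn fun l => u - off S.deg L b' l := by
  refine mem_srcLvl.2 fun l i => ?_
  show tauScalar B b b' l.2.2 * a l i ∈ _
  have h1 : tauScalar B b b' l.2.2 ∈ homInt B (n + 1) (((b' - b) * l.2.2.card : ℕ) : ℤ) := by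
    rw [homInt, if_pos (Int.natCast_nonneg _), Int.toNat_natCast,
      MvPolynomial.mem_homogeneousSubmodule, tauScalar, mul_comm, ← smul_eq_mul,
      ← Finset.sum_const]
    exact IsHomogeneous.prod _ _ _ fun a _ => isHomogeneous_X_pow a _
  have := mul_mem_srcX (K := K) (mem_srcX_of_homInt h1) (mem_srcLvl.1 ha l i)
  rw [show (((b' - b) * l.2.2.card : ℕ) : ℤ) + (u - off S.deg L b l) = u - off S.deg L b' l by
    simp only [off, zKosLev]
    push_cast [Nat.cast_sub hbb]
    ring] at this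
  exact this

theorem leadCol_tau {b b' : ℕ} (hbb : b ≤ b') (u : ℤ) (gi : G.ι × Fin nn)
    {a : TI G S.F → Fin nn → Rz B (n + 1)}
    (ha : a ∈ srcLvl (tot G S.F b) K nn fun l => u - off S.deg L b l) :
    leadCol G S.F S.deg L b' u gi (tau G S.F (Fin nn → Rz B (n + 1)) b b' a) =
      (colTau S.F b b').restrictScalars B (leadCol G S.F S.deg L b u gi a) := by
  obtain ⟨g, i⟩ := gi
  funext p
  rw [leadCol_apply]
  show lead B (n + 1) (u - off S.deg L b' ((g, p) : TI G S.F))
      (tauScalar B b b' p.2 * a (g, p) i) =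
    tauScalar (ResidueField B) b b' p.2 * lead B (n + 1) (u - off S.deg L b ((g, p) : TI G S.F))
      (a (g, p) i)
  have h1 : tauScalar B b b' p.2 ∈ homInt B (n + 1) (((b' - b) * p.2.card : ℕ) : ℤ) := by
    rw [homInt, if_pos (Int.natCast_nonneg _), Int.toNat_natCast,
      MvPolynomial.mem_homogeneousSubmodule, tauScalar, mul_comm, ← smul_eq_mul,
      ← Finset.sum_const]
    exact IsHomogeneous.prod _ _ _ fun a _ => isHomogeneous_X_pow a _
  have h := lead_mul (K := K) (mem_srcX_of_homInt h1) (mem_srcLvl.1 ha ((g, p) : TI G S.F) i)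
  rw [show (((b' - b) * p.2.card : ℕ) : ℤ) + (u - off S.deg L b ((g, p) : TI G S.F)) =
      u - off S.deg L b' ((g, p) : TI G S.F) by
    simp only [off, zKosLev]
    push_cast [Nat.cast_sub hbb]
    ring] at h
  rw [h, lead_apply, comp_eq_self h1]
  simp [tauScalar, polyResidue, map_prod]

include hLK hG in
theorem src_tau_iso {b b' : ℕ} (hb : S.B₀ ≤ b) (hbb : b ≤ b') {u : ℤ}
    (hu : ∀ g, -(b : ℤ) + S.B₀ ≤ u - ((L * G.pos g : ℕ) : ℤ)) (j : ℤ) :
    srcC G S.F S.deg K L b nn u j ⊓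
        (srcB G S.F S.deg K L b' nn u j).comap (tau G S.F (Fin nn → Rz B (n + 1)) b b') ≤
      srcB G S.F S.deg K L b nn u j ∧
    srcC G S.F S.deg K L b' nn u j ≤ srcB G S.F S.deg K L b' nn u j ⊔
      (srcC G S.F S.deg K L b nn u j).map (tau G S.F (Fin nn → Rz B (n + 1)) b b') := by
  have hτC : ∀ a ∈ srcC G S.F S.deg K L b nn u j,
      tau G S.F (Fin nn → Rz B (n + 1)) b b' a ∈ srcC G S.F S.deg K L b' nn u j := by
    intro a ha
    obtain ⟨h1, h2, h3⟩ := (Diff.mem_cycles _).1 ha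
    refine (Diff.mem_cycles _).2 ⟨tau_mem_srcLvl S hbb u h1, tau_deg b b' j a h2, ?_⟩
    have h1' := tau_mem_srcLvl (G := G) (L := L) S hbb u h1
    refine (mem_srcLvl₀_iff b' u (dA_mem_srcLvl_tot S.homog hLK hG b' u h1')).2 fun gi => ?_
    rw [← FreeCx.diff_d_apply (k := B), ← tau_comm hbb,
      leadCol_tau S hbb u gi (a := ((tot G S.F b).diff (Fin nn → Rz B (n + 1)) B).d a)
        (dA_mem_srcLvl_tot S.homog hLK hG b u h1)]
    rw [show leadCol G S.F S.deg L b u gi
        (((tot G S.F b).diff (Fin nn → Rz B (n + 1)) B).d a) = 0 from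
      funext fun p => ((mem_srcLvl₀.1 h3) (gi.1, p) gi.2).2, map_zero]
  constructor
  · rintro a ⟨ha, ha'⟩
    refine (mem_srcB_iff S.homog hLK hG b u j ha).2 fun gi => ?_
    refine (col_tau_iso S hb hbb (hu gi.1) (j - G.pos gi.1)).1
      ⟨leadCol_mem_colC S.homog hLK hG b u j ha gi, ?_⟩
    have h := (mem_srcB_iff S.homog hLK hG b' u j (hτC a ha)).1 ha' gi
    rw [leadCol_tau S hbb u gi ((Diff.mem_cycles _).1 ha).1] at h
    exact h
  · intro a ha
    have h : ∀ gi : G.ι × Fin nn, ∃ y ∈ colC G S.F S.deg L b u j gi,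
        leadCol G S.F S.deg L b' u gi a - (colTau S.F b b').restrictScalars B y ∈
          colB G S.F S.deg L b' u j gi := by
      intro gi
      obtain ⟨w, hw, _, ⟨y, hy, rfl⟩, e⟩ := Submodule.mem_sup.1
        ((col_tau_iso S hb hbb (hu gi.1) (j - G.pos gi.1)).2
          (leadCol_mem_colC S.homog hLK hG b' u j ha gi))
      exact ⟨y, hy, by rw [← e, LinearMap.restrictScalars_apply, add_sub_cancel_right]; exact hw⟩
    choose y hy hyB using h
    obtain ⟨A, hA, hAl⟩ := exists_srcC S.homog hLK hG b u j y hy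
    rw [show a = (a - tau G S.F (Fin nn → Rz B (n + 1)) b b' A) +
      tau G S.F (Fin nn → Rz B (n + 1)) b b' A by abel]
    refine Submodule.add_mem_sup ((mem_srcB_iff S.homog hLK hG b' u j
      (Submodule.sub_mem _ ha (hτC A hA))).2 fun gi => ?_) ⟨A, hA, rfl⟩
    rw [map_sub, leadCol_tau S hbb u gi ((Diff.mem_cycles _).1 hA).1, hAl]
    exact hyB gi

include hLK hG in
theorem len_src_slices {b : ℕ} (hb : S.B₀ ≤ b) {u : ℤ}
    (hu : ∀ g, -(b : ℤ) + S.B₀ ≤ u - ((L * G.pos g : ℕ) : ℤ)) (j : ℤ) :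
    len (srcB G S.F S.deg K L b nn u j) (srcC G S.F S.deg K L b nn u j) =
      ((nn * ∑ g : G.ι, sliceDim c (u - ((L * G.pos g : ℕ) : ℤ))
        (j - G.pos g - ((n + 1 : ℕ) : ℤ)) : ℕ) : ℕ∞) := by
  rw [len_src S.homog hLK hG]
  have h : ∀ gi : G.ι × Fin nn, len (colB G S.F S.deg L b u j gi) (colC G S.F S.deg L b u j gi) =
      (sliceDim c (u - ((L * G.pos gi.1 : ℕ) : ℤ)) (j - G.pos gi.1 - ((n + 1 : ℕ) : ℤ)) : ℕ∞) := by
    intro gi
    have h1 := len_col S hb (hu gi.1) (j - G.pos gi.1 - ((n + 1 : ℕ) : ℤ))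
    rw [sub_add_cancel] at h1
    exact (len_restrict _ _).trans h1
  rw [sum_congr rfl fun gi _ => h gi, Fintype.sum_prod_type]
  push_cast
  rw [mul_sum]
  refine sum_congr rfl fun g _ => ?_
  rw [sum_const, card_univ, Fintype.card_fin, nsmul_eq_mul]

end Src

section Module

variable {M : Type u} [AddCommGroup M] [Module (Rz B (n + 1)) M] [Module B M]
  [IsScalarTower B (Rz B (n + 1)) M]

/-- The cycles of one graded piece. -/
abbrev grC (G : FreeCx B) (S : SliceCx B c) (M : Type u) [AddCommGroup M]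
    [Module (Rz B (n + 1)) M] [Module B M] [IsScalarTower B (Rz B (n + 1)) M]
    (K L b : ℕ) (u j : ℤ) : Submodule B (TI G S.F → M) :=
  ((tot G S.F b).diff M B).cycles (fT G M S.deg K L b u) (fT G M S.deg K L b (u + 1)) j

/-- The boundaries of one graded piece. -/
abbrev grB (G : FreeCx B) (S : SliceCx B c) (M : Type u) [AddCommGroup M]
    [Module (Rz B (n + 1)) M] [Module B M] [IsScalarTower B (Rz B (n + 1)) M]
    (K L b : ℕ) (u j : ℤ) : Submodule B (TI G S.F → M) :=
  ((tot G S.F b).diff M B).bdries (fT G M S.deg K L b u) (fT G M S.deg K L b (u + 1)) j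

theorem chainPair_gr {nn : ℕ} (hK : 1 ≤ K) (hLK : L + 1 ≤ K) (hG : G.EntriesIn (maximalIdeal B))
    (θ : (Fin nn → Rz B (n + 1)) →ₗ[Rz B (n + 1)] M) (b : ℕ) (u : ℤ) :
    ChainPair ((tot G S.F b).diff (Fin nn → Rz B (n + 1)) B) ((tot G S.F b).diff M B)
      ((tot G S.F b).coef B θ) (srcLvl (tot G S.F b) K nn fun l => u - off S.deg L b l)
      (srcLvl₀ (tot G S.F b) K nn fun l => u - off S.deg L b l)
      (fT G M S.deg K L b u) (fT G M S.deg K L b (u + 1)) := by
  have h := chainPair_src (F := tot G S.F b) (T := fun l => u - off S.deg L b l) hK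
    (fun l q _ => tot_mat_srcX S.homog hLK hG b u l q) θ
  rw [show fT G M S.deg K L b (u + 1) = lvlF B (d := n + 1) M K
    fun l : TI G S.F => u - off S.deg L b l + 1 by
      unfold fT; congr 1; funext l; ring]
  exact h

theorem chainPair_tau (hLK : L ≤ K) (hG : G.EntriesIn (maximalIdeal B)) {b b' : ℕ} (hbb : b ≤ b')
    (u : ℤ) :
    ChainPair ((tot G S.F b).diff M B) ((tot G S.F b').diff M B) (tau G S.F M b b')
      (fT G M S.deg K L b u) (fT G M S.deg K L b (u + 1))
      (fT G M S.deg K L b' u) (fT G M S.deg K L b' (u + 1)) where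
  comm := tau_comm hbb
  deg := tau_deg b b'
  mapX _ h := tau_mem_fT hbb h
  mapY _ h := tau_mem_fT hbb h
  stable := fT_stable S.homog hLK hG b u
  stable' := fT_stable S.homog hLK hG b' (u + 1)

theorem coef_tau {nn : ℕ} (θ : (Fin nn → Rz B (n + 1)) →ₗ[Rz B (n + 1)] M) (b b' : ℕ)
    (a : TI G S.F → Fin nn → Rz B (n + 1)) :
    (tot G S.F b').coef B θ (tau G S.F (Fin nn → Rz B (n + 1)) b b' a) =
      tau G S.F M b b' ((tot G S.F b).coef B θ a) := by
  funext l
  show θ (tauScalar B b b' l.2.2 • a l) = tauScalar B b b' l.2.2 • θ (a l)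
  exact map_smul θ _ _

/-- The lengths of the graded pieces, and the transition on them. -/
theorem exists_gr_bound [IsNoetherianRing B] (hLK : L + 1 ≤ K)
    (hG : G.EntriesIn (maximalIdeal B)) (Q v : ℕ) (hv : 1 ≤ v) (x : Fin (n + 1) → B) :
    ∃ C : ℕ, ∀ (M : Type u) [AddCommGroup M] [Module (Rz B (n + 1)) M] [Module B M]
      [IsScalarTower B (Rz B (n + 1)) M] (D₁ E : ℕ), AlmostFree B M x Q K v D₁ E →
      ∃ nn : ℕ, nn ≤ D₁ + C * E ∧ D₁ ≤ nn + C * E ∧
        (∀ (b : ℕ) (u j : ℤ), S.B₀ ≤ b → (∀ l : TI G S.F, u - off S.deg L b l < v) →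
          (∀ g, -(b : ℤ) + S.B₀ ≤ u - ((L * G.pos g : ℕ) : ℤ)) →
          len (grB G S M K L b u j) (grC G S M K L b u j) ≤
            ((nn * (∑ g : G.ι, sliceDim c (u - ((L * G.pos g : ℕ) : ℤ))
              (j - G.pos g - ((n + 1 : ℕ) : ℤ))) + C * E : ℕ) : ℕ∞) ∧
          ((nn * (∑ g : G.ι, sliceDim c (u - ((L * G.pos g : ℕ) : ℤ))
              (j - G.pos g - ((n + 1 : ℕ) : ℤ))) : ℕ) : ℕ∞) ≤
            len (grB G S M K L b u j) (grC G S M K L b u j) + ((C * E : ℕ) : ℕ∞)) ∧
        (∀ (b b' : ℕ) (u j : ℤ), S.B₀ ≤ b → b ≤ b' → (∀ l : TI G S.F, u - off S.deg L b l < v) →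
          (∀ l : TI G S.F, u - off S.deg L b' l < v) →
          (∀ g, -(b : ℤ) + S.B₀ ≤ u - ((L * G.pos g : ℕ) : ℤ)) →
          len (grB G S M K L b u j)
              (grC G S M K L b u j ⊓ (grB G S M K L b' u j).comap (tau G S.F M b b')) ≤
            ((C * E : ℕ) : ℕ∞) ∧
          len (grB G S M K L b' u j ⊔ (grC G S M K L b u j).map (tau G S.F M b b'))
              (grC G S M K L b' u j) ≤ ((C * E : ℕ) : ℕ∞)) := by
  have hK : 1 ≤ K := by omega
  obtain ⟨C₀, hC₀⟩ := exists_cmp (B := B) (n + 1) Q K v hK hv x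
  refine ⟨4 * (Fintype.card (TI G S.F) * C₀) + C₀ + 1, fun M _ _ _ _ D₁ E hAF => ?_⟩
  obtain ⟨nn, θ, -, hn1, hn2, hθ⟩ := hC₀ M D₁ E hAF
  set N := Fintype.card (TI G S.F) with hN
  set C := 4 * (N * C₀) + C₀ + 1 with hC
  have hCE : C₀ * E ≤ C * E := Nat.mul_le_mul_right E (by omega)
  have hE : E ≤ C * E := Nat.le_mul_of_pos_left E (by omega)
  refine ⟨nn, by omega, by omega, ?_⟩
  have hbound : ∀ (b : ℕ) (u : ℤ), (∀ l : TI G S.F, u - off S.deg L b l < v) → ∀ p : ℤ,
      ChainPair.coker ((tot G S.F b).diff (Fin nn → Rz B (n + 1)) B) ((tot G S.F b).diff M B)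
          ((tot G S.F b).coef B θ) (srcLvl (tot G S.F b) K nn fun l => u - off S.deg L b l)
          (fT G M S.deg K L b u) (fT G M S.deg K L b (u + 1)) p ≤ ((N * (C₀ * E) : ℕ) : ℕ∞) ∧
        ChainPair.kern ((tot G S.F b).diff (Fin nn → Rz B (n + 1)) B)
          ((tot G S.F b).coef B θ) (srcLvl (tot G S.F b) K nn fun l => u - off S.deg L b l)
          (srcLvl₀ (tot G S.F b) K nn fun l => u - off S.deg L b l)
          (fT G M S.deg K L b (u + 1)) p ≤ ((N * (C₀ * E) : ℕ) : ℕ∞) := by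
    intro b u hu p
    rw [show fT G M S.deg K L b (u + 1) = lvlF B (d := n + 1) M K
      fun l : TI G S.F => u - off S.deg L b l + 1 by unfold fT; congr 1; funext l; ring,
      Nat.cast_mul]
    exact ⟨coker_src_le (F := tot G S.F b) θ (fun l => u - off S.deg L b l) p _
        fun l _ => (hθ _ (hu l)).1,
      kern_src_le (F := tot G S.F b) θ (fun l => u - off S.deg L b l) p _
        fun l _ => (hθ _ (hu l)).2⟩
  have h2 : ∀ X Y : ℕ∞, X ≤ ((N * (C₀ * E) : ℕ) : ℕ∞) → Y ≤ ((N * (C₀ * E) : ℕ) : ℕ∞) →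
      X + Y ≤ ((2 * (N * C₀) * E : ℕ) : ℕ∞) := fun X Y hX hY => by
    refine (add_le_add hX hY).trans (le_of_eq ?_)
    push_cast
    ring
  have hsmall : 2 * (N * C₀) * E ≤ C * E := Nat.mul_le_mul_right E (by omega)
  have hsmall' : 2 * (N * C₀) * E + 2 * (N * C₀) * E ≤ C * E := by
    rw [← add_mul]
    exact Nat.mul_le_mul_right E (by omega)
  constructor
  · intro b u j hb hu hg
    have hp := chainPair_gr S hK hLK hG θ b u
    have hsrc := len_src_slices (nn := nn) S hLK hG hb hg j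
    refine ⟨?_, ?_⟩
    · refine (hp.len_target_le (j - 1) j (by ring)).trans ?_
      refine (add_le_add (le_of_eq hsrc) (h2 _ _ (hbound b u hu j).1
        (hbound b u hu (j - 1)).2)).trans ?_
      rw [← Nat.cast_add, Nat.cast_le]
      omega
    · rw [← hsrc]
      refine (hp.len_source_le j (j + 1) rfl).trans (add_le_add le_rfl ?_)
      exact (h2 _ _ (hbound b u hu j).2 (hbound b u hu (j + 1)).1).trans (Nat.cast_le.2 hsmall)
  · intro b b' u j hb hbb hu hu' hg
    have hp := chainPair_gr S hK hLK hG θ b u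
    have hp' := chainPair_gr S hK hLK hG θ b' u
    have hτ := chainPair_tau (M := M) S (by omega : L ≤ K) hG hbb u
    obtain ⟨hiso1, hiso2⟩ := src_tau_iso (nn := nn) S hLK hG hb hbb hg j
    set φ := (tot G S.F b).coef B θ
    set φ' := (tot G S.F b').coef B θ
    set τs := tau G S.F (Fin nn → Rz B (n + 1)) b b'
    set τ := tau G S.F M b b'
    set Bd := grB G S M K L b u j
    set Cy := grC G S M K L b u j
    set Bd' := grB G S M K L b' u j
    set Cy' := grC G S M K L b' u j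
    set Cs := srcC G S.F S.deg K L b nn u j
    set Cs' := srcC G S.F S.deg K L b' nn u j
    have hc : ∀ a, φ' (τs a) = τ (φ a) := coef_tau S θ b b'
    have hτB : ∀ z ∈ Bd, τ z ∈ Bd' := fun z hz => hτ.map_bdries j ⟨z, hz, rfl⟩
    constructor
    · set Ns := Cs ⊓ (Bd'.comap φ').comap τs
      refine (len_le_add_map LinearMap.id Bd _ (Bd ⊔ Cs.map φ)).trans ?_
      rw [Submodule.map_id, Submodule.comap_id]
      refine (add_le_add ((len_mono (N' := Ns.map φ ⊔ Bd) ?_).trans
        (le_of_eq (len_sup_left _ _ le_rfl))) (len_mono inf_le_left)).trans ?_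
      · rintro z ⟨⟨-, hz'⟩, hz⟩
        obtain ⟨w, hw, _, ⟨y, hy, rfl⟩, rfl⟩ := Submodule.mem_sup.1 hz
        rw [add_comm w (φ y)]
        refine Submodule.add_mem_sup ⟨y, ⟨hy, ?_⟩, rfl⟩ hw
        show φ' (τs y) ∈ Bd'
        rw [hc]
        have hz'' : τ (w + φ y) ∈ Bd' := hz'
        rw [map_add] at hz''
        simpa using Bd'.sub_mem hz'' (hτB w hw)
      refine (add_le_add (?_ : len Bd (Ns.map φ) ≤ ((2 * (N * C₀) * E : ℕ) : ℕ∞))
        ((hp.coker_H_le (j - 1) j (by ring)).trans (h2 _ _ (hbound b u hu j).1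
          (hbound b u hu (j - 1)).2))).trans ?_
      · refine (len_map_le φ (P := srcB G S.F S.deg K L b nn u j)
          fun a _ ha => hp.map_bdries j ⟨a, ha, rfl⟩).trans ?_
        refine (len_le_add_map τs _ _ (srcB G S.F S.deg K L b' nn u j)).trans ?_
        rw [len_eq_zero (le_trans (inf_le_inf_right _ inf_le_left) hiso1), zero_add]
        refine le_trans (len_mono ?_)
          ((hp'.ker_H_le j (j + 1) rfl).trans (h2 _ _ (hbound b' u hu' j).2
            (hbound b' u hu' (j + 1)).1))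
        rintro _ ⟨y, ⟨hy, hy'⟩, rfl⟩
        obtain ⟨h1, h2, h3⟩ := (Diff.mem_cycles _).1 hy
        refine ⟨(Diff.mem_cycles _).2 ⟨tau_mem_srcLvl S hbb u h1, tau_deg b b' j y h2, ?_⟩, hy'⟩
        rw [← tau_comm hbb]
        refine mem_srcLvl₀.2 fun l i => ?_
        have := (mem_srcLvl₀.1 h3) l i
        have hdeg : tauScalar B b b' l.2.2 ∈
            srcX B (n + 1) K (((b' - b) * l.2.2.card : ℕ) : ℤ) := by
          refine mem_srcX_of_homInt ?_
          rw [homInt, if_pos (Int.natCast_nonneg _), Int.toNat_natCast,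
            MvPolynomial.mem_homogeneousSubmodule, tauScalar, mul_comm, ← smul_eq_mul,
            ← Finset.sum_const]
          exact IsHomogeneous.prod _ _ _ fun a _ => isHomogeneous_X_pow a _
        have h4 := mul_mem_srcY hdeg this
        rw [show (((b' - b) * l.2.2.card : ℕ) : ℤ) + (u - off S.deg L b l) =
          u - off S.deg L b' l by
            simp only [off, zKosLev]; push_cast [Nat.cast_sub hbb]; ring] at h4
        exact h4
      · rw [← Nat.cast_add]
        exact Nat.cast_le.2 hsmall'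
    · refine (len_triangle _ (Bd' ⊔ Cs'.map φ') _).trans ?_
      rw [len_eq_zero (P := Bd' ⊔ Cy.map τ) (N := Bd' ⊔ Cs'.map φ'), zero_add]
      · exact (hp'.coker_H_le (j - 1) j (by ring)).trans
          ((h2 _ _ (hbound b' u hu' j).1 (hbound b' u hu' (j - 1)).2).trans (Nat.cast_le.2 hsmall))
      · refine sup_le le_sup_left ?_
        rintro _ ⟨a, ha, rfl⟩
        obtain ⟨w, hw, _, ⟨y, hy, rfl⟩, rfl⟩ := Submodule.mem_sup.1 (hiso2 ha)
        rw [map_add, hc]
        exact Submodule.add_mem_sup (hp'.map_bdries j ⟨w, hw, rfl⟩)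
          ⟨φ y, hp.map_cycles j ⟨y, hy, rfl⟩, rfl⟩

end Module

end Vale.Agent.P202.Mixed.Window
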