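import Vale.Agent.P202.Mixed.Defs

/-!
# P202 mixed characteristic, the window: numerics

For the shifts `c_q`, the multiples `(m + 1) L` with `m ≠ q`, the signed window sums telescope,
summed over `q`, to the leading term `(n + 1)! L ^ (n + 1)` of the position zero.
-/

noncomputable section

namespace Vale.Agent.P202.Mixed.Window

open Finset

variable {n : ℕ}

/-- The shifts omitting `q`. -/
def shifts (L : ℕ) (q : Fin (n + 1)) : Fin n → ℤ :=
  fun a => (((q.succAbove a : Fin (n + 1)) : ℕ) + 1 : ℤ) * L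

/-- The polynomial of the shifts. -/
def polyP (c : Fin n → ℤ) (t : ℤ) : ℤ := ∏ a, (t + c a)

/-- The sections, as a function on all degrees. -/
def sect (c : Fin n → ℤ) (t : ℤ) : ℤ := if ∀ a, 0 ≤ t + c a then polyP c t else 0

theorem polyP_nonneg {c : Fin n → ℤ} {t : ℤ} (h : ∀ a, 0 ≤ t + c a) : 0 ≤ polyP c t :=
  prod_nonneg fun a _ => h a

theorem sectionDim_zero (c : Fin n → ℤ) (t : ℤ) : (sectionDim c t 0 : ℤ) = sect c t := by
  unfold sectionDim sect
  by_cases h : ∀ a, 0 ≤ t + c a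
  · rw [if_pos ⟨rfl, h⟩, if_pos h, ← polyP, Int.natAbs_of_nonneg (polyP_nonneg h)]
  · rw [if_neg fun h' => h h'.2, if_neg h, Nat.cast_zero]

theorem sectionDim_ne (c : Fin n → ℤ) (t : ℤ) {j : ℤ} (hj : j ≠ 0) : sectionDim c t j = 0 :=
  if_neg fun h => hj h.1

theorem sum_sliceDim (c : Fin n → ℤ) (t : ℤ) (S : Finset ℤ)
    (hS : ∀ p : ℕ, p ≤ n → -((p : ℤ) + 1) ∈ S) :
    ∑ j ∈ S, (j.negOnePow : ℤ) * (sliceDim c t j : ℤ) = sect c t - polyP c t := by
  classical
  set p := (univ.filter fun a => t + c a < 0).card with hp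
  have hpn : p ≤ n := (card_le_univ _).trans_eq (Fintype.card_fin n)
  rw [sum_eq_single (-((p : ℤ) + 1))]
  · by_cases h0 : ∀ a, 0 ≤ t + c a
    · have hp0 : p = 0 := by
        rw [hp, card_eq_zero, filter_eq_empty_iff]
        exact fun a _ => not_lt.2 (h0 a)
      rw [sect, if_pos h0, sub_self, sliceDim, if_neg (fun h => by omega), Nat.cast_zero, mul_zero]
    · rw [sect, if_neg h0, zero_sub]
      have hp1 : 1 ≤ p := by
        rw [hp, Nat.one_le_iff_ne_zero, ne_eq, card_eq_zero, filter_eq_empty_iff]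
        intro h
        exact h0 fun a => not_lt.1 (h (mem_univ a))
      by_cases hz : ∀ a, t + c a ≠ 0
      · rw [sliceDim, if_pos ⟨hz, hp1, rfl⟩, Int.natCast_natAbs]
        have key : polyP c t = (-1) ^ p * |polyP c t| := by
          rw [polyP, hp, abs_prod, ← prod_const, prod_filter, ← prod_mul_distrib]
          refine prod_congr rfl fun a _ => ?_
          by_cases ha : t + c a < 0
          · rw [if_pos ha, abs_of_neg ha]; ring
          · rw [if_neg ha, abs_of_nonneg (not_lt.1 ha), one_mul]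
        have hsign : (((-((p : ℤ) + 1)).negOnePow : ℤˣ) : ℤ) = -(-1) ^ p := by
          rw [Int.negOnePow_neg, Int.negOnePow_succ, Units.val_neg, Int.coe_negOnePow_natCast]
        rw [hsign, ← polyP]
        linear_combination key
      · obtain ⟨a, ha⟩ := not_forall.1 hz
        rw [sliceDim, if_neg fun h => hz h.1, Nat.cast_zero, mul_zero, polyP,
          prod_eq_zero (mem_univ a) (not_not.1 ha), neg_zero]
  · intro j _ hj
    rw [sliceDim, if_neg (fun h => hj (by rw [hp]; exact h.2.2)), Nat.cast_zero, mul_zero]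
  · intro h
    exact absurd (hS p hpn) h

variable {L : ℕ} {q : Fin (n + 1)}

theorem le_shifts (a : Fin n) : (L : ℤ) ≤ shifts L q a := by
  have h0 : (0 : ℤ) ≤ ((q.succAbove a : Fin (n + 1)) : ℕ) := Int.natCast_nonneg _
  unfold shifts
  nlinarith [Int.natCast_nonneg L]

theorem shifts_le (a : Fin n) : shifts L q a ≤ ((n + 1 : ℕ) : ℤ) * L := by
  have h := (q.succAbove a).2
  unfold shifts
  refine mul_le_mul_of_nonneg_right ?_ (Int.natCast_nonneg L)
  omega

/-- A nonzero slice forces the degree below zero. -/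
theorem sliceDim_nonneg_eq_zero (hL : 1 ≤ L) {t : ℤ} (ht : 0 ≤ t) (j : ℤ) :
    sliceDim (shifts L q) t j = 0 := by
  refine if_neg fun h => ?_
  obtain ⟨a, ha⟩ := card_pos.1 (show 0 < _ from h.2.1)
  have := le_shifts (L := L) (q := q) a
  simp only [mem_filter, mem_univ, true_and] at ha
  omega

/-- On positive levels the slices live in nonnegative total degree. -/
theorem sliceDim_high {i : ℕ} {u j : ℤ} (hu : 1 ≤ u)
    (h : sliceDim (shifts L q) (u - ((L * i : ℕ) : ℤ)) j ≠ 0) : 0 ≤ (i : ℤ) + j := by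
  classical
  unfold sliceDim at h
  split_ifs at h with hc
  · obtain ⟨-, hp1, rfl⟩ := hc
    have hle : ((univ.filter fun a => u - ((L * i : ℕ) : ℤ) + shifts L q a < 0).image
        fun a => ((q.succAbove a : Fin (n + 1)) : ℕ)) ⊆ range (i - 1) := by
      intro m hm
      obtain ⟨a, ha, rfl⟩ := mem_image.1 hm
      replace ha := (mem_filter.1 ha).2
      simp only [shifts] at ha
      rw [mem_range]
      by_contra hc
      have h1 : (i : ℤ) ≤ ((q.succAbove a : Fin (n + 1)) : ℕ) + 1 := by omega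
      have := mul_le_mul_of_nonneg_right h1 (Int.natCast_nonneg L)
      push_cast at ha
      linarith [mul_comm (L : ℤ) (i : ℤ)]
    have hinj : Function.Injective fun a => ((q.succAbove a : Fin (n + 1)) : ℕ) :=
      Fin.val_injective.comp Fin.succAbove_right_injective
    have hcard := card_le_card hle
    rw [card_image_of_injective _ hinj, card_range] at hcard
    omega
  · exact absurd rfl h

/-- On nonpositive levels the slices live in nonpositive total degree. -/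
theorem sliceDim_low {i : ℕ} (hi : i ≤ n + 1) {u j : ℤ} (hu : u ≤ 0)
    (h : sliceDim (shifts L q) (u - ((L * i : ℕ) : ℤ)) j ≠ 0) : (i : ℤ) + j ≤ 0 := by
  classical
  unfold sliceDim at h
  split_ifs at h with hc
  · obtain ⟨hz, hp1, rfl⟩ := hc
    have hle : ((range i).erase (q : ℕ)) ⊆
        (univ.filter fun a => u - ((L * i : ℕ) : ℤ) + shifts L q a < 0).image
          fun a => ((q.succAbove a : Fin (n + 1)) : ℕ) := by
      intro m hm
      obtain ⟨hmq, hmi⟩ := mem_erase.1 hm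
      rw [mem_range] at hmi
      obtain ⟨a, ha⟩ := Fin.exists_succAbove_eq (x := (⟨m, by omega⟩ : Fin (n + 1))) (y := q)
        fun e => hmq (by rw [← e])
      refine mem_image.2 ⟨a, ?_, by rw [ha]⟩
      simp only [mem_filter, mem_univ, true_and]
      refine lt_of_le_of_ne ?_ (hz a)
      simp only [shifts, ha]
      have := mul_le_mul_of_nonneg_right (show (m : ℤ) + 1 ≤ i by omega) (Int.natCast_nonneg L)
      push_cast
      linarith [mul_comm (L : ℤ) (i : ℤ)]
    have hcard := (card_le_card hle).trans card_image_le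
    have := pred_card_le_card_erase (a := (q : ℕ)) (s := range i)
    rw [card_range] at this
    omega
  · exact absurd rfl h

theorem sect_eq_polyP {t : ℤ} (ht : 0 ≤ t) : sect (shifts L q) t = polyP (shifts L q) t :=
  if_pos fun a => by
    have := le_shifts (L := L) (q := q) a
    omega

theorem sect_eq_zero (hn : 1 ≤ n) {t : ℤ} (ht : t ≤ -((2 * L : ℕ) : ℤ)) :
    sect (shifts L q) t = 0 := by
  have h1 : shifts L q ⟨0, by omega⟩ ≤ ((2 * L : ℕ) : ℤ) := by
    have : ((q.succAbove (⟨0, by omega⟩ : Fin n) : Fin (n + 1)) : ℕ) ≤ 1 := by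
      unfold Fin.succAbove
      split_ifs <;> simp
    unfold shifts
    push_cast
    refine mul_le_mul_of_nonneg_right ?_ (Int.natCast_nonneg L)
    omega
  by_cases h : ∀ a, 0 ≤ t + shifts L q a
  · rw [sect, if_pos h, polyP]
    exact prod_eq_zero (mem_univ ⟨0, by omega⟩) (by have := h ⟨0, by omega⟩; omega)
  · rw [sect, if_neg h]

/-- The sum of the sections up to a degree. -/
def sectSum (c : Fin n → ℤ) (L : ℕ) (a : ℤ) : ℤ := ∑ t ∈ Ioc (-((2 * L : ℕ) : ℤ)) a, sect c t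

theorem sum_Icc_shift (f : ℤ → ℤ) (a : ℤ) (W : ℕ) :
    ∑ u ∈ Icc (1 : ℤ) W, f (u + a) = ∑ t ∈ Ioc a ((W : ℤ) + a), f t := by
  refine sum_nbij' (· + a) (· - a) ?_ ?_ ?_ ?_ ?_ <;> intro x hx <;> simp at hx ⊢ <;> omega

/-- One position: the window sum with the base moved to degree zero. -/
theorem window_pos (hn : 1 ≤ n) (i W : ℕ) (hW : L * i ≤ W) :
    ∑ u ∈ Icc (1 : ℤ) W, (sect (shifts L q) (u - ((L * i : ℕ) : ℤ)) -
        polyP (shifts L q) (u - ((L * i : ℕ) : ℤ))) +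
      sectSum (shifts L q) L (-((L * i : ℕ) : ℤ)) =
    sectSum (shifts L q) L 0 -
      ∑ t ∈ Ioc (-((L * i : ℕ) : ℤ)) 0, polyP (shifts L q) t := by
  set a : ℤ := -((L * i : ℕ) : ℤ) with ha
  have h1 := sum_Icc_shift (fun t => sect (shifts L q) t - polyP (shifts L q) t) a W
  simp only [ha, ← sub_eq_add_neg] at h1
  rw [h1, ← ha]
  have h2 : ∑ t ∈ Ioc a ((W : ℤ) - ((L * i : ℕ) : ℤ)),
      (sect (shifts L q) t - polyP (shifts L q) t) =
      ∑ t ∈ Ioc a 0, (sect (shifts L q) t - polyP (shifts L q) t) := by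
    refine (sum_subset ?_ ?_).symm
    · exact Ioc_subset_Ioc le_rfl (by omega)
    · intro t ht ht'
      simp only [mem_Ioc, not_and, not_le] at ht ht'
      rw [sect_eq_polyP (ht' ht.1).le, sub_self]
  rw [h2, sum_sub_distrib, sectSum, sectSum]
  suffices H : ∑ t ∈ Ioc a 0, sect (shifts L q) t + ∑ t ∈ Ioc (-((2 * L : ℕ) : ℤ)) a,
      sect (shifts L q) t = ∑ t ∈ Ioc (-((2 * L : ℕ) : ℤ)) 0, sect (shifts L q) t by
    linarith
  rcases le_or_gt (-((2 * L : ℕ) : ℤ)) a with h | h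
  · rw [add_comm, ← sum_union (Ioc_disjoint_Ioc_of_le le_rfl), Ioc_union_Ioc_eq_Ioc h (by omega)]
  · rw [Ioc_eq_empty (not_lt.2 h.le), sum_empty, add_zero]
    refine (sum_subset (Ioc_subset_Ioc h.le le_rfl) ?_).symm
    intro t ht ht'
    simp only [mem_Ioc, not_and, not_le] at ht ht'
    exact sect_eq_zero hn (not_lt.1 fun hlt => absurd ht.2 (not_le.2 (ht' hlt)))

theorem abs_prod_le {m : ℕ} (x : Fin m → ℤ) (M : ℤ) (h : ∀ i, |x i| ≤ M) :
    |∏ i, x i| ≤ M ^ m := by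
  rw [abs_prod]
  refine (prod_le_prod (fun i _ => abs_nonneg _) fun i _ => h i).trans_eq ?_
  rw [prod_const, card_univ, Fintype.card_fin]

/-- The difference of a product under a unit step, against the first derivative. -/
theorem prod_step (M : ℤ) : ∀ (m : ℕ) (x : Fin (m + 1) → ℤ), (∀ i, |x i| + 1 ≤ M) →
    M ^ 2 * |∏ i, (x i + 1) - ∏ i, x i - ∑ q : Fin (m + 1), ∏ a, (x (q.succAbove a) + 1)| ≤
      ((m : ℤ) + 1) ^ 2 * M ^ (m + 1) := by
  intro m
  induction m with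
  | zero =>
    intro x h
    have hM : 0 ≤ M := le_trans (by positivity) (h 0)
    simp [hM]
  | succ m ih =>
    intro x h
    have hM : 0 ≤ M := le_trans (by positivity) (h 0)
    have h' := ih (fun i => x i.succ) fun i => h i.succ
    set Y := ∏ i : Fin (m + 1), (x i.succ + 1)
    set X := ∏ i : Fin (m + 1), x i.succ
    set S := ∑ q : Fin (m + 1), ∏ a, (x (q.succAbove a).succ + 1)
    have e : ∏ i, (x i + 1) - ∏ i, x i - ∑ q : Fin (m + 1 + 1), ∏ a, (x (q.succAbove a) + 1) =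
        x 0 * (Y - X - S) - S := by
      have hq : ∀ q : Fin (m + 1), ∏ a, (x (q.succ.succAbove a) + 1) =
          (x 0 + 1) * ∏ a, (x (q.succAbove a).succ + 1) := fun q => by
        simp [Fin.prod_univ_succ]
      rw [Fin.prod_univ_succ (fun i => x i + 1), Fin.prod_univ_succ x, Fin.sum_univ_succ]
      simp only [hq, Fin.succAbove_zero, ← mul_sum]
      ring
    have hS : |S| ≤ ((m : ℤ) + 1) * M ^ m := by
      refine (abs_sum_le_sum_abs _ _).trans ((sum_le_card_nsmul _ _ (M ^ m) fun q _ => ?_).trans ?_)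
      · exact abs_prod_le _ M fun i => (abs_add_le _ _).trans (by simpa using h _)
      · simp
    have hx0 : |x 0| ≤ M := by linarith [h 0]
    rw [e]
    push_cast
    calc M ^ 2 * |x 0 * (Y - X - S) - S|
        ≤ M ^ 2 * (|x 0| * |Y - X - S| + |S|) := by
          refine mul_le_mul_of_nonneg_left ?_ (by positivity)
          rw [← abs_mul]
          exact abs_sub _ _
      _ ≤ M * (M ^ 2 * |Y - X - S|) + M ^ 2 * |S| := by
          nlinarith [mul_le_mul_of_nonneg_right hx0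
            (mul_nonneg (sq_nonneg M) (abs_nonneg (Y - X - S)))]
      _ ≤ M * (((m : ℤ) + 1) ^ 2 * M ^ (m + 1)) + M ^ 2 * (((m : ℤ) + 1) * M ^ m) := by
          gcongr
      _ ≤ ((m : ℤ) + 1 + 1) ^ 2 * M ^ (m + 1 + 1) := by
          rw [pow_succ' M (m + 1), pow_succ' M m, ← sub_nonneg]
          have : (0 : ℤ) ≤ ((m : ℤ) + 2) * (M * (M * M ^ m)) := by positivity
          nlinarith

/-- The product of all shifted degrees. -/
def fullP (n L : ℕ) (t : ℤ) : ℤ := ∏ m : Fin (n + 1), (t + ((m : ℕ) + 1 : ℤ) * L)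

theorem fullP_zero (n L : ℕ) : fullP n L 0 = ((n + 1).factorial : ℤ) * (L : ℤ) ^ (n + 1) := by
  simp only [fullP, zero_add, prod_mul_distrib, prod_const, card_univ, Fintype.card_fin]
  congr 1
  rw [Fin.prod_univ_eq_prod_range (fun a => ((a : ℤ) + 1)) (n + 1),
    ← prod_range_add_one_eq_factorial, Nat.cast_prod]
  exact prod_congr rfl fun a _ => by push_cast; ring

theorem fullP_root {i : ℕ} (h1 : 1 ≤ i) (h2 : i ≤ n + 1) :
    fullP n L (-((L * i : ℕ) : ℤ)) = 0 := by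
  refine prod_eq_zero (mem_univ (⟨i - 1, by omega⟩ : Fin (n + 1))) ?_
  simp only [Nat.cast_sub h1]
  push_cast
  ring

theorem sum_telescope (f : ℤ → ℤ) (N : ℕ) :
    ∑ t ∈ Ioc (-(N : ℤ)) 0, (f t - f (t - 1)) = f 0 - f (-(N : ℤ)) := by
  induction N with
  | zero => simp
  | succ N ih =>
    have : Ioc (-((N + 1 : ℕ) : ℤ)) 0 = insert (-(N : ℤ)) (Ioc (-(N : ℤ)) 0) := by
      ext t; simp only [mem_insert, mem_Ioc]; omega
    rw [this, sum_insert (by simp), ih]
    rw [show -(N : ℤ) - 1 = -((N + 1 : ℕ) : ℤ) by push_cast; ring]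
    ring

/-- The constant of the numerics. -/
def numC (n : ℕ) : ℕ := (n + 1) ^ 2 * (3 * (n + 1)) ^ n

/-- The sum over `q` of the polynomials telescopes. -/
theorem sum_polyP (hL : 1 ≤ L) {i : ℕ} (h1 : 1 ≤ i) (h2 : i ≤ n + 1) :
    |∑ q : Fin (n + 1), ∑ t ∈ Ioc (-((L * i : ℕ) : ℤ)) 0, polyP (shifts L q) t -
        ((n + 1).factorial : ℤ) * (L : ℤ) ^ (n + 1)| ≤ (numC n : ℤ) * (L : ℤ) ^ n := by
  set M : ℤ := 3 * ((n : ℤ) + 1) * L with hM
  have hLi : ((L * i : ℕ) : ℤ) ≤ ((n : ℤ) + 1) * L := by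
    push_cast
    rw [mul_comm]
    exact mul_le_mul_of_nonneg_right (by exact_mod_cast h2) (Int.natCast_nonneg L)
  have hpoint : ∀ t ∈ Ioc (-((L * i : ℕ) : ℤ)) 0,
      M ^ 2 * |∑ q : Fin (n + 1), polyP (shifts L q) t - (fullP n L t - fullP n L (t - 1))| ≤
        ((n : ℤ) + 1) ^ 2 * M ^ (n + 1) := by
    intro t ht
    rw [mem_Ioc] at ht
    have hx : ∀ m : Fin (n + 1), |t - 1 + ((m : ℕ) + 1 : ℤ) * L| + 1 ≤ M := by
      intro m
      have hm : ((m : ℕ) + 1 : ℤ) * L ≤ ((n : ℤ) + 1) * L :=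
        mul_le_mul_of_nonneg_right (by have := m.2; omega) (Int.natCast_nonneg L)
      have hm0 : (0 : ℤ) ≤ ((m : ℕ) + 1 : ℤ) * L := by positivity
      have hn1 : (1 : ℤ) * 1 ≤ ((n : ℤ) + 1) * L :=
        mul_le_mul (by omega) (by exact_mod_cast hL) zero_le_one (by positivity)
      have habs : |t - 1 + ((m : ℕ) + 1 : ℤ) * L| ≤ M - 1 := abs_le.2 ⟨by linarith, by linarith⟩
      linarith
    have := prod_step M n _ hx
    rw [abs_sub_comm]
    convert this using 3
    simp only [fullP, polyP, shifts]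
    have e : ∀ z : ℤ, t - 1 + z + 1 = t + z := fun z => by ring
    simp only [e]
  have hM0 : 0 < M := by positivity
  refine le_of_mul_le_mul_left ?_ (pow_pos hM0 2)
  rw [sum_comm, ← fullP_zero n L,
    show fullP n L 0 = fullP n L 0 - fullP n L (-((L * i : ℕ) : ℤ)) by rw [fullP_root h1 h2]; ring,
    ← sum_telescope, ← sum_sub_distrib]
  calc M ^ 2 * |∑ t ∈ Ioc (-((L * i : ℕ) : ℤ)) 0, (∑ q : Fin (n + 1), polyP (shifts L q) t -
          (fullP n L t - fullP n L (t - 1)))|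
      ≤ M ^ 2 * ∑ t ∈ Ioc (-((L * i : ℕ) : ℤ)) 0, |∑ q : Fin (n + 1), polyP (shifts L q) t -
          (fullP n L t - fullP n L (t - 1))| :=
        mul_le_mul_of_nonneg_left (abs_sum_le_sum_abs _ _) (by positivity)
    _ ≤ ∑ t ∈ Ioc (-((L * i : ℕ) : ℤ)) 0, ((n : ℤ) + 1) ^ 2 * M ^ (n + 1) := by
        rw [mul_sum]
        exact sum_le_sum hpoint
    _ = ((L * i : ℕ) : ℤ) * (((n : ℤ) + 1) ^ 2 * M ^ (n + 1)) := by
        rw [sum_const, Int.card_Ioc, nsmul_eq_mul]
        congr 1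
        rw [show (0 : ℤ) - -((L * i : ℕ) : ℤ) = ((L * i : ℕ) : ℤ) by ring, Int.toNat_natCast]
    _ ≤ M * (((n : ℤ) + 1) ^ 2 * M ^ (n + 1)) := by
        refine mul_le_mul_of_nonneg_right ?_ (by positivity)
        have : (0 : ℤ) ≤ ((n : ℤ) + 1) * L := by positivity
        linarith
    _ = M ^ 2 * ((numC n : ℤ) * (L : ℤ) ^ n) := by
        rw [hM, numC, pow_succ _ n, mul_pow _ (L : ℤ) n]
        push_cast
        ring

/-- The window total of the shifts omitting `q`, for ranks `r`. -/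
def winTotal (L : ℕ) (q : Fin (n + 1)) (r : ℕ → ℕ) (W : ℕ) : ℤ :=
  ∑ i ∈ range (n + 2), (-1) ^ i * (r i : ℤ) *
      ∑ u ∈ Icc (1 : ℤ) W, (sect (shifts L q) (u - ((L * i : ℕ) : ℤ)) -
        polyP (shifts L q) (u - ((L * i : ℕ) : ℤ))) +
    ((r 0 : ℤ) * sectSum (shifts L q) L 0 - (r 1 : ℤ) * sectSum (shifts L q) L (-(L : ℤ)))

theorem winTotal_eq (hn : 1 ≤ n) (r : ℕ → ℕ) (W : ℕ) (hW : L * (n + 1) ≤ W)
    (he : ∑ i ∈ range (n + 2), (-1 : ℤ) ^ i * (r i : ℤ) = 0) :
    winTotal L q r W = -∑ i ∈ range (n + 2), (-1 : ℤ) ^ i * (r i : ℤ) *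
      ∑ t ∈ Ioc (-((L * i : ℕ) : ℤ)) 0, polyP (shifts L q) t := by
  have hlast : (r 0 : ℤ) * sectSum (shifts L q) L 0 - (r 1 : ℤ) * sectSum (shifts L q) L (-(L : ℤ))
      = ∑ i ∈ range (n + 2), (-1 : ℤ) ^ i * (r i : ℤ) *
          sectSum (shifts L q) L (-((L * i : ℕ) : ℤ)) := by
    rw [← sum_range_add_sum_Ico _ (show 2 ≤ n + 2 by omega),
      sum_eq_zero (s := Ico 2 (n + 2)) fun i hi => ?_, add_zero, sum_range_succ, sum_range_one]
    · simp [sub_eq_add_neg]
    · have h2 : 2 * L ≤ L * i := by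
        rw [mul_comm 2 L]; exact Nat.mul_le_mul_left L (mem_Ico.1 hi).1
      rw [sectSum, Ioc_eq_empty (by omega), sum_empty, mul_zero]
  rw [winTotal, hlast, ← sum_add_distrib]
  calc _ = ∑ i ∈ range (n + 2), ((-1 : ℤ) ^ i * (r i : ℤ) * sectSum (shifts L q) L 0 -
        (-1 : ℤ) ^ i * (r i : ℤ) * ∑ t ∈ Ioc (-((L * i : ℕ) : ℤ)) 0, polyP (shifts L q) t) := by
        refine sum_congr rfl fun i hi => ?_
        rw [← mul_add, window_pos hn i W ((Nat.mul_le_mul_left L
          (Nat.le_of_lt_succ (mem_range.1 hi))).trans hW), mul_sub]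
    _ = _ := by rw [sum_sub_distrib, ← sum_mul, he, zero_mul, zero_sub]

/-- THE NUMERICS of the window. -/
theorem sum_winTotal_ge (hn : 1 ≤ n) (hL : 1 ≤ L) (r : ℕ → ℕ) (W : ℕ) (hW : L * (n + 1) ≤ W)
    (he : ∑ i ∈ range (n + 2), (-1 : ℤ) ^ i * (r i : ℤ) = 0) :
    ((n + 1).factorial : ℤ) * (r 0 : ℤ) * (L : ℤ) ^ (n + 1) -
        ((∑ i ∈ range (n + 2), r i) * numC n : ℕ) * (L : ℤ) ^ n ≤
      ∑ q : Fin (n + 1), winTotal L q r W := by
  set F : ℤ := ((n + 1).factorial : ℤ) * (L : ℤ) ^ (n + 1) with hF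
  set A : ℕ → ℤ := fun i => ∑ q : Fin (n + 1),
    ∑ t ∈ Ioc (-((L * i : ℕ) : ℤ)) 0, polyP (shifts L q) t with hA
  have e : ∑ q : Fin (n + 1), winTotal L q r W =
      -∑ i ∈ range (n + 2), (-1 : ℤ) ^ i * (r i : ℤ) * A i := by
    simp only [winTotal_eq hn r W hW he, sum_neg_distrib, hA, mul_sum]
    rw [sum_comm]
  have h0 : A 0 = 0 := by simp [hA]
  have hbound : ∀ i ∈ range (n + 1), |A (i + 1) - F| ≤ (numC n : ℤ) * (L : ℤ) ^ n := fun i hi =>
    sum_polyP hL (Nat.le_add_left 1 i) (mem_range.1 hi)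
  rw [e, sum_range_succ' (fun i => (-1 : ℤ) ^ i * (r i : ℤ) * A i), h0, mul_zero, add_zero]
  rw [sum_range_succ', pow_zero, one_mul] at he
  have herr : ∑ i ∈ range (n + 1), (-1 : ℤ) ^ (i + 1) * (r (i + 1) : ℤ) * (A (i + 1) - F) ≤
      ((∑ i ∈ range (n + 2), r i) * numC n : ℕ) * (L : ℤ) ^ n := by
    rw [sum_range_succ' (fun i => r i)]
    push_cast
    rw [add_mul, add_mul, mul_assoc, mul_assoc, sum_mul]
    have : (0 : ℤ) ≤ (r 0 : ℤ) * ((numC n : ℤ) * (L : ℤ) ^ n) := by positivity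
    refine le_trans (sum_le_sum fun i hi => ?_) (le_add_of_nonneg_right this)
    refine (le_abs_self _).trans ?_
    rw [abs_mul, abs_mul, abs_pow, abs_neg, abs_one, one_pow, one_mul, Nat.abs_cast]
    exact mul_le_mul_of_nonneg_left (hbound i hi) (Int.natCast_nonneg _)
  have hsplit : ∑ i ∈ range (n + 1), (-1 : ℤ) ^ (i + 1) * (r (i + 1) : ℤ) * A (i + 1) =
      ∑ i ∈ range (n + 1), (-1 : ℤ) ^ (i + 1) * (r (i + 1) : ℤ) * (A (i + 1) - F) +
        (-(r 0 : ℤ)) * F := by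
    rw [show -(r 0 : ℤ) = ∑ i ∈ range (n + 1), (-1 : ℤ) ^ (i + 1) * (r (i + 1) : ℤ) by linarith,
      sum_mul, ← sum_add_distrib]
    exact sum_congr rfl fun i _ => by ring
  rw [hsplit, show ((n + 1).factorial : ℤ) * (r 0 : ℤ) * (L : ℤ) ^ (n + 1) = (r 0 : ℤ) * F by
    rw [hF]; ring]
  linarith

end Vale.Agent.P202.Mixed.Window
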