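import Vale.Agent.P202.Mixed.Window.Gr
import Vale.Agent.P202.Mixed.Window.Num

/-!
# P202 mixed characteristic, the window: ranges of levels

Homology, kernels of transitions and Euler characteristics of the total complex between two
levels, from the graded pieces.
-/

noncomputable section

namespace Vale.Agent.P202.Mixed.Window

open IsLocalRing Finset

universe u

variable {B : Type u} [CommRing B] [IsLocalRing B] {n : ℕ} {c : Fin n → ℤ} {G : FreeCx B}
  {M : Type u} [AddCommGroup M] [Module (Rz B (n + 1)) M] [Module B M]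
  [IsScalarTower B (Rz B (n + 1)) M]

/-- The expected Betti number of a graded piece, per generator. -/
def sig (G : FreeCx B) (c : Fin n → ℤ) (L : ℕ) (u P : ℤ) : ℕ :=
  ∑ g : G.ι, sliceDim c (u - ((L * G.pos g : ℕ) : ℤ)) (P - G.pos g - ((n + 1 : ℕ) : ℤ))

/-- The levels of one total complex are in the range of the comparisons. -/
structure InRange (G : FreeCx B) (S : SliceCx B c) (L v b : ℕ) (lo hi : ℤ) : Prop where
  base : S.B₀ ≤ b
  below : ∀ l : TI G S.F, hi - off S.deg L b l ≤ v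
  above : ∀ g : G.ι, -(b : ℤ) + S.B₀ ≤ lo - ((L * G.pos g : ℕ) : ℤ)

theorem InRange.mono {S : SliceCx B c} {L v b : ℕ} {lo hi lo' hi' : ℤ}
    (h : InRange G S L v b lo hi) (h1 : lo ≤ lo') (h2 : hi' ≤ hi) :
    InRange G S L v b lo' hi' where
  base := h.base
  below l := by have := h.below l; omega
  above g := by have := h.above g; omega

/-- The comparisons of the graded pieces, for one module. -/
structure GrHyp (G : FreeCx B) (S : SliceCx B c) (M : Type u) [AddCommGroup M]
    [Module (Rz B (n + 1)) M] [Module B M] [IsScalarTower B (Rz B (n + 1)) M]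
    (K L v nn : ℕ) (η : ℤ) : Prop where
  upper : ∀ (b : ℕ) (u P : ℤ), InRange G S L v b u (u + 1) →
    hl ((tot G S.F b).diff M B) (fT G M S.deg K L b u) (fT G M S.deg K L b (u + 1)) P ≤
      (nn : ℤ) * sig G c L u P + η
  lower : ∀ (b : ℕ) (u P : ℤ), InRange G S L v b u (u + 1) →
    (nn : ℤ) * sig G c L u P ≤
      hl ((tot G S.F b).diff M B) (fT G M S.deg K L b u) (fT G M S.deg K L b (u + 1)) P + η
  ker : ∀ (b b' : ℕ) (u P : ℤ), b ≤ b' → InRange G S L v b u (u + 1) →
    InRange G S L v b' u (u + 1) →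
    kl ((tot G S.F b).diff M B) ((tot G S.F b').diff M B) (tau G S.F M b b')
      (fT G M S.deg K L b u) (fT G M S.deg K L b (u + 1))
      (fT G M S.deg K L b' u) (fT G M S.deg K L b' (u + 1)) P ≤ η
  coker : ∀ (b b' : ℕ) (u P : ℤ), b ≤ b' → InRange G S L v b u (u + 1) →
    InRange G S L v b' u (u + 1) →
    ckl ((tot G S.F b).diff M B) ((tot G S.F b').diff M B) (tau G S.F M b b')
      (fT G M S.deg K L b u) (fT G M S.deg K L b (u + 1))
      (fT G M S.deg K L b' u) (fT G M S.deg K L b' (u + 1)) P ≤ η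

theorem exists_grHyp [IsNoetherianRing B] (S : SliceCx B c) {K L : ℕ} (hLK : L + 1 ≤ K)
    (hG : G.EntriesIn (maximalIdeal B)) (Q v : ℕ) (hv : 1 ≤ v) (x : Fin (n + 1) → B) :
    ∃ C : ℕ, ∀ (M : Type u) [AddCommGroup M] [Module (Rz B (n + 1)) M] [Module B M]
      [IsScalarTower B (Rz B (n + 1)) M] (D₁ E : ℕ), AlmostFree B M x Q K v D₁ E →
      ∃ nn : ℕ, nn ≤ D₁ + C * E ∧ D₁ ≤ nn + C * E ∧
        GrHyp G S M K L v nn ((C * E : ℕ) : ℤ) := by
  obtain ⟨C, hC⟩ := exists_gr_bound S hLK hG Q v hv x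
  refine ⟨C, fun M _ _ _ _ D₁ E hAF => ?_⟩
  obtain ⟨nn, h1, h2, h3, h4⟩ := hC M D₁ E hAF
  have hM : Module.length B (TI G S.F → M) ≠ ⊤ := by
    rw [Module.length_pi_of_fintype]
    exact WithTop.sum_ne_top.2 fun _ _ => hAF.finite
  refine ⟨nn, h1, h2, fun b u P hr => ?_, fun b u P hr => ?_, fun b b' u P hbb hr hr' => ?_,
    fun b b' u P hbb hr hr' => ?_⟩
  · have h := (h3 b u P hr.base (fun l => by have := hr.below l; omega) hr.above).1
    have := ln_le_of_len_le h
    rw [Nat.cast_add, Nat.cast_mul] at this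
    exact this
  · have h := (h3 b u P hr.base (fun l => by have := hr.below l; omega) hr.above).2
    rw [← coe_ln hM, ← Nat.cast_add, Nat.cast_le] at h
    show ((nn : ℤ) * ((sig G c L u P : ℕ) : ℤ)) ≤
      ((len (grB G S M K L b u P) (grC G S M K L b u P)).toNat : ℤ) + ((C * E : ℕ) : ℤ)
    exact_mod_cast h
  · exact ln_le_of_len_le (h4 b b' u P hr.base hbb (fun l => by have := hr.below l; omega)
      (fun l => by have := hr'.below l; omega) hr.above).1
  · exact ln_le_of_len_le (h4 b b' u P hr.base hbb (fun l => by have := hr.below l; omega)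
      (fun l => by have := hr'.below l; omega) hr.above).2

section Vanish

variable {L : ℕ} {q : Fin (n + 1)}

theorem sig_eq_zero_high (hGd : G.LengthLE (n + 1)) (hL : 1 ≤ L) {u : ℤ}
    (hu : ((L * (n + 1) : ℕ) : ℤ) ≤ u) (P : ℤ) : sig G (shifts L q) L u P = 0 :=
  sum_eq_zero fun g _ => sliceDim_nonneg_eq_zero hL (by
    have := Nat.mul_le_mul_left L (hGd g)
    omega) _

theorem sig_eq_zero_pos {u P : ℤ} (hu : 1 ≤ u) (hP : P < ((n + 1 : ℕ) : ℤ)) :
    sig G (shifts L q) L u P = 0 := by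
  refine sum_eq_zero fun g _ => ?_
  by_contra h
  have := sliceDim_high hu h
  omega

theorem sig_eq_zero_neg (hGd : G.LengthLE (n + 1)) {u P : ℤ} (hu : u ≤ 0)
    (hP : ((n + 1 : ℕ) : ℤ) < P) : sig G (shifts L q) L u P = 0 := by
  refine sum_eq_zero fun g _ => ?_
  by_contra h
  have := sliceDim_low (hGd g) hu h
  omega

end Vanish

variable {S : SliceCx B c} {K L v nn : ℕ} {η : ℤ}

theorem hl_self (b : ℕ) (u P : ℤ) :
    hl ((tot G S.F b).diff M B) (fT G M S.deg K L b u) (fT G M S.deg K L b u) P = 0 :=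
  ln_eq_zero fun x hx => by
    obtain ⟨h1, h2, -⟩ := (Diff.mem_cycles _).1 hx
    exact (Diff.mem_bdries _).2 ⟨0, ⟨Submodule.zero_mem _, Submodule.zero_mem _⟩, x, ⟨h1, h2⟩,
      by rw [map_zero, zero_add]⟩

variable (hM : Module.length B (TI G S.F → M) ≠ ⊤) (h : GrHyp G S M K L v nn η)

include hM h

theorem hl_range_le {b : ℕ} {P : ℤ} : ∀ (N : ℕ) (a : ℤ), InRange G S L v b a (a + N) →
    (∀ u, a ≤ u → u < a + N → sig G c L u P = 0) →
    hl ((tot G S.F b).diff M B) (fT G M S.deg K L b a) (fT G M S.deg K L b (a + N)) P ≤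
      (N : ℤ) * η := by
  intro N
  induction N with
  | zero =>
    intro a _ _
    rw [Nat.cast_zero, add_zero, zero_mul, hl_self]
  | succ N ih =>
    intro a hr hs
    have e : a + ((N + 1 : ℕ) : ℤ) = a + 1 + N := by push_cast; ring
    rw [e]
    refine (hl_le _ hM (fT_antitone b (by omega)) (fT_antitone b (by omega : a ≤ a + 1)) P).trans ?_
    have h1 := ih (a + 1) (hr.mono (by omega) (by omega)) fun u hu hu' => hs u (by omega) (by omega)
    have h2 := h.upper b a P (hr.mono le_rfl (by push_cast; omega))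
    rw [hs a le_rfl (by omega)] at h2
    push_cast at h1 h2 ⊢
    rw [add_mul, one_mul]
    linarith

theorem kl_range_le {b b' : ℕ} (hbb : b ≤ b') {P : ℤ} : ∀ (N : ℕ) (a : ℤ),
    InRange G S L v b a (a + N) → InRange G S L v b' a (a + N) →
    kl ((tot G S.F b).diff M B) ((tot G S.F b').diff M B) (tau G S.F M b b')
      (fT G M S.deg K L b a) (fT G M S.deg K L b (a + N))
      (fT G M S.deg K L b' a) (fT G M S.deg K L b' (a + N)) P ≤ 2 * (N : ℤ) * η := by
  intro N
  induction N with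
  | zero =>
    intro a _ _
    rw [Nat.cast_zero, add_zero, mul_zero, zero_mul]
    refine le_of_eq (ln_eq_zero fun x hx => ?_)
    obtain ⟨h1, h2, -⟩ := (Diff.mem_cycles _).1 hx.1
    exact (Diff.mem_bdries _).2 ⟨0, ⟨Submodule.zero_mem _, Submodule.zero_mem _⟩, x, ⟨h1, h2⟩,
      by rw [map_zero, zero_add]⟩
  | succ N ih =>
    intro a hr hr'
    have e : a + ((N + 1 : ℕ) : ℤ) = a + 1 + N := by push_cast; ring
    rw [e]
    refine (kl_le hM hM (tau_comm hbb) (tau_deg b b') (fT_antitone b (by omega))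
      (fT_antitone b (by omega : a ≤ a + 1)) (fT_antitone b' (by omega))
      (fun x hx => tau_mem_fT hbb hx) (fun x hx => tau_mem_fT hbb hx) P).trans ?_
    have r1 : InRange G S L v b a (a + 1) := hr.mono le_rfl (by push_cast; omega)
    have r1' : InRange G S L v b' a (a + 1) := hr'.mono le_rfl (by push_cast; omega)
    have h1 := h.ker b b' a P hbb r1 r1'
    have h2 := h.coker b b' a (P + 1) hbb r1 r1'
    have h3 := ih (a + 1) (hr.mono (by omega) (by omega)) (hr'.mono (by omega) (by omega))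
    push_cast at h3 ⊢
    linarith

end Vale.Agent.P202.Mixed.Window

namespace Vale.Agent.P202.Mixed.Window

open IsLocalRing Finset

universe v'

variable {B : Type v'} [CommRing B] [IsLocalRing B] {n : ℕ} {c : Fin n → ℤ} {G : FreeCx B}
  {M : Type v'} [AddCommGroup M] [Module (Rz B (n + 1)) M] [Module B M]
  [IsScalarTower B (Rz B (n + 1)) M] {S : SliceCx B c} {K L : ℕ}

/-- A bound for the positions of the total complexes. -/
def topPos (G : FreeCx B) (F : FreeCx (Rz B (n + 1))) : ℕ :=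
  univ.sup fun l : TI G F => G.pos l.1 + (F.pos l.2.1 + (n + 1 - l.2.2.card))

theorem deg_eq_bot (b : ℕ) {P : ℤ} (hP : P < 0 ∨ (topPos G S.F : ℤ) < P) :
    ((tot G S.F b).diff M B).deg P = ⊥ := by
  refine eq_bot_iff.2 fun x hx => (Submodule.mem_bot _).2 (funext fun l => hx l ?_)
  have h : G.pos l.1 + (S.F.pos l.2.1 + (n + 1 - l.2.2.card)) ≤ topPos G S.F :=
    Finset.le_sup (f := fun l : TI G S.F => G.pos l.1 + (S.F.pos l.2.1 + (n + 1 - l.2.2.card)))
      (mem_univ l)
  show ((G.pos l.1 + (S.F.pos l.2.1 + (n + 1 - l.2.2.card)) : ℕ) : ℤ) ≠ P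
  omega

/-- The Euler characteristic between two levels. -/
def chiR (G : FreeCx B) (S : SliceCx B c) (M : Type v') [AddCommGroup M]
    [Module (Rz B (n + 1)) M] [Module B M] [IsScalarTower B (Rz B (n + 1)) M]
    (K L b : ℕ) (lo hi : ℤ) : ℤ :=
  ∑ P ∈ range (topPos G S.F + 1), (-1 : ℤ) ^ P *
    hl ((tot G S.F b).diff M B) (fT G M S.deg K L b lo) (fT G M S.deg K L b hi) (P : ℤ)

variable (hM : Module.length B (TI G S.F → M) ≠ ⊤) (hLK : L ≤ K)
  (hG : G.EntriesIn (maximalIdeal B))

include hM hLK hG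

theorem chiR_eq (b : ℕ) {lo hi : ℤ} (h : lo ≤ hi) :
    chiR G S M K L b lo hi = ∑ P ∈ range (topPos G S.F + 1), (-1 : ℤ) ^ P *
      ln (fT G M S.deg K L b hi ⊓ ((tot G S.F b).diff M B).deg (P : ℤ))
        (fT G M S.deg K L b lo ⊓ ((tot G S.F b).diff M B).deg (P : ℤ)) := by
  refine euler _ hM (fT_stable S.homog hLK hG b lo) (fT_stable S.homog hLK hG b hi)
    (fT_antitone b h) _ ?_ ?_
  · rw [deg_eq_bot b (Or.inl (by omega)), inf_bot_eq]; exact bot_le
  · rw [deg_eq_bot b (Or.inr (by omega)), inf_bot_eq]; exact bot_le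

theorem chiR_range (b : ℕ) : ∀ (N : ℕ) (a : ℤ), chiR G S M K L b a (a + N) =
    ∑ i ∈ range N, chiR G S M K L b (a + i) (a + i + 1) := by
  intro N
  induction N with
  | zero =>
    intro a
    rw [sum_range_zero, Nat.cast_zero, add_zero, chiR]
    exact sum_eq_zero fun P _ => by rw [hl_self, mul_zero]
  | succ N ih =>
    intro a
    rw [sum_range_succ, ← ih a, chiR_eq hM hLK hG b (by omega), chiR_eq hM hLK hG b (by omega),
      chiR_eq hM hLK hG b (by omega), ← sum_add_distrib]
    refine sum_congr rfl fun P _ => ?_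
    rw [← mul_add, show a + ((N + 1 : ℕ) : ℤ) = a + N + 1 by push_cast; ring,
      ln_add hM (inf_le_inf_right _ (fT_antitone b (by omega : a + (N : ℤ) ≤ a + N + 1)))
        (inf_le_inf_right _ (fT_antitone b (by omega : a ≤ a + (N : ℤ))))]
    ring

end Vale.Agent.P202.Mixed.Window
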