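import Vale.Agent.P202.Mixed.Window.Tot
import Vale.Agent.P202.Mixed.Window.Hom
import Vale.Agent.P202.Mixed.Levels.Lead

/-!
# P202 mixed characteristic, the window: graded pieces on free modules

On a free module the leading parts split each graded piece of the total complex into slice
complexes over the residue field, one for every basis vector of `G` and of the free module.
-/

noncomputable section

namespace Vale.Agent.P202.Mixed.Window

open IsLocalRing MvPolynomial Finset

universe u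

section General

variable {A : Type*} [CommRing A] {V : Type*} [AddCommGroup V] [Module A V]

theorem len_eq_sum {ι : Type*} [Fintype ι] {W : ι → Type*} [∀ g, AddCommGroup (W g)]
    [∀ g, Module A (W g)] (φ : ∀ g, V →ₗ[A] W g) {P N : Submodule A V}
    (P₀ N₀ : ∀ g, Submodule A (W g)) (hN : ∀ x ∈ N, ∀ g, φ g x ∈ N₀ g)
    (hP : ∀ x ∈ N, x ∈ P ↔ ∀ g, φ g x ∈ P₀ g)
    (hsurj : ∀ y : ∀ g, W g, (∀ g, y g ∈ N₀ g) → ∃ x ∈ N, ∀ g, φ g x = y g) :
    len P N = ∑ g, len (P₀ g) (N₀ g) := by
  simp only [len_eq_quot]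
  let f : N →ₗ[A] (∀ g, (↥(N₀ g) ⧸ (P₀ g).comap (N₀ g).subtype)) := LinearMap.pi fun g =>
    ((P₀ g).comap (N₀ g).subtype).mkQ ∘ₗ
      (φ g ∘ₗ N.subtype).codRestrict (N₀ g) fun x => hN x x.2 g
  have hk : LinearMap.ker f = P.comap N.subtype := by
    ext x
    rw [LinearMap.mem_ker, funext_iff, Submodule.mem_comap]
    refine Iff.trans ?_ (hP x x.2).symm
    exact forall_congr' fun g => Submodule.Quotient.mk_eq_zero _
  have hs : Function.Surjective f := by
    intro y
    choose z hz using fun g => Submodule.Quotient.mk_surjective _ (y g)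
    obtain ⟨x, hx, hxy⟩ := hsurj (fun g => (z g : W g)) fun g => (z g).2
    refine ⟨⟨x, hx⟩, funext fun g => ?_⟩
    rw [← hz g]
    exact congrArg Submodule.Quotient.mk (Subtype.ext (hxy g))
  rw [← Module.length_pi_of_fintype, ← hk]
  exact (f.quotKerEquivOfSurjective hs).length_eq

end General

variable {B : Type u} [CommRing B] [IsLocalRing B] {d : ℕ} {G : FreeCx B} {F : FreeCx (Rz B d)}
  {deg : F.ι → ℤ} {K L : ℕ}

/-- The index set of one column. -/
abbrev CI (F : FreeCx (Rz B d)) : Type := F.ι × Finset (Fin d)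

/-- The degrees of the basis of one column. -/
def cdeg (deg : F.ι → ℤ) (b : ℕ) (q : CI F) : ℤ := deg q.1 + zKosLev b q.2

theorem off_eq (b : ℕ) (g : G.ι) (q : CI F) :
    off deg L b ((g, q) : TI G F) = ((L * G.pos g : ℕ) : ℤ) + cdeg deg b q := add_assoc _ _ _

/-- The matrix of one column. -/
def colMat (F : FreeCx (Rz B d)) (b : ℕ) (p q : CI F) : Rz B d :=
  (if p.2 = q.2 then F.mat p.1 q.1 else 0) + (if p.1 = q.1 then (-1 : Rz B d) ^ F.pos p.1 *
    kosMat (fun a => (X a : Rz B d) ^ b) p.2 q.2 else 0)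

/-- One column over the residue field. -/
@[reducible] def colK (F : FreeCx (Rz B d)) (b : ℕ) :
    FreeCx (MvPolynomial (Fin d) (ResidueField B)) where
  ι := CI F
  fin := inferInstance
  dec := inferInstance
  pos q := F.pos q.1 + (d - q.2.card)
  mat := Matrix.of fun p q => polyResidue B d (colMat F b p q)
  mat_pos := ((F.tensor (zKos B d b)).map (polyResidue B d)).mat_pos
  sq := ((F.tensor (zKos B d b)).map (polyResidue B d)).sq

/-- The differential module of one column. -/
abbrev colDiff (F : FreeCx (Rz B d)) (b : ℕ) :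
    Diff (ResidueField B) (CI F → MvPolynomial (Fin d) (ResidueField B)) :=
  (colK F b).diff (MvPolynomial (Fin d) (ResidueField B)) (ResidueField B)

theorem tot_mat_eq (b : ℕ) (g h : G.ι) (p q : CI F) :
    (tot G F b).mat (g, p) (h, q) = (if p = q then MvPolynomial.C (G.mat g h) else 0) +
      (if g = h then (-1 : Rz B d) ^ G.pos g * colMat F b p q else 0) := rfl

variable (hhom : ∀ h g, F.mat h g ∈ homInt B d (deg g - deg h))

include hhom in
theorem colMat_mem (b : ℕ) (p q : CI F) :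
    colMat F b p q ∈ homInt B d (cdeg deg b q - cdeg deg b p) := by
  obtain ⟨f, S⟩ := p
  obtain ⟨f', S'⟩ := q
  refine add_mem ?_ ?_
  · by_cases hS : S = S'
    · subst hS
      rw [if_pos rfl, show cdeg deg b ((f', S) : CI F) - cdeg deg b ((f, S) : CI F) =
        deg f' - deg f by simp only [cdeg]; ring]
      exact hhom f f'
    · rw [if_neg hS]
      exact Submodule.zero_mem _
  · by_cases hf : f = f'
    · subst hf
      rw [if_pos rfl, show ((-1 : Rz B d) ^ F.pos f) = MvPolynomial.C ((-1 : B) ^ F.pos f) by simp,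
        C_mul']
      refine Submodule.smul_mem _ _ ?_
      rw [kosMat, Matrix.of_apply]
      refine Submodule.sum_mem _ fun a ha => zsmul_mem ?_ _
      obtain ⟨haS, rfl⟩ := (mem_filter.1 ha).2
      have h : cdeg deg b ((f, S') : CI F) - cdeg deg b ((f, insert a S') : CI F) = (b : ℤ) := by
        simp only [cdeg, zKosLev, card_insert_of_notMem haS]
        push_cast
        ring
      rw [h, X_pow_eq_monomial]
      have := monomial_mem_homInt (A := B) (Finsupp.single a b) 1
      rwa [Finsupp.degree_single] at this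
    · rw [if_neg hf]
      exact Submodule.zero_mem _

theorem gPart_mem (hLK : L + 1 ≤ K) (hG : G.EntriesIn (maximalIdeal B)) (b : ℕ) (g h : G.ι)
    (p q : CI F) : (if p = q then (MvPolynomial.C (G.mat g h) : Rz B d) else 0) ∈
      wIdeal B d K (off deg L b ((h, q) : TI G F) - off deg L b ((g, p) : TI G F) + 1) := by
  by_cases hp : p = q
  · subst hp
    rw [if_pos rfl]
    by_cases h0 : G.mat g h = 0
    · rw [h0, map_zero]
      exact Submodule.zero_mem _
    · refine C_mem_wIdeal (hG g h) ?_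
      rw [off_eq, off_eq, G.mat_pos g h h0, Nat.mul_succ]
      push_cast
      omega
  · rw [if_neg hp]
    exact Submodule.zero_mem _

include hhom in
theorem dPart_mem (b : ℕ) (g h : G.ι) (p q : CI F) :
    (if g = h then (-1 : Rz B d) ^ G.pos g * colMat F b p q else 0) ∈
      homInt B d (off deg L b ((h, q) : TI G F) - off deg L b ((g, p) : TI G F)) := by
  by_cases hg : g = h
  · subst hg
    rw [if_pos rfl, show ((-1 : Rz B d) ^ G.pos g) = MvPolynomial.C ((-1 : B) ^ G.pos g) by simp,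
      C_mul', off_eq, off_eq, add_sub_add_left_eq_sub]
    exact Submodule.smul_mem _ _ (colMat_mem hhom b p q)
  · rw [if_neg hg]
    exact Submodule.zero_mem _

include hhom in
theorem tot_mat_srcX (hLK : L + 1 ≤ K) (hG : G.EntriesIn (maximalIdeal B)) (b : ℕ) (u : ℤ)
    (l q : TI G F) :
    (tot G F b).mat l q ∈ srcX B d K ((u - off deg L b l) - (u - off deg L b q)) := by
  obtain ⟨g, p⟩ := l
  obtain ⟨h, q⟩ := q
  rw [sub_sub_sub_cancel_left, tot_mat_eq, add_comm]
  exact Submodule.add_mem_sup (dPart_mem hhom b g h p q) (gPart_mem hLK hG b g h p q)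

include hhom in
theorem lead_tot (hLK : L + 1 ≤ K) (hG : G.EntriesIn (maximalIdeal B)) (b : ℕ) (g h : G.ι)
    (p q : CI F) :
    lead B d (off deg L b ((h, q) : TI G F) - off deg L b ((g, p) : TI G F))
        ((tot G F b).mat (g, p) (h, q)) =
      if g = h then (-1 : MvPolynomial (Fin d) (ResidueField B)) ^ G.pos g *
        polyResidue B d (colMat F b p q) else 0 := by
  rw [tot_mat_eq, map_add, lead_eq_zero_of_mem_wIdeal (gPart_mem hLK hG b g h p q), zero_add,
    lead_apply, comp_eq_self (dPart_mem hhom b g h p q)]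
  by_cases hg : g = h
  · rw [if_pos hg, if_pos hg, map_mul, map_pow, map_neg, map_one]
  · rw [if_neg hg, if_neg hg, map_zero]

variable {nn : ℕ}

variable (G F) in
/-- The leading part of one coordinate in one column. -/
def leadCol (deg : F.ι → ℤ) (L b : ℕ) (u : ℤ) (gi : G.ι × Fin nn) :
    (TI G F → Fin nn → Rz B d) →ₗ[B] (CI F → MvPolynomial (Fin d) (ResidueField B)) :=
  LinearMap.pi fun p => lead B d (u - off deg L b ((gi.1, p) : TI G F)) ∘ₗ
    LinearMap.proj gi.2 ∘ₗ LinearMap.proj ((gi.1, p) : TI G F)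

theorem leadCol_apply (b : ℕ) (u : ℤ) (gi : G.ι × Fin nn) (a : TI G F → Fin nn → Rz B d)
    (p : CI F) :
    leadCol G F deg L b u gi a p =
      lead B d (u - off deg L b ((gi.1, p) : TI G F)) (a (gi.1, p) gi.2) := rfl

include hhom in
theorem leadCol_d (hLK : L + 1 ≤ K) (hG : G.EntriesIn (maximalIdeal B)) (b : ℕ) (u : ℤ)
    (gi : G.ι × Fin nn) {a : TI G F → Fin nn → Rz B d}
    (ha : a ∈ srcLvl (tot G F b) K nn fun l => u - off deg L b l) :
    leadCol G F deg L b u gi ((tot G F b).dA (Fin nn → Rz B d) a) =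
      ((-1 : ℤ) ^ G.pos gi.1) • (colK F b).dA (MvPolynomial (Fin d) (ResidueField B))
        (leadCol G F deg L b u gi a) := by
  obtain ⟨g, i⟩ := gi
  funext p
  rw [leadCol_apply, dA_src_apply, map_sum, Pi.smul_apply, FreeCx.dA_apply, smul_sum]
  have key : ∀ (h : G.ι) (q : CI F),
      lead B d (u - off deg L b ((g, p) : TI G F)) ((tot G F b).mat (g, p) (h, q) * a (h, q) i) =
        (if g = h then (-1 : MvPolynomial (Fin d) (ResidueField B)) ^ G.pos g *
          polyResidue B d (colMat F b p q) else 0) *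
          lead B d (u - off deg L b ((h, q) : TI G F)) (a (h, q) i) := by
    intro h q
    have h1 := lead_mul (tot_mat_srcX hhom hLK hG b u ((g, p) : TI G F) ((h, q) : TI G F))
      (mem_srcLvl.1 ha ((h, q) : TI G F) i)
    rw [sub_add_cancel, sub_sub_sub_cancel_left, lead_tot hhom hLK hG] at h1
    exact h1
  refine ((sum_congr rfl fun l _ => key l.1 l.2).trans (Fintype.sum_prod_type _)).trans ?_
  rw [Fintype.sum_eq_single g fun h hh => by simp [Ne.symm hh]]
  refine sum_congr rfl fun q _ => ?_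
  rw [if_pos rfl, leadCol_apply]
  show (-1 : MvPolynomial (Fin d) (ResidueField B)) ^ G.pos g * polyResidue B d (colMat F b p q) *
      lead B d (u - off deg L b ((g, q) : TI G F)) (a (g, q) i) =
    ((-1 : ℤ) ^ G.pos g) • (polyResidue B d (colMat F b p q) *
      lead B d (u - off deg L b ((g, q) : TI G F)) (a (g, q) i))
  rw [zsmul_eq_mul, mul_assoc]
  push_cast
  rfl

theorem leadCol_mem_degPiece (b : ℕ) (u : ℤ) (gi : G.ι × Fin nn) (a : TI G F → Fin nn → Rz B d) :
    leadCol G F deg L b u gi a ∈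
      degPiece (ResidueField B) (cdeg deg b) (u - ((L * G.pos gi.1 : ℕ) : ℤ)) := by
  rw [degPiece, Submodule.mem_pi]
  intro p _
  rw [leadCol_apply, off_eq, sub_add_eq_sub_sub, mem_homInt]
  intro α hα
  rw [coeff_lead] at hα
  by_contra h
  exact hα (if_neg h)

theorem exists_lift {e : ℤ} {p : MvPolynomial (Fin d) (ResidueField B)}
    (hp : p ∈ homInt (ResidueField B) d e) :
    ∃ P : Rz B d, P ∈ srcX B d K e ∧ lead B d e P = p := by
  obtain ⟨P, hP⟩ := MvPolynomial.map_surjective (σ := Fin d) (IsLocalRing.residue B)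
    residue_surjective p
  refine ⟨compInt B d e P, mem_srcX_of_homInt (comp_mem_homInt e P), ?_⟩
  rw [lead_apply, comp_eq_self (comp_mem_homInt e P)]
  ext α
  rw [polyResidue, coeff_map, coeff_comp]
  by_cases h : (α.degree : ℤ) = e
  · rw [if_pos h, ← coeff_map, hP]
  · rw [if_neg h, map_zero]
    by_contra h0
    exact h (mem_homInt.1 hp α (Ne.symm h0))

theorem exists_family_lift (b : ℕ) (u j : ℤ)
    (y : G.ι × Fin nn → CI F → MvPolynomial (Fin d) (ResidueField B))
    (hy : ∀ gi, y gi ∈ degPiece (ResidueField B) (cdeg deg b) (u - ((L * G.pos gi.1 : ℕ) : ℤ)))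
    (hdeg : ∀ gi, y gi ∈ (colDiff F b).deg (j - G.pos gi.1)) :
    ∃ a ∈ srcLvl (tot G F b) K nn (fun l => u - off deg L b l),
      a ∈ ((tot G F b).diff (Fin nn → Rz B d) B).deg j ∧
        ∀ gi, leadCol G F deg L b u gi a = y gi := by
  classical
  have h : ∀ (g : G.ι) (p : CI F) (i : Fin nn), ∃ P : Rz B d,
      P ∈ srcX B d K (u - off deg L b ((g, p) : TI G F)) ∧
        lead B d (u - off deg L b ((g, p) : TI G F)) P = y (g, i) p ∧
        (((tot G F b).pos (g, p) : ℤ) ≠ j → P = 0) := by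
    intro g p i
    by_cases hj : (((tot G F b).pos (g, p) : ℕ) : ℤ) = j
    · have h1 : y (g, i) p ∈ homInt (ResidueField B) d (u - off deg L b ((g, p) : TI G F)) := by
        rw [off_eq, sub_add_eq_sub_sub]
        exact (Submodule.mem_pi.1 (hy (g, i))) p (Set.mem_univ _)
      obtain ⟨P, hP1, hP2⟩ := exists_lift (K := K) h1
      exact ⟨P, hP1, hP2, fun h => absurd hj h⟩
    · refine ⟨0, Submodule.zero_mem _, ?_, fun _ => rfl⟩
      rw [map_zero, hdeg (g, i) p ?_]
      simp only [tot] at hj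
      push_cast at hj ⊢
      omega
  choose P hP1 hP2 hP3 using h
  refine ⟨fun l i => P l.1 l.2 i, mem_srcLvl.2 fun l i => hP1 l.1 l.2 i,
    fun l hl => funext fun i => hP3 l.1 l.2 i hl, fun gi => funext fun p => ?_⟩
  rw [leadCol_apply]
  exact hP2 gi.1 p gi.2

include hhom in
theorem dA_mem_srcLvl_tot (hLK : L + 1 ≤ K) (hG : G.EntriesIn (maximalIdeal B)) (b : ℕ) (u : ℤ)
    {a : TI G F → Fin nn → Rz B d}
    (ha : a ∈ srcLvl (tot G F b) K nn fun l => u - off deg L b l) :
    (tot G F b).dA (Fin nn → Rz B d) a ∈ srcLvl (tot G F b) K nn fun l => u - off deg L b l :=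
  dA_mem_srcLvl (F := tot G F b) (T := fun l => u - off deg L b l)
    (fun l q _ => tot_mat_srcX hhom hLK hG b u l q) ha

theorem mem_srcLvl₀_iff (b : ℕ) (u : ℤ) {a : TI G F → Fin nn → Rz B d}
    (ha : a ∈ srcLvl (tot G F b) K nn fun l => u - off deg L b l) :
    a ∈ srcLvl₀ (tot G F b) K nn (fun l => u - off deg L b l) ↔
      ∀ gi, leadCol G F deg L b u gi a = 0 := by
  rw [mem_srcLvl₀]
  constructor
  · intro h gi
    funext p
    exact (h (gi.1, p) gi.2).2
  · intro h l i
    exact ⟨mem_srcLvl.1 ha l i, congrFun (h (l.1, i)) l.2⟩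

variable (G F) in
/-- The cycles of one column in one degree. -/
def colC (deg : F.ι → ℤ) (L b : ℕ) (u j : ℤ) (gi : G.ι × Fin nn) :
    Submodule B (CI F → MvPolynomial (Fin d) (ResidueField B)) :=
  ((colDiff F b).cycles (degPiece (ResidueField B) (cdeg deg b) (u - ((L * G.pos gi.1 : ℕ) : ℤ))) ⊥
    (j - G.pos gi.1)).restrictScalars B

variable (G F) in
/-- The boundaries of one column in one degree. -/
def colB (deg : F.ι → ℤ) (L b : ℕ) (u j : ℤ) (gi : G.ι × Fin nn) :
    Submodule B (CI F → MvPolynomial (Fin d) (ResidueField B)) :=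
  ((colDiff F b).bdries (degPiece (ResidueField B) (cdeg deg b) (u - ((L * G.pos gi.1 : ℕ) : ℤ))) ⊥
    (j - G.pos gi.1)).restrictScalars B

variable (G F) in
/-- The cycles of a graded piece on a free module. -/
abbrev srcC (deg : F.ι → ℤ) (K L b nn : ℕ) (u j : ℤ) : Submodule B (TI G F → Fin nn → Rz B d) :=
  ((tot G F b).diff (Fin nn → Rz B d) B).cycles
    (srcLvl (tot G F b) K nn fun l => u - off deg L b l)
    (srcLvl₀ (tot G F b) K nn fun l => u - off deg L b l) j

variable (G F) in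
/-- The boundaries of a graded piece on a free module. -/
abbrev srcB (deg : F.ι → ℤ) (K L b nn : ℕ) (u j : ℤ) : Submodule B (TI G F → Fin nn → Rz B d) :=
  ((tot G F b).diff (Fin nn → Rz B d) B).bdries
    (srcLvl (tot G F b) K nn fun l => u - off deg L b l)
    (srcLvl₀ (tot G F b) K nn fun l => u - off deg L b l) j

theorem leadCol_deg (b : ℕ) (u j : ℤ) (gi : G.ι × Fin nn) {a : TI G F → Fin nn → Rz B d}
    (ha : a ∈ ((tot G F b).diff (Fin nn → Rz B d) B).deg j) :
    leadCol G F deg L b u gi a ∈ (colDiff F b).deg (j - G.pos gi.1) := fun p hp => by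
  rw [leadCol_apply, ha (gi.1, p) ?_, Pi.zero_apply, map_zero]
  simp only [tot, colK] at hp ⊢
  push_cast at hp ⊢
  omega

include hhom in
theorem leadCol_mem_colC (hLK : L + 1 ≤ K) (hG : G.EntriesIn (maximalIdeal B)) (b : ℕ) (u j : ℤ)
    {a : TI G F → Fin nn → Rz B d} (ha : a ∈ srcC G F deg K L b nn u j) (gi : G.ι × Fin nn) :
    leadCol G F deg L b u gi a ∈ colC G F deg L b u j gi := by
  obtain ⟨h1, h2, h3⟩ := (Diff.mem_cycles _).1 ha
  refine (Diff.mem_cycles _).2 ⟨leadCol_mem_degPiece b u gi a, leadCol_deg b u j gi h2, ?_⟩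
  rw [Submodule.mem_bot]
  have h4 := (mem_srcLvl₀.1 h3)
  have h5 : leadCol G F deg L b u gi ((tot G F b).dA (Fin nn → Rz B d) a) = 0 :=
    funext fun p => (h4 (gi.1, p) gi.2).2
  rw [leadCol_d hhom hLK hG b u gi h1] at h5
  have h6 := congrArg (((-1 : ℤ) ^ G.pos gi.1) • ·) h5
  simp only [smul_zero] at h6
  rw [smul_smul, ← mul_pow, neg_one_mul, neg_neg, one_pow, one_smul] at h6
  exact h6

include hhom in
theorem mem_srcB_iff (hLK : L + 1 ≤ K) (hG : G.EntriesIn (maximalIdeal B)) (b : ℕ) (u j : ℤ)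
    {a : TI G F → Fin nn → Rz B d} (ha : a ∈ srcC G F deg K L b nn u j) :
    a ∈ srcB G F deg K L b nn u j ↔
      ∀ gi, leadCol G F deg L b u gi a ∈ colB G F deg L b u j gi := by
  constructor
  · intro h gi
    obtain ⟨w, ⟨hw, hw'⟩, y, ⟨hy, -⟩, rfl⟩ := (Diff.mem_bdries _).1 h
    refine (Diff.mem_bdries _).2 ⟨((-1 : ℤ) ^ G.pos gi.1) • leadCol G F deg L b u gi w,
      ⟨zsmul_mem (leadCol_mem_degPiece b u gi w) _, zsmul_mem ?_ _⟩, 0,
      ⟨Submodule.zero_mem _, Submodule.zero_mem _⟩, ?_⟩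
    · have := leadCol_deg (deg := deg) (L := L) b u (j + 1) gi hw'
      rwa [show j + 1 - (G.pos gi.1 : ℤ) = j - G.pos gi.1 + 1 by ring] at this
    · rw [add_zero, map_add, show leadCol G F deg L b u gi y = 0 from
        funext fun p => (mem_srcLvl₀.1 hy (gi.1, p) gi.2).2, add_zero, map_zsmul]
      exact (leadCol_d hhom hLK hG b u gi hw).symm
  · intro h
    obtain ⟨ha1, ha2, -⟩ := (Diff.mem_cycles _).1 ha
    have h' : ∀ gi, ∃ w, (w ∈ degPiece (ResidueField B) (cdeg deg b)
        (u - ((L * G.pos gi.1 : ℕ) : ℤ)) ∧ w ∈ (colDiff F b).deg (j - G.pos gi.1 + 1)) ∧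
        (colDiff F b).d w = leadCol G F deg L b u gi a := by
      intro gi
      obtain ⟨w, hw, y, ⟨hy, -⟩, e⟩ := (Diff.mem_bdries _).1 (h gi)
      rw [(Submodule.mem_bot _).1 hy, add_zero] at e
      exact ⟨w, hw, e⟩
    choose w hw hwd using h'
    obtain ⟨W, hW, hWd, hWl⟩ := exists_family_lift (K := K) b u (j + 1)
      (fun gi => ((-1 : ℤ) ^ G.pos gi.1) • w gi) (fun gi => zsmul_mem (hw gi).1 _)
      (fun gi => by
        rw [show j + 1 - (G.pos gi.1 : ℤ) = j - G.pos gi.1 + 1 by ring]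
        exact zsmul_mem (hw gi).2 _)
    refine (Diff.mem_bdries _).2 ⟨W, ⟨hW, hWd⟩, a - (tot G F b).dA (Fin nn → Rz B d) W,
      ⟨?_, Submodule.sub_mem _ ha2 (d_mem_deg _ hWd)⟩, add_sub_cancel _ _⟩
    have hX := Submodule.sub_mem _ ha1
      (dA_mem_srcLvl_tot hhom hLK hG b u hW)
    refine (mem_srcLvl₀_iff b u hX).2 fun gi => ?_
    rw [map_sub, leadCol_d hhom hLK hG b u gi hW, hWl, map_zsmul, smul_smul, ← mul_pow,
      neg_one_mul, neg_neg, one_pow, one_smul, sub_eq_zero]
    exact (hwd gi).symm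

include hhom in
theorem exists_srcC (hLK : L + 1 ≤ K) (hG : G.EntriesIn (maximalIdeal B)) (b : ℕ) (u j : ℤ)
    (y : G.ι × Fin nn → CI F → MvPolynomial (Fin d) (ResidueField B))
    (hy : ∀ gi, y gi ∈ colC G F deg L b u j gi) :
    ∃ a ∈ srcC G F deg K L b nn u j, ∀ gi, leadCol G F deg L b u gi a = y gi := by
  obtain ⟨a, ha, had, hal⟩ := exists_family_lift (K := K) b u j y
    (fun gi => ((Diff.mem_cycles _).1 (hy gi)).1) (fun gi => ((Diff.mem_cycles _).1 (hy gi)).2.1)
  refine ⟨a, (Diff.mem_cycles _).2 ⟨ha, had, ?_⟩, hal⟩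
  refine (mem_srcLvl₀_iff b u
    (dA_mem_srcLvl_tot hhom hLK hG b u ha)).2 fun gi => ?_
  rw [leadCol_d hhom hLK hG b u gi ha, hal,
    show (colK F b).dA (MvPolynomial (Fin d) (ResidueField B)) (y gi) = 0 from
      (Submodule.mem_bot _).1 ((Diff.mem_cycles _).1 (hy gi)).2.2, smul_zero]

include hhom in
theorem len_src (hLK : L + 1 ≤ K) (hG : G.EntriesIn (maximalIdeal B)) (b : ℕ) (u j : ℤ) :
    len (srcB G F deg K L b nn u j) (srcC G F deg K L b nn u j) =
      ∑ gi : G.ι × Fin nn, len (colB G F deg L b u j gi) (colC G F deg L b u j gi) :=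
  len_eq_sum (fun gi => leadCol G F deg L b u gi) _ _
    (fun _ ha gi => leadCol_mem_colC hhom hLK hG b u j ha gi)
    (fun _ ha => mem_srcB_iff hhom hLK hG b u j ha) (exists_srcC hhom hLK hG b u j)

end Vale.Agent.P202.Mixed.Window
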