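import Vale.Agent.P202.Mixed.Window.Trans
import Vale.Agent.P202.Mixed.Window.Corner

/-!
# P202 mixed characteristic, the window: the Euler characteristic of `H₀(G ⊗ M) ⊗ F`

The pair of everything modulo `killEmpty` has the Euler characteristic of the alternating number
of basis vectors of `F` times the length of the zeroth homology of `G ⊗ M`.
-/

noncomputable section

namespace Vale.Agent.P202.Mixed.Window

open IsLocalRing Finset

universe u

variable {B : Type u} [CommRing B] [IsLocalRing B] {d : ℕ} {G : FreeCx B}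
  {F : FreeCx (Rz B d)} {M : Type u} [AddCommGroup M] [Module (Rz B d) M] [Module B M]
  [IsScalarTower B (Rz B d) M] (hM : Module.length B M ≠ ⊤)

include hM

theorem cycles_killEmpty_of_lt (b : ℕ) {P : ℤ} (hP : P < d) :
    ((tot G F b).diff M B).deg P ≤ killEmpty G F M := fun x hx =>
  mem_killEmpty.2 fun f => by
    convert Submodule.zero_mem (bd0 d G M) using 1
    funext g
    rw [slot_apply]
    split_ifs with hg
    · refine hx (g, f, ∅) ?_
      show ((G.pos g + (F.pos f + (d - (∅ : Finset (Fin d)).card)) : ℕ) : ℤ) ≠ P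
      rw [Finset.card_empty]
      push_cast
      omega
    · rfl

theorem hl_killEmpty_low (b : ℕ) {P : ℤ} (hP : P < d) :
    hl ((tot G F b).diff M B) ⊤ (killEmpty G F M) P = 0 :=
  ln_eq_zero fun x hx => by
    obtain ⟨-, h2, -⟩ := (Diff.mem_cycles _).1 hx
    exact (Diff.mem_bdries _).2 ⟨0, ⟨trivial, Submodule.zero_mem _⟩, x,
      ⟨cycles_killEmpty_of_lt hM b hP h2, h2⟩, by rw [map_zero, zero_add]⟩

theorem ln_killEmpty_deg (b : ℕ) (P : ℤ) :
    ln (killEmpty G F M ⊓ ((tot G F b).diff M B).deg P)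
        ((⊤ : Submodule B (TI G F → M)) ⊓ ((tot G F b).diff M B).deg P) =
      ((univ.filter fun f : F.ι => (F.pos f : ℤ) + d = P).card : ℤ) *
        hl (G.diff M B) ⊤ ⊥ 0 := by
  classical
  have hG := length_pi_ne_top hM G.ι
  set D := (tot G F b).diff M B
  have h := len_eq_sum (A := B)
    (fun f : {f : F.ι // (F.pos f : ℤ) + d = P} => slot G F M f.1 ∅)
    (P := killEmpty G F M ⊓ D.deg P) (N := (⊤ : Submodule B (TI G F → M)) ⊓ D.deg P)
    (fun _ => (bd0 d G M).restrictScalars B) (fun _ => (G.diff M B).deg 0)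
    (fun x _ f g hg => slot_mem_bd0_of_pos g (by exact_mod_cast hg))
    (fun x hx => by
      refine ⟨fun hk f => mem_killEmpty.1 hk.1 f.1, fun hk => ⟨mem_killEmpty.2 fun f => ?_, hx.2⟩⟩
      by_cases hf : (F.pos f : ℤ) + d = P
      · exact hk ⟨f, hf⟩
      · convert Submodule.zero_mem (bd0 d G M) using 1
        funext g
        rw [slot_apply]
        split_ifs with hg
        · refine hx.2 (g, f, ∅) ?_
          show ((G.pos g + (F.pos f + (d - (∅ : Finset (Fin d)).card)) : ℕ) : ℤ) ≠ P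
          rw [Finset.card_empty]
          push_cast
          omega
        · rfl)
    (fun y hy => by
      refine ⟨fun l => if h : G.pos l.1 = 0 ∧ l.2.2 = ∅ ∧ (F.pos l.2.1 : ℤ) + d = P then
        y ⟨l.2.1, h.2.2⟩ l.1 else 0, ⟨trivial, fun l hl => dif_neg fun h => hl ?_⟩, fun f => ?_⟩
      · show ((G.pos l.1 + (F.pos l.2.1 + (d - l.2.2.card)) : ℕ) : ℤ) = P
        rw [h.1, h.2.1]
        simp only [Finset.card_empty, Nat.sub_zero, Nat.zero_add]
        push_cast
        exact h.2.2
      · funext g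
        rw [slot_apply]
        by_cases hg : G.pos g = 0
        · rw [if_pos hg, dif_pos ⟨hg, rfl, f.2⟩]
        · rw [if_neg hg]
          exact (hy f g (by exact_mod_cast hg)).symm)
  have hH : hl (G.diff M B) ⊤ ⊥ 0 =
      ln ((bd0 d G M).restrictScalars B) ((G.diff M B).deg 0) := by
    have hb : (G.diff M B).bdries ⊤ ⊥ 0 = (bd0 d G M).restrictScalars B := by
      ext v
      rw [Submodule.restrictScalars_mem, mem_bd0_iff, Diff.mem_bdries]
      constructor
      · rintro ⟨w, ⟨-, hw⟩, y, ⟨hy, -⟩, rfl⟩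
        refine ⟨w, hw, ?_⟩
        rw [(Submodule.mem_bot _).1 hy, add_zero]
        rfl
      · rintro ⟨w, hw, rfl⟩
        exact ⟨w, ⟨trivial, hw⟩, 0, ⟨Submodule.zero_mem _, Submodule.zero_mem _⟩, add_zero _⟩
    have hc : (G.diff M B).cycles ⊤ ⊥ 0 = (G.diff M B).deg 0 := by
      ext v
      rw [Diff.mem_cycles]
      refine ⟨fun h => h.2.1, fun h => ⟨trivial, h, ?_⟩⟩
      rw [Submodule.mem_bot]
      funext g
      exact (G.diff M B).d_deg 0 v h g (by omega)
    rw [hl, hb, hc]
  rw [hH]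
  unfold ln
  rw [h, ENat.toNat_sum fun _ _ => len_ne_top hG _ _, sum_const, card_univ, smul_eq_mul,
    Nat.cast_mul, Fintype.card_subtype]

/-- The alternating sum of the homology of the component over the empty subset. -/
theorem tor_euler (b N : ℕ) (hN : ∀ l : TI G F, (tot G F b).pos l ≤ N)
    (hF : ∀ f : F.ι, F.pos f + d ≤ N) :
    ∑ P ∈ range (N + 1), (-1 : ℤ) ^ (d + P) *
        hl ((tot G F b).diff M B) ⊤ (killEmpty G F M) (P : ℤ) =
      (∑ f : F.ι, (-1 : ℤ) ^ F.pos f) * hl (G.diff M B) ⊤ ⊥ 0 := by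
  classical
  have hT := length_pi_ne_top hM (TI G F)
  set D := (tot G F b).diff M B with hD
  have he := euler D hT (X := ⊤) (Y := killEmpty G F M) (fun _ _ => trivial)
    (killEmpty_stable b) le_top N ?_ ?_
  · have e : ∀ P : ℕ, (-1 : ℤ) ^ (d + P) * hl D ⊤ (killEmpty G F M) (P : ℤ) =
        (-1 : ℤ) ^ d * ((-1 : ℤ) ^ P * hl D ⊤ (killEmpty G F M) (P : ℤ)) := fun P => by
      rw [pow_add, mul_assoc]
    rw [sum_congr rfl fun P _ => e P, ← mul_sum, he, mul_sum]
    simp only [hD, ln_killEmpty_deg hM]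
    rw [Finset.sum_mul, ← sum_fiberwise_of_maps_to (t := range (N + 1))
      (g := fun f : F.ι => F.pos f + d) (fun f _ => mem_range.2 (Nat.lt_succ_of_le (hF f)))]
    refine sum_congr rfl fun P _ => ?_
    rw [sum_congr rfl (g := fun _ => (-1 : ℤ) ^ d * (-1 : ℤ) ^ P * hl (G.diff M B) ⊤ ⊥ 0)
      fun f hf => ?_, sum_const, nsmul_eq_mul]
    · rw [show (univ.filter fun f : F.ι => (F.pos f : ℤ) + d = (P : ℤ)) =
        univ.filter fun f : F.ι => F.pos f + d = P from filter_congr fun f _ => by omega]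
      ring
    · rw [← (mem_filter.1 hf).2, pow_add, mul_comm ((-1 : ℤ) ^ d), mul_assoc ((-1 : ℤ) ^ F.pos f),
        ← mul_pow, neg_one_mul, neg_neg, one_pow, mul_one]
  · intro x hx
    exact cycles_killEmpty_of_lt hM b (by omega : (-1 : ℤ) < d) hx.2
  · intro x hx
    rw [show x = 0 from funext fun l => hx.2 l ?_]
    · exact Submodule.zero_mem _
    · have := hN l
      omega

end Vale.Agent.P202.Mixed.Window
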